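import Crest.Agent.R17.F.Defs

/-!
Row 17, block F: Cauchy–Schwarz helpers, dyadic decompositions, the functions `bd` and `En`.
-/

set_option autoImplicit false

namespace Crest.Agent.R17.F

open scoped Classical ComplexConjugate

theorem sq_sum_le_card {ι : Type*} (S : Finset ι) (x : ι → ℂ) :
    ‖∑ i ∈ S, x i‖ ^ 2 ≤ S.card * ∑ i ∈ S, ‖x i‖ ^ 2 := by
  exact (pow_le_pow_left₀ (norm_nonneg _) (norm_sum_le S x) 2).trans sq_sum_le_card_mul_sum_sq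

/-- weighted Cauchy–Schwarz -/
theorem sq_sum_le_weight {ι : Type*} (S : Finset ι) (w : ι → ℝ) (x : ι → ℂ)
    (hw : ∀ i ∈ S, 0 < w i) :
    ‖∑ i ∈ S, x i‖ ^ 2 ≤ (∑ i ∈ S, (w i)⁻¹) * ∑ i ∈ S, w i * ‖x i‖ ^ 2 := by
  refine (pow_le_pow_left₀ (norm_nonneg _) (norm_sum_le S x) 2).trans
    (Finset.sum_sq_le_sum_mul_sum_of_sq_le_mul S (fun i hi => (inv_pos.2 (hw i hi)).le)
      (fun i hi => mul_nonneg (hw i hi).le (sq_nonneg _)) fun i hi => ?_)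
  rw [inv_mul_cancel_left₀ (hw i hi).ne']

/-- splitting the inner sum into classes -/
theorem sum_sq_fiber {κ ι γ : Type*} (A : Finset κ) (T : Finset ι) (S : Finset γ) (cls : ι → γ)
    (hS : ∀ j ∈ T, cls j ∈ S) (x : κ → ι → ℂ) :
    ∑ k ∈ A, ‖∑ j ∈ T, x k j‖ ^ 2 ≤
      S.card * ∑ s ∈ S, ∑ k ∈ A, ‖∑ j ∈ T.filter (cls · = s), x k j‖ ^ 2 := by
  rw [Finset.sum_comm, Finset.mul_sum]
  refine Finset.sum_le_sum fun k _ => ?_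
  rw [← Finset.sum_fiberwise_of_maps_to hS]
  exact sq_sum_le_card S _

theorem sum_sq_fiber_le {κ ι γ : Type*} (A : Finset κ) (T : Finset ι) (S : Finset γ) (cls : ι → γ)
    (hS : ∀ j ∈ T, cls j ∈ S) (x : κ → ι → ℂ) {B : ℝ}
    (h : ∀ s ∈ S, ∑ k ∈ A, ‖∑ j ∈ T.filter (cls · = s), x k j‖ ^ 2 ≤ B) :
    ∑ k ∈ A, ‖∑ j ∈ T, x k j‖ ^ 2 ≤ (S.card : ℝ) ^ 2 * B := by
  refine (sum_sq_fiber A T S cls hS x).trans ?_
  rw [sq, mul_assoc, ← nsmul_eq_mul S.card B]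
  exact mul_le_mul_of_nonneg_left (Finset.sum_le_card_nsmul S _ B h) (Nat.cast_nonneg _)

/-- the dyadic class -/
noncomputable def fbaCls (x : ℝ) : ℕ := Nat.log 2 ⌊x⌋₊

theorem fba_spec {x : ℝ} (hx : 1 ≤ x) : (2 : ℝ) ^ fbaCls x ≤ x ∧ x ≤ 2 * 2 ^ fbaCls x := by
  constructor
  · have h := Nat.pow_log_le_self 2 (Nat.floor_pos.2 hx).ne'
    exact le_trans (by exact_mod_cast h) (Nat.floor_le (zero_le_one.trans hx))
  · have h : ⌊x⌋₊ + 1 ≤ 2 ^ (fbaCls x + 1) := Nat.lt_pow_succ_log_self one_lt_two _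
    rw [← pow_succ']
    exact (Nat.lt_floor_add_one x).le.trans (by exact_mod_cast h)

theorem fba_mem {x H : ℝ} (h : x ≤ H) : fbaCls x ∈ Finset.range (fbaCls H + 1) :=
  Finset.mem_range.2 (Nat.lt_succ_of_le (Nat.log_mono_right (Nat.floor_le_floor h)))

theorem fba_le {H : ℝ} (hH : 1 ≤ H) {s : ℕ} (hs : s ∈ Finset.range (fbaCls H + 1)) :
    (2 : ℝ) ^ s ≤ H :=
  (pow_le_pow_right₀ one_le_two (Nat.le_of_lt_succ (Finset.mem_range.1 hs))).trans (fba_spec hH).1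

theorem fba_card {H : ℝ} (hH : 1 ≤ H) :
    ((Finset.range (fbaCls H + 1)).card : ℝ) ≤ 2 * (1 + Real.log H) := by
  have h1 := Real.log_le_log (by positivity) (fba_spec hH).1
  rw [Real.log_pow] at h1
  rw [Finset.card_range]
  push_cast
  nlinarith [Real.log_two_gt_d9, Nat.cast_nonneg (α := ℝ) (fbaCls H)]

/-- dyadic decomposition of the inner sum (class `⌊log₂ h j⌋₊`) -/
theorem sum_sq_dyadic {κ ι : Type*} (A : Finset κ) (T : Finset ι) (h : ι → ℝ) (x : κ → ι → ℂ)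
    {H B : ℝ} (hH : 1 ≤ H) (hB : 0 ≤ B) (hT : ∀ j ∈ T, 1 ≤ h j ∧ h j ≤ H)
    (hb : ∀ (D : ℝ) (T' : Finset ι), 1 ≤ D → D ≤ H → T' ⊆ T → (∀ j ∈ T', D ≤ h j ∧ h j ≤ 2 * D) →
      ∑ k ∈ A, ‖∑ j ∈ T', x k j‖ ^ 2 ≤ B) :
    ∑ k ∈ A, ‖∑ j ∈ T, x k j‖ ^ 2 ≤ (2 * (1 + Real.log H)) ^ 2 * B := by
  refine (sum_sq_fiber_le A T (Finset.range (fbaCls H + 1)) (fun j => fbaCls (h j))
    (fun j hj => fba_mem (hT j hj).2) x (B := B) fun s hs => ?_).trans ?_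
  · refine hb (2 ^ s) _ (one_le_pow₀ one_le_two) (fba_le hH hs) (fun j hj => ?_) fun j hj => ?_
    · simp only [Finset.mem_filter] at hj
      exact hj.1
    · simp only [Finset.mem_filter] at hj
      obtain ⟨h1, rfl⟩ := hj
      exact fba_spec (hT j h1).1
  · exact mul_le_mul_of_nonneg_right (pow_le_pow_left₀ (Nat.cast_nonneg _) (fba_card hH) 2) hB

/-- dyadic decomposition of the rows (class `⌊log₂ (K / h k)⌋₊`) -/
theorem sum_dyadic {κ : Type*} (A : Finset κ) (h f : κ → ℝ) {K B : ℝ} (hK : 1 ≤ K) (hB : 0 ≤ B)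
    (hA : ∀ k ∈ A, 1 ≤ h k ∧ h k ≤ K)
    (hb : ∀ (K' : ℝ) (A' : Finset κ), 1 ≤ K' → K' ≤ K → A' ⊆ A →
      (∀ k ∈ A', K' ≤ 2 * h k ∧ h k ≤ K') → ∑ k ∈ A', f k ≤ B) :
    ∑ k ∈ A, f k ≤ 2 * (1 + Real.log K) * B := by
  rw [← Finset.sum_fiberwise_of_maps_to (t := Finset.range (fbaCls K + 1))
    (g := fun k => fbaCls (K / h k))
    fun k hk => fba_mem (div_le_self (zero_le_one.trans hK) (hA k hk).1)]
  refine (Finset.sum_le_card_nsmul _ _ B fun s hs => ?_).trans ?_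
  · have h2 : (0 : ℝ) < 2 ^ s := by positivity
    refine hb (K / 2 ^ s) _ ((one_le_div h2).2 (fba_le hK hs))
      (div_le_self (zero_le_one.trans hK) (one_le_pow₀ one_le_two)) (Finset.filter_subset _ _)
      fun k hk => ?_
    obtain ⟨h1, e⟩ := Finset.mem_filter.1 hk
    have h0 : 0 < h k := zero_lt_one.trans_le (hA k h1).1
    have h3 := fba_spec ((one_le_div h0).2 (hA k h1).2)
    rw [e, le_div_iff₀ h0, div_le_iff₀ h0] at h3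
    rw [div_le_iff₀ h2, le_div_iff₀ h2]
    constructor <;> linarith [h3.1, h3.2]
  · rw [nsmul_eq_mul]
    exact mul_le_mul_of_nonneg_right (fba_card hK) hB

theorem fbb_root {X : ℝ} (hX : 0 ≤ X) : ∃ x : ℝ, 0 ≤ x ∧ X = x ^ 12 :=
  ⟨X ^ ((12 : ℕ)⁻¹ : ℝ), by positivity, (Real.rpow_inv_natCast_pow hX (by norm_num)).symm⟩

theorem fbb_root_one {X : ℝ} (hX : 1 ≤ X) : ∃ x : ℝ, 1 ≤ x ∧ X = x ^ 12 :=
  ⟨X ^ ((12 : ℕ)⁻¹ : ℝ), Real.one_le_rpow hX (by positivity),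
    (Real.rpow_inv_natCast_pow (by linarith) (by norm_num)).symm⟩

theorem fbb_pow {x : ℝ} (hx : 0 ≤ x) (r : ℝ) (n : ℕ) (h : 12 * r = n) : (x ^ 12) ^ r = x ^ n := by
  rw [← Real.rpow_natCast x 12, ← Real.rpow_mul hx, ← Real.rpow_natCast]
  congr 1

theorem fbb_bd {x k p : ℝ} (hx : 0 ≤ x) (hk : 0 ≤ k) (hp : 0 ≤ p) (B : ℝ) :
    bd (x ^ 12) (k ^ 12) (p ^ 12) B = x ^ 12 * k ^ 12 + B ^ 2 * (k ^ 24 * p ^ 24) +
      B * (x ^ 6 * k ^ 12 * p ^ 30) + x ^ 15 * k ^ 6 * p ^ 9 := by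
  rw [bd, fbb_pow hx _ 6 (by norm_num), fbb_pow hx _ 15 (by norm_num), fbb_pow hk _ 6 (by norm_num),
    fbb_pow hp _ 30 (by norm_num), fbb_pow hp _ 9 (by norm_num)]
  ring

theorem fbb_En (K : ℝ) {p l : ℝ} (hp : 0 ≤ p) (hl : 0 ≤ l) :
    En K (p ^ 12) (l ^ 12) = K * l ^ 12 + K * p ^ 15 * l ^ 9 + l ^ 24 + p ^ 18 * l ^ 18 := by
  rw [En, fbb_pow hp _ 15 (by norm_num), fbb_pow hp _ 18 (by norm_num), fbb_pow hl _ 9 (by norm_num),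
    fbb_pow hl _ 18 (by norm_num)]
  ring

theorem fbb_le {d a : ℝ} (hd : 1 ≤ d) (ha : 0 ≤ a) {m n : ℕ} (h : m ≤ n) : d ^ m * a ≤ d ^ n * a :=
  mul_le_mul_of_nonneg_right (pow_le_pow_right₀ hd h) ha

theorem bd_nonneg {X K P : ℝ} (hX : 0 ≤ X) (hK : 0 ≤ K) (hP : 0 ≤ P) {B : ℝ} (hB : 0 ≤ B) :
    0 ≤ bd X K P B := by
  unfold bd
  positivity

theorem one_le_bd {X K P B : ℝ} (hX : 0 ≤ X) (hK : 1 ≤ K) (hP : 1 ≤ P) (hB : 1 ≤ B) :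
    1 ≤ bd X K P B := by
  have h1 : 1 ≤ (B * K * P) ^ 2 :=
    one_le_pow₀ (one_le_mul_of_one_le_of_one_le (one_le_mul_of_one_le_of_one_le hB hK) hP)
  have h2 : 0 ≤ X * K := by positivity
  have h3 : 0 ≤ X ^ (1 / 2 : ℝ) * (B * K) * P ^ (5 / 2 : ℝ) := by positivity
  have h4 : 0 ≤ X ^ (5 / 4 : ℝ) * K ^ (1 / 2 : ℝ) * P ^ (3 / 4 : ℝ) := by positivity
  unfold bd
  linarith

theorem bd_mono {X K K' P P' B B' : ℝ} (hX : 0 ≤ X) (hK : 0 ≤ K) (hP : 0 ≤ P) (hB : 0 ≤ B)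
    (h1 : K ≤ K') (h2 : P ≤ P') (h3 : B ≤ B') : bd X K P B ≤ bd X K' P' B' := by
  have hB' := hB.trans h3
  have hK' := hK.trans h1
  unfold bd
  gcongr

theorem bd_scale_X {X K P B c : ℝ} (hX : 0 ≤ X) (hK : 0 ≤ K) (hP : 0 ≤ P) (hB : 0 ≤ B)
    (hc : 1 ≤ c) : bd (c * X) K P B ≤ c ^ 2 * bd X K P B := by
  obtain ⟨x, hx, rfl⟩ := fbb_root hX
  obtain ⟨k, hk, rfl⟩ := fbb_root hK
  obtain ⟨p, hp, rfl⟩ := fbb_root hP
  obtain ⟨d, hd, rfl⟩ := fbb_root_one hc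
  rw [← mul_pow, fbb_bd (by positivity) hk hp, fbb_bd hx hk hp]
  have h1 := fbb_le (a := x ^ 12 * k ^ 12) hd (by positivity) (show 12 ≤ 24 by norm_num)
  have h2 := fbb_le (a := B ^ 2 * (k ^ 24 * p ^ 24)) hd (by positivity) (show 0 ≤ 24 by norm_num)
  have h3 := fbb_le (a := B * (x ^ 6 * k ^ 12 * p ^ 30)) hd (by positivity) (show 6 ≤ 24 by norm_num)
  have h4 := fbb_le (a := x ^ 15 * k ^ 6 * p ^ 9) hd (by positivity) (show 15 ≤ 24 by norm_num)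
  linear_combination h1 + h2 + h3 + h4

theorem bd_scale_B {X K P B c : ℝ} (hX : 0 ≤ X) (hK : 0 ≤ K) (hP : 0 ≤ P) (hB : 0 ≤ B)
    (hc : 1 ≤ c) : bd X K P (c * B) ≤ c ^ 2 * bd X K P B := by
  obtain ⟨x, hx, rfl⟩ := fbb_root hX
  obtain ⟨k, hk, rfl⟩ := fbb_root hK
  obtain ⟨p, hp, rfl⟩ := fbb_root hP
  rw [fbb_bd hx hk hp, fbb_bd hx hk hp]
  have h1 := fbb_le (a := x ^ 12 * k ^ 12) hc (by positivity) (show 0 ≤ 2 by norm_num)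
  have h3 := fbb_le (a := B * (x ^ 6 * k ^ 12 * p ^ 30)) hc (by positivity) (show 1 ≤ 2 by norm_num)
  have h4 := fbb_le (a := x ^ 15 * k ^ 6 * p ^ 9) hc (by positivity) (show 0 ≤ 2 by norm_num)
  linear_combination h1 + h3 + h4

/-- rows `f k₁`: length `K / F`, extra conductor `E ≤ √F` -/
theorem bd_div {X K P F E : ℝ} (hX : 0 ≤ X) (hK : 0 ≤ K) (hP : 0 ≤ P) (hF : 1 ≤ F) (hE : 0 ≤ E)
    (hEF : E ^ 2 ≤ F) : bd X (K / F) P E ≤ F ^ (-(1 / 2) : ℝ) * bd X K P 1 := by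
  obtain ⟨x, hx, rfl⟩ := fbb_root hX
  obtain ⟨k, hk, rfl⟩ := fbb_root hK
  obtain ⟨p, hp, rfl⟩ := fbb_root hP
  obtain ⟨f, hf, rfl⟩ := fbb_root_one hF
  have hf0 : 0 < f := by linarith
  obtain ⟨k, rfl⟩ : ∃ k', k = k' * f := ⟨k / f, by field_simp⟩
  have hk' : 0 ≤ k := nonneg_of_mul_nonneg_left hk hf0
  have hE' : E ≤ f ^ 6 := by
    refine pow_le_pow_left₀ hE ?_ 1 |>.trans' (by simp) |>.trans (le_of_eq (pow_one _))
    exact (pow_le_pow_iff_left₀ hE (by positivity) two_ne_zero).1 (by rwa [← pow_mul])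
  rw [Real.rpow_neg (by positivity), fbb_pow hf0.le _ 6 (by norm_num), ← div_pow,
    mul_div_cancel_right₀ _ hf0.ne', fbb_bd hx hk' hp, fbb_bd hx hk hp, ← div_eq_inv_mul,
    le_div_iff₀ (by positivity)]
  have h1 := fbb_le (a := x ^ 12 * k ^ 12) hf (by positivity) (show 6 ≤ 12 by norm_num)
  have h2 := fbb_le (a := k ^ 24 * p ^ 24) hf (by positivity) (show 18 ≤ 24 by norm_num)
  have h2' := mul_le_mul_of_nonneg_right hEF (show 0 ≤ f ^ 6 * (k ^ 24 * p ^ 24) by positivity)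
  have h3 := mul_le_mul_of_nonneg_right hE' (show 0 ≤ f ^ 6 * (x ^ 6 * k ^ 12 * p ^ 30) by positivity)
  linear_combination h1 + h2 + h2' + h3

/-- `X^{5/4} K^{1/2} P^{3/4} = (X K)^{1/4} (X^{4/3} K^{1/3} P)^{3/4}` -/
theorem bd_final {X K P : ℝ} (hX : 0 ≤ X) (hK : 0 ≤ K) (hP : 0 ≤ P) :
    bd X K P 1 ≤ 2 * (X * K + K ^ 2 * P ^ 2 + X ^ (1 / 2 : ℝ) * K * P ^ (5 / 2 : ℝ) +
      X ^ (4 / 3 : ℝ) * K ^ (1 / 3 : ℝ) * P) := by
  obtain ⟨x, hx, rfl⟩ := fbb_root hX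
  obtain ⟨k, hk, rfl⟩ := fbb_root hK
  obtain ⟨p, hp, rfl⟩ := fbb_root hP
  rw [fbb_bd hx hk hp, fbb_pow hx _ 6 (by norm_num), fbb_pow hx _ 16 (by norm_num),
    fbb_pow hk _ 4 (by norm_num), fbb_pow hp _ 30 (by norm_num)]
  have h : ∀ a b : ℝ, 0 ≤ a → 0 ≤ b → a * b ^ 3 ≤ a ^ 4 + b ^ 4 := fun a b ha hb => by
    rcases le_total a b with h | h
    · have : a * b ^ 3 ≤ b * b ^ 3 := by gcongr
      nlinarith [pow_nonneg ha 4]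
    · have : a * b ^ 3 ≤ a * a ^ 3 := by gcongr
      nlinarith [pow_nonneg hb 4]
  have h1 := h (x ^ 3 * k ^ 3) (x ^ 4 * k * p ^ 3) (by positivity) (by positivity)
  have h2 : 0 ≤ k ^ 24 * p ^ 24 := by positivity
  have h3 : 0 ≤ x ^ 6 * k ^ 12 * p ^ 30 := by positivity
  have h4 : 0 ≤ x ^ 16 * k ^ 4 * p ^ 12 := by positivity
  linear_combination h1 + h2 + h3 + h4

theorem En_nonneg {K P L : ℝ} (hK : 0 ≤ K) (hP : 0 ≤ P) (hL : 0 ≤ L) : 0 ≤ En K P L := by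
  unfold En
  positivity

theorem En_scale {K P L c : ℝ} (hK : 0 ≤ K) (hP : 0 ≤ P) (hL : 0 ≤ L) (hc : 1 ≤ c) :
    En K P (c * L) ≤ c ^ 2 * En K P L := by
  obtain ⟨p, hp, rfl⟩ := fbb_root hP
  obtain ⟨l, hl, rfl⟩ := fbb_root hL
  obtain ⟨d, hd, rfl⟩ := fbb_root_one hc
  rw [← mul_pow, fbb_En K hp (by positivity), fbb_En K hp hl]
  have h1 := fbb_le (a := K * l ^ 12) hd (by positivity) (show 12 ≤ 24 by norm_num)
  have h2 := fbb_le (a := K * p ^ 15 * l ^ 9) hd (by positivity) (show 9 ≤ 24 by norm_num)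
  have h4 := fbb_le (a := p ^ 18 * l ^ 18) hd (by positivity) (show 18 ≤ 24 by norm_num)
  linear_combination h1 + h2 + h4

theorem En_div {K P L c : ℝ} (hK : 0 ≤ K) (hP : 0 ≤ P) (hL : 0 ≤ L) (hc : 1 ≤ c) :
    c ^ (2 / 3 : ℝ) * En K P (L / c) ≤ En K P L := by
  obtain ⟨p, hp, rfl⟩ := fbb_root hP
  obtain ⟨l, hl, rfl⟩ := fbb_root hL
  obtain ⟨d, hd, rfl⟩ := fbb_root_one hc
  have hd0 : 0 < d := by linarith
  obtain ⟨l, rfl⟩ : ∃ l', l = l' * d := ⟨l / d, by field_simp⟩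
  have hl' : 0 ≤ l := nonneg_of_mul_nonneg_left hl hd0
  rw [fbb_pow hd0.le _ 8 (by norm_num), ← div_pow, mul_div_cancel_right₀ _ hd0.ne', fbb_En K hp hl,
    fbb_En K hp hl']
  have h1 := fbb_le (a := K * l ^ 12) hd (by positivity) (show 8 ≤ 12 by norm_num)
  have h2 := fbb_le (a := K * p ^ 15 * l ^ 9) hd (by positivity) (show 8 ≤ 9 by norm_num)
  have h3 := fbb_le (a := l ^ 24) hd (by positivity) (show 8 ≤ 24 by norm_num)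
  have h4 := fbb_le (a := p ^ 18 * l ^ 18) hd (by positivity) (show 8 ≤ 18 by norm_num)
  linear_combination h1 + h2 + h3 + h4

/-- amplitude squared times dual energy: with `L = B² K² P / Y`, `X = Y P`, `(Y / (B K))² = X / L` -/
theorem amp_En {Y K P B : ℝ} (hY : 0 < Y) (hK : 0 < K) (hP : 0 < P) (hB : 1 ≤ B) :
    (Y / (B * K)) ^ 2 * En K P (B ^ 2 / Y * K ^ 2 * P) ≤ bd (Y * P) K P B := by
  obtain ⟨y, hy, rfl⟩ := fbb_root hY.le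
  obtain ⟨k, hk, rfl⟩ := fbb_root hK.le
  obtain ⟨p, hp, rfl⟩ := fbb_root hP.le
  obtain ⟨b, hb, rfl⟩ := fbb_root_one hB
  have hy0 : y ≠ 0 := by rintro rfl; simp at hY
  have hk0 : k ≠ 0 := by rintro rfl; simp at hK
  have hb0 : 0 < b := by linarith
  rw [show (b ^ 12) ^ 2 / y ^ 12 * (k ^ 12) ^ 2 * p ^ 12 = (b ^ 2 / y * k ^ 2 * p) ^ 12 by ring,
    fbb_En _ hp (by positivity), ← mul_pow y, fbb_bd (by positivity) hk hp]
  have e : (y ^ 12 / (b ^ 12 * k ^ 12)) ^ 2 * (k ^ 12 * (b ^ 2 / y * k ^ 2 * p) ^ 12 +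
      k ^ 12 * p ^ 15 * (b ^ 2 / y * k ^ 2 * p) ^ 9 + (b ^ 2 / y * k ^ 2 * p) ^ 24 +
      p ^ 18 * (b ^ 2 / y * k ^ 2 * p) ^ 18) = (y * p) ^ 12 * k ^ 12 + (b ^ 12) ^ 2 * (k ^ 24 * p ^ 24) +
      b ^ 12 * ((y * p) ^ 6 * k ^ 12 * p ^ 30) + (y * p) ^ 15 * k ^ 6 * p ^ 9 / b ^ 6 := by
    field_simp
    ring
  rw [e]
  have := div_le_self (a := (y * p) ^ 15 * k ^ 6 * p ^ 9) (by positivity) (one_le_pow₀ (n := 6) hb)
  linarith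

end Crest.Agent.R17.F
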