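import Crest.Agent.R17.F.Lin

/-!
Row 17, block F: residue classes modulo `3 c₀`; the additive expansion of the level part.
-/

set_option autoImplicit false

namespace Crest.Agent.R17.F

open scoped Classical ComplexConjugate

/-- Split the rows (`Finset.sum_fiberwise_of_maps_to`) and the marks (`sum_sq_fiber_le`, `TE` is a
sum over `Rs`) into classes in `res (3 c₀)` (`exists_res`, `card_res`, `nm (3 c₀) ≤ nm Q`).  If a
pair of classes contains a row `k₀` and a mark `r₀`, let `α'` be an inverse of `α (k₀ r₀ e)²`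
modulo `3 c₀`; otherwise the contribution is zero. -/
theorem s5_of_s6 {τ : O → ℂ} (h : S6 τ) : S5 τ := by
  intro Q a ε hQ ha hε
  obtain ⟨C, hC, h⟩ := h Q a ε hQ ha hε
  have hQ0 := nm_nonneg Q
  refine ⟨nm Q ^ 3 * C, by positivity,
    fun c₀ α e χ w M Z K Y P t Rs A c hc he heQ hχ heZ hM hR hRs hc1 hA hsq => ?_⟩
  have hm : 3 * c₀ ≠ 0 := ne_zero_of_dvd_ne_zero hQ.1 hc.2.1
  choose cls hcls hcls' using exists_res hm
  set B := C * Z ^ ε * (1 + |t|) ^ 12 * (M * bd (Y * P) K P (nm e)) with hB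
  have key : ∀ (A' Rs' : Finset O) (s s' : O), (∀ k ∈ A', k ∈ A ∧ cls k = s) →
      (∀ r ∈ Rs', r ∈ Rs ∧ cls r = s') →
      ∑ k ∈ A', ‖TE τ (fun n => eQ (-(n * α)) (3 * c₀) * (w * Fp e χ n)) a Y t Rs' c k‖ ^ 2 ≤ B := by
    intro A' Rs' s s' h1 h2
    obtain ⟨α', hα'⟩ : ∃ α', ∀ k ∈ A', ∀ r ∈ Rs', 3 * c₀ ∣ α * α' * (k * r * e) ^ 2 - 1 := by
      rcases A'.eq_empty_or_nonempty with rfl | ⟨k₀, hk₀⟩
      · exact ⟨0, by simp⟩
      rcases Rs'.eq_empty_or_nonempty with rfl | ⟨r₀, hr₀⟩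
      · exact ⟨0, by simp⟩
      have d1 : 3 * c₀ ∣ Q * e := hc.2.1.mul_right e
      obtain ⟨b, -, hb⟩ := twb_inv (q := 3 * c₀) (a := α * (k₀ * r₀ * e) ^ 2)
        ((hc.2.2.1.coprime_three.mul_right hc.2.2.2).mul_left
          (((((hA k₀ (h1 k₀ hk₀).1).2.1.of_isCoprime_of_dvd_right d1).mul_left
            ((hRs r₀ (h2 r₀ hr₀).1).2.2.1.of_isCoprime_of_dvd_right d1)).mul_left
              (heQ.of_isCoprime_of_dvd_right hc.2.1)).pow_left))
      refine ⟨b, fun k hk r hr => ?_⟩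
      have e1 : 3 * c₀ ∣ k - k₀ := by
        have := (hcls' k).sub (hcls' k₀)
        rwa [(h1 k hk).2, (h1 k₀ hk₀).2, sub_sub_sub_cancel_right] at this
      have e2 : 3 * c₀ ∣ r - r₀ := by
        have := (hcls' r).sub (hcls' r₀)
        rwa [(h2 r hr).2, (h2 r₀ hr₀).2, sub_sub_sub_cancel_right] at this
      have := hb.add (((e1.mul_right r).add (e2.mul_left k₀)).mul_left
        (α * b * e ^ 2 * (k * r + k₀ * r₀)))
      convert this using 1
      ring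
    exact h c₀ α α' e χ w M Z K Y P t Rs' A' c hc he heQ hχ heZ hM hR
      (fun r hr => hRs r (h2 r hr).1) hc1 (fun k hk => hA k (h1 k hk).1)
      (fun k hk => hsq k (h1 k hk).1) hα'
  have hB0 : 0 ≤ B := by simpa using key ∅ ∅ 0 0 (by simp) (by simp)
  have hcard : ((res (3 * c₀)).card : ℝ) ≤ nm Q := by
    rw [card_res hm]
    exact nm_le_of_dvd hc.2.1 hQ.1
  rw [← Finset.sum_fiberwise_of_maps_to (t := res (3 * c₀)) (g := cls) fun k _ => hcls k]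
  refine (Finset.sum_le_card_nsmul _ _ (((res (3 * c₀)).card : ℝ) ^ 2 * B) fun s _ =>
    sum_sq_fiber_le _ Rs (res (3 * c₀)) cls (fun r _ => hcls r) _ fun s' _ =>
      key _ _ s s' (fun k hk => Finset.mem_filter.1 hk) fun r hr => Finset.mem_filter.1 hr).trans ?_
  rw [nsmul_eq_mul]
  calc _ ≤ nm Q * (nm Q ^ 2 * B) := by gcongr
    _ = _ := by rw [hB]; ring

/-- `FT_inv`, `rsum_eq_sum`, `TE_sum`, `TE_const_mul`, `‖FT Q G h / nm Q‖ ≤ 1`, `sq_sum_le_card` -/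
theorem s3_of_s4 {τ : O → ℂ} (hτ : Gr τ) (h : S4 τ) : S3 τ := by
  intro Q a ε hQ ha hε
  obtain ⟨C, hC, h⟩ := h Q a ε hQ ha hε
  have hQ0 := nm_pos hQ.1
  refine ⟨nm Q ^ 2 * C, by positivity, fun G Z K Y P t Rs A c hG hR hRs hc hA => ?_⟩
  have hZ : 0 < Z := by linarith [hR.1, hR.2.1]
  have hY : 0 < Y := (inv_pos.2 hZ).trans_le hR.2.2.2.2.1
  set B := C * Z ^ ε * (1 + |t|) ^ 12 * bd (Y * P) K P 1 with hB
  have hB0 : 0 ≤ B := by
    have hP : 0 ≤ P := zero_le_one.trans hR.2.2.1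
    have := bd_nonneg (X := Y * P) (by positivity) (zero_le_one.trans hR.1) hP zero_le_one
    positivity
  have e1 : G = fun n => ∑ h ∈ res Q, (nm Q : ℂ)⁻¹ * FT Q G h * eQ (-(h * n)) Q := by
    funext n
    simp only [mul_assoc]
    rw [← Finset.mul_sum, ← rsum_eq_sum hQ.1, ← FT_inv hQ.1 hG.1]
  have b1 : ∀ h, ‖(nm Q : ℂ)⁻¹ * FT Q G h‖ ≤ 1 := fun h => by
    rw [norm_mul, norm_inv, Complex.norm_real, Real.norm_of_nonneg hQ0.le, inv_mul_le_iff₀ hQ0]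
    exact norm_FT_le hQ.1 hG.2.1 h
  have e2 : ∀ k, TE τ G a Y t Rs c k = ∑ h ∈ res Q,
      (nm Q : ℂ)⁻¹ * FT Q G h * TE τ (fun n => eQ (-(h * n)) Q) a Y t Rs c k := fun k => by
    conv_lhs => rw [e1]
    rw [TE_sum hτ _ (fun h _ => ⟨1, fun n => by rw [norm_mul, norm_eQ, mul_one]; exact b1 h⟩) ha hY
      t fun r hr => (hRs r hr).1.ne_zero]
    simp only [TE_const_mul]
  have b2 : ∀ x ∈ res Q, ∑ k ∈ A, ‖(nm Q : ℂ)⁻¹ * FT Q G x *
      TE τ (fun n => eQ (-(x * n)) Q) a Y t Rs c k‖ ^ 2 ≤ B := fun x _ => by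
    by_cases h0 : FT Q G x = 0
    · simpa [h0] using hB0
    obtain ⟨c₀, α, h1, h2⟩ := hG.2.2 x h0
    simp only [h2]
    refine le_trans (Finset.sum_le_sum fun k _ => ?_) (h c₀ α Z K Y P t Rs A c h1 hR hRs hc hA)
    rw [norm_mul]
    exact pow_le_pow_left₀ (by positivity) (mul_le_of_le_one_left (norm_nonneg _) (b1 x)) 2
  simp only [e2]
  refine (Finset.sum_le_sum fun k _ => sq_sum_le_card _ _).trans ?_
  rw [← Finset.mul_sum, Finset.sum_comm]
  refine (mul_le_mul_of_nonneg_left (Finset.sum_le_card_nsmul _ _ _ b2) (Nat.cast_nonneg _)).trans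
    (le_of_eq ?_)
  rw [nsmul_eq_mul, card_res hQ.1, hB, nm]
  ring

end Crest.Agent.R17.F
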