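import Crest.Agent.R17.F.Cross

/-!
Row 17, block F: the core estimate.
-/

set_option autoImplicit false

namespace Crest.Agent.R17.F

open scoped Classical ComplexConjugate

/-- pointwise reflection of `TE`: `refl3` with `Y * nm r`, `B = nm (c₀ e)`,
`φ = (…) / √M` (`Du_const_mul`; for `M = 0` both sides vanish), `β r = c r * v r / √(nm r)` -/
theorem te_eq_dt {τ : O → ℂ} {e₀ : ℂ} (hτ : Gr τ) (hR : Refl τ e₀) (he₀ : ‖e₀‖ = 1)
    {Q c₀ α α' e : O} {χ : O → ℂ} {w : ℂ} {M P : ℝ} {Rs : Finset O} {c : O → ℂ} (hQ : Lev Q)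
    (hc : Cusp Q c₀ α) (he : Prim e) (heQ : IsCoprime e Q) (hχ : IsTw e χ)
    (hM : ∀ l, ‖w * Fd e χ l‖ ^ 2 ≤ M) (hRs : Mk (Q * e) P Rs) (hc1 : ∀ r, ‖c r‖ ≤ 1) :
    ∃ φ β : O → ℂ, (∀ l, ‖φ l‖ ≤ 1) ∧ (∀ r ∈ Rs, ‖β r‖ ^ 2 ≤ (nm r)⁻¹) ∧
      ∀ (k : O) (a Y t : ℝ), 0 < a → 0 < Y → Prim k → Squarefree k → IsCoprime k (Q * e) →
        (∀ r ∈ Rs, 3 * c₀ ∣ α * α' * (k * r * e) ^ 2 - 1) →
        ‖TE τ (fun n => eQ (-(n * α)) (3 * c₀) * (w * Fp e χ n)) a Y t Rs c k‖ ^ 2 ≤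
          M * (Y / (nm (c₀ * e) * nm k)) ^ 2 * ‖DT τ φ a t (nm (c₀ * e) ^ 2 / Y) Rs β k‖ ^ 2 := by
  obtain ⟨u, v, hu, hv, h⟩ := refl3 hτ hR he₀ hQ hc he heQ hχ
  have hM0 : 0 ≤ M := (sq_nonneg _).trans (hM 0)
  have hM1 : ∀ l, ‖w * Fd e χ l‖ ≤ √M := fun l => Real.le_sqrt_of_sq_le (hM l)
  obtain ⟨φ, hφ⟩ : ∃ φ : O → ℂ, φ = fun l => eQ (l * α') (3 * c₀) * (w * Fd e χ l) / (√M : ℝ) :=
    ⟨_, rfl⟩
  have hφ1 : ∀ l, eQ (l * α') (3 * c₀) * (w * Fd e χ l) = (√M : ℝ) * φ l := fun l => by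
    rw [hφ]
    rcases (Real.sqrt_nonneg M).eq_or_lt with h0 | h0
    · have := hM1 l
      rw [← h0] at this
      rw [norm_le_zero_iff.1 this, ← h0]
      simp
    · rw [mul_div_cancel₀ _ (Complex.ofReal_ne_zero.2 h0.ne')]
  refine ⟨φ, fun r => c r * v r * ((√(nm r))⁻¹ : ℝ), fun l => ?_, fun r hr => ?_,
    fun k a Y t ha hY hk hks hkQ hα => ?_⟩
  · rw [hφ, norm_div, norm_mul, norm_eQ, one_mul, Complex.norm_of_nonneg (Real.sqrt_nonneg M)]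
    exact div_le_one_of_le₀ (hM1 l) (Real.sqrt_nonneg M)
  · rw [norm_mul, Complex.norm_of_nonneg (by positivity), mul_pow, inv_pow,
      Real.sq_sqrt (nm_nonneg r)]
    refine mul_le_of_le_one_left (inv_nonneg.2 (nm_nonneg r)) (pow_le_one₀ (norm_nonneg _) ?_)
    rw [norm_mul]
    exact mul_le_one₀ (hc1 r) (norm_nonneg _) (hv r)
  · have key : TE τ (fun n => eQ (-(n * α)) (3 * c₀) * (w * Fp e χ n)) a Y t Rs c k =
        u k * ((√M * (Y / (nm (c₀ * e) * nm k)) : ℝ) : ℂ) *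
          DT τ φ a t (nm (c₀ * e) ^ 2 / Y) Rs (fun r => c r * v r * ((√(nm r))⁻¹ : ℝ)) k := by
      rw [TE, DT, Finset.mul_sum]
      refine Finset.sum_congr rfl fun r hr => ?_
      obtain ⟨r1, r2, r3, -⟩ := hRs r hr
      have hr0 := nm_pos r1.ne_zero
      split_ifs with hrk
      · have e1 : (nm (c₀ * e) * nm k * nm r) ^ 2 / (Y * nm r) =
            nm (c₀ * e) ^ 2 / Y * nm k ^ 2 * nm r := by field_simp
        rw [h k r α' w a (Y * nm r) t ha (by positivity) hk hks hkQ r1 r2 r3 hrk (hα r hr), e1,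
          mul_div_mul_right _ _ hr0.ne']
        simp only [hφ1, mul_assoc ((√M : ℝ) : ℂ), Du_const_mul]
        push_cast
        ring
      · rw [mul_zero]
    have hY' : 0 ≤ Y / (nm (c₀ * e) * nm k) :=
      div_nonneg hY.le (mul_nonneg (nm_nonneg _) (nm_nonneg _))
    rw [key, norm_mul, norm_mul, Complex.norm_of_nonneg (by positivity), mul_pow, mul_pow, mul_pow,
      Real.sq_sqrt hM0]
    refine mul_le_mul_of_nonneg_right (mul_le_of_le_one_left (by positivity)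
      (pow_le_one₀ (norm_nonneg _) (hu k))) (sq_nonneg _)

/-- `te_eq_dt`; `sum_dyadic` in `nm k`: for `K' ≤ 2 nm k`, `nm k ≤ K'` the amplitude is
`≤ 4 (Y / (B K'))²`; `SD` with `Z' = nm Q ^ 2 * Z ^ 3` and exponent `ε / 4`; `amp_En`, `bd_mono`,
`bd_scale_B` (`B = nm c₀ * nm e ≤ nm Q * nm e`); `(Y / (B K'))² / Z' ≤ 1 ≤ bd` (`one_le_bd`). -/
theorem s6 {τ : O → ℂ} {e₀ : ℂ} (hτ : Gr τ) (hR : Refl τ e₀) (he₀ : ‖e₀‖ = 1) (h : SD τ) :
    S6 τ := by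
  intro Q a ε hQ ha hε
  obtain ⟨C, hC, hD⟩ := h a (ε / 4) ha (by positivity)
  obtain ⟨Cl, hCl, hl⟩ := one_add_log_rpow_le 1 (ε := ε / 4) (by positivity)
  have hQ1 := one_le_nm hQ.1
  refine ⟨2 * Cl * (8 * C * (nm Q ^ 2) ^ (ε / 4) * nm Q ^ 2), by positivity, ?_⟩
  intro c₀ α α' e χ w M Z K Y P t Rs A c hc he heQ hχ heZ hM hrg hRs hc1 hA hsq hcong
  obtain ⟨hK, hKZ, hP, hPZ, hYZ', hYZ⟩ := hrg
  have hZ : 1 ≤ Z := hK.trans hKZ
  have hZ0 : 0 < Z := by linarith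
  have hY : 0 < Y := (inv_pos.2 hZ0).trans_le hYZ'
  have hM0 : 0 ≤ M := (sq_nonneg _).trans (hM 0)
  have hc0 : c₀ ∣ Q := (Dvd.intro_left 3 rfl).trans hc.2.1
  have hc0' : c₀ ≠ 0 := fun h0 => hQ.1 (zero_dvd_iff.1 (h0 ▸ hc0))
  have he1 := one_le_nm he.ne_zero
  obtain ⟨φ, β, hφ, hβ, hTE⟩ := te_eq_dt (α' := α') hτ hR he₀ hQ hc he heQ hχ hM hRs hc1
  obtain ⟨B, hB⟩ : ∃ B, B = nm (c₀ * e) := ⟨_, rfl⟩
  rw [← hB] at hTE
  have hB1 : 1 ≤ B := hB ▸ one_le_nm (mul_ne_zero hc0' he.ne_zero)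
  have hB2 : B ≤ nm Q * nm e := by
    rw [hB, nm_mul]
    exact mul_le_mul_of_nonneg_right (nm_le_of_dvd hc0 hQ.1) (by linarith)
  obtain ⟨Z', hZ'⟩ : ∃ Z', Z' = nm Q ^ 2 * Z ^ 3 := ⟨_, rfl⟩
  have hZ2 : Z ^ 2 ≤ Z' := by
    rw [hZ']
    exact (pow_le_pow_right₀ hZ (by norm_num)).trans
      (le_mul_of_one_le_left (by positivity) (one_le_pow₀ hQ1))
  have hZ1 : Z ≤ Z' := le_trans (le_self_pow₀ hZ two_ne_zero) hZ2
  have hL : B ^ 2 / Y ≤ Z' := by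
    have h1 : Y⁻¹ ≤ Z := inv_le_of_inv_le₀ hZ0 hYZ'
    have h2 : B ≤ nm Q * Z := hB2.trans (mul_le_mul_of_nonneg_left heZ (by linarith))
    calc B ^ 2 / Y = B ^ 2 * Y⁻¹ := div_eq_mul_inv _ _
      _ ≤ (nm Q * Z) ^ 2 * Z := by gcongr
      _ = Z' := by rw [hZ']; ring
  have hYP : 0 ≤ Y * P := by positivity
  have hbd := one_le_bd hYP hK hP he1
  obtain ⟨W, hW⟩ : ∃ W, W = bd (Y * P) K P (nm e) := ⟨_, rfl⟩
  rw [← hW] at hbd ⊢
  have key := sum_dyadic A nm (fun k => ‖TE τ (fun n => eQ (-(n * α)) (3 * c₀) * (w * Fp e χ n))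
      a Y t Rs c k‖ ^ 2) hK
    (B := 8 * C * Z' ^ (ε / 4) * nm Q ^ 2 * (1 + |t|) ^ 12 * (M * W))
    (by have : 0 < Z' := by linarith
        positivity)
    (fun k hk => ⟨one_le_nm (hA k hk).1.ne_zero, (hA k hk).2.2⟩) (fun K' A' hK' hK'K hA' hA'' => by
      have h1 := hD φ β Z' K' P (B ^ 2 / Y) t Rs A' hK' (hK'K.trans (hKZ.trans hZ1)) hP
        (hPZ.trans hZ1) (by positivity) hL hφ
        (fun r hr => ⟨(hRs r hr).1, (hRs r hr).2.1, isCoprime_one_right, (hRs r hr).2.2.2⟩) hβ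
        (fun k hk => ⟨(hA k (hA' hk)).1, hsq k (hA' hk),
          hQ.coprime_two (hA k (hA' hk)).2.1.of_mul_right_left, (hA'' k hk).2⟩)
      have h2 : ∀ k ∈ A', ‖TE τ (fun n => eQ (-(n * α)) (3 * c₀) * (w * Fp e χ n))
          a Y t Rs c k‖ ^ 2 ≤
          4 * M * (Y / (B * K')) ^ 2 * ‖DT τ φ a t (B ^ 2 / Y) Rs β k‖ ^ 2 := fun k hk => by
        refine (hTE k a Y t ha hY (hA k (hA' hk)).1 (hsq k (hA' hk)) (hA k (hA' hk)).2.1
          (hcong k (hA' hk))).trans (mul_le_mul_of_nonneg_right ?_ (sq_nonneg _))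
        have h3 := one_le_nm (hA k (hA' hk)).1.ne_zero
        have h4 : Y / (B * nm k) ≤ 2 * (Y / (B * K')) := by
          have h5 := (hA'' k hk).1
          calc Y / (B * nm k) = 2 * (Y / (B * (2 * nm k))) := by field_simp
            _ ≤ _ := by gcongr
        calc M * (Y / (B * nm k)) ^ 2 ≤ M * (2 * (Y / (B * K'))) ^ 2 := by gcongr
          _ = _ := by ring
      refine (Finset.sum_le_sum h2).trans ?_
      rw [← Finset.mul_sum]
      refine (mul_le_mul_of_nonneg_left h1 (by positivity)).trans ?_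
      have h6 := amp_En (K := K') (P := P) hY (by linarith) (by linarith) hB1
      have h7 : bd (Y * P) K' P B ≤ nm Q ^ 2 * W := by
        rw [hW]
        exact (bd_mono hYP (by linarith) (by linarith) (by linarith) hK'K le_rfl hB2).trans
          (bd_scale_B hYP (by linarith) (by linarith) (by linarith) hQ1)
      have h8 : (Y / (B * K')) ^ 2 * Z'⁻¹ ≤ nm Q ^ 2 * W := by
        have h9 : Y / (B * K') ≤ Z :=
          (div_le_self hY.le (one_le_mul_of_one_le_of_one_le hB1 hK')).trans hYZ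
        refine le_trans ?_ (one_le_mul_of_one_le_of_one_le (one_le_pow₀ hQ1) hbd)
        rw [← div_eq_mul_inv, div_le_one (by linarith)]
        exact (pow_le_pow_left₀ (by positivity) h9 2).trans hZ2
      have h10 : (Y / (B * K')) ^ 2 * (En K' P (B ^ 2 / Y * K' ^ 2 * P) + Z'⁻¹) ≤
          2 * (nm Q ^ 2 * W) := by
        rw [mul_add]
        linarith
      have h11 : 0 < Z' := by linarith
      calc 4 * M * (Y / (B * K')) ^ 2 * (C * Z' ^ (ε / 4) * (1 + |t|) ^ 12 *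
            (En K' P (B ^ 2 / Y * K' ^ 2 * P) + Z'⁻¹))
          = 4 * M * C * Z' ^ (ε / 4) * (1 + |t|) ^ 12 *
            ((Y / (B * K')) ^ 2 * (En K' P (B ^ 2 / Y * K' ^ 2 * P) + Z'⁻¹)) := by ring
        _ ≤ 4 * M * C * Z' ^ (ε / 4) * (1 + |t|) ^ 12 * (2 * (nm Q ^ 2 * W)) := by gcongr
        _ = _ := by ring)
  refine key.trans ?_
  have h12 : 1 + Real.log K ≤ Cl * Z ^ (ε / 4) := by
    have := hl Z hZ
    rw [Real.rpow_one] at this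
    linarith [Real.log_le_log (by linarith) hKZ]
  have h13 : Z' ^ (ε / 4) * Z ^ (ε / 4) = (nm Q ^ 2) ^ (ε / 4) * Z ^ ε := by
    rw [hZ', Real.mul_rpow (by positivity) (by positivity), ← Real.rpow_natCast Z 3,
      ← Real.rpow_mul hZ0.le, mul_assoc, ← Real.rpow_add hZ0]
    congr 2
    push_cast
    ring
  have h14 : 0 < Z' := by linarith
  calc 2 * (1 + Real.log K) * (8 * C * Z' ^ (ε / 4) * nm Q ^ 2 * (1 + |t|) ^ 12 * (M * W))
      ≤ 2 * (Cl * Z ^ (ε / 4)) * (8 * C * Z' ^ (ε / 4) * nm Q ^ 2 * (1 + |t|) ^ 12 * (M * W)) := by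
        gcongr
    _ = _ := by
        linear_combination (16 * Cl * C * nm Q ^ 2 * (1 + |t|) ^ 12 * (M * W)) * h13

end Crest.Agent.R17.F
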