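import Crest.Agent.R17.F.Refl

/-!
Row 17, block F: the modulus `k r e`; the cross symbols between the row `k` and the mark `r` cancel.
-/

set_option autoImplicit false

namespace Crest.Agent.R17.F

open scoped Classical ComplexConjugate

/-- the character modulo `k r e` -/
noncomputable def chi (k r : O) (χ : O → ℂ) (y : O) : ℂ := conj (sx y k) * one r y * χ y

noncomputable def kap1 (k r e : O) (χ : O → ℂ) : ℂ :=
  ((nm r : ℂ) * (sx (r * e) k * conj (χ (k * r)) * conj (sx (-1) k) * gs 1 1 k))⁻¹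

noncomputable def kap2 (k r e : O) (χ : O → ℂ) : ℂ :=
  sx (r * e) k ^ 3 * cb (k * e) r ^ 2 * (χ (k * r) * cb (k * r) e ^ 2) * gs 3 1 k * gc 2 1 r

theorem crossa_ne {k : O} (hk : IsCoprime k 6) : k ≠ 0 := by
  rintro rfl
  exact sya_not_coprime_zero hk

theorem crossa_tw {k : O} (hk : IsCoprime k 6) : IsTw k fun y => sx y k := by
  simpa using isTw_sx_pow hk one_ne_zero

theorem crossa_one {r y : O} (h : IsCoprime y r) : one r y = 1 := if_pos h

theorem crossa_conj_one (r y : O) : conj (one r y) = one r y := by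
  unfold one
  split_ifs <;> simp

theorem isTw_chi {k r e : O} {χ : O → ℂ} (hk : IsCoprime k 6) (hχ : IsTw e χ) :
    IsTw (k * r * e) (chi k r χ) := by
  exact isTw_mul_coprime (isTw_mul_coprime (crossa_tw hk).conj (isTw_one r)) hχ

/-- `FT_tw_mul` twice, `gs_sqfree`, `FT_one_eq`, `dl_mul` (`u = -1`), `norm_gs` (non-vanishing) -/
theorem primal_eq {k r e : O} {χ : O → ℂ} (hk : IsCoprime k 6) (hks : Squarefree k)
    (hr : IsCoprime r 6) (he : e ≠ 0) (hχ : IsTw e χ) (hrk : IsCoprime r k)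
    (hke : IsCoprime k e) (hre : IsCoprime r e) (n : O) :
    Fp e χ n * conj (sx n k) * dl n r = kap1 k r e χ * Fp (k * r * e) (chi k r χ) n := by
  have hk0 : k ≠ 0 := crossa_ne hk
  have hr0 : r ≠ 0 := crossa_ne hr
  have hf : (fun y => conj (chi k r χ y)) =
      fun y => (sx y k ^ 1 * one r y) * conj (χ y) := by
    funext y
    simp only [chi, map_mul, crossa_conj_one, Complex.conj_conj, pow_one]
  have h1 : IsTw k fun y => sx y k ^ 1 := isTw_sx_pow hk one_ne_zero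
  have hkre : IsCoprime (k * r) e := hke.mul_left hre
  have hA : Fp (k * r * e) (chi k r χ) n =
      (sx (r * e) k * conj (χ (k * r)) * conj (sx (-1) k) * gs 1 1 k) *
        (nm r * (Fp e χ n * conj (sx n k) * dl n r)) := by
    have hd : gs 6 (-n) r = nm r * dl n r := by
      have := dl_mul hr (u := -1) (isCoprime_one_left.neg_left) n
      rw [← this, neg_one_mul, dl, mul_div_cancel₀]
      exact_mod_cast (nm_pos hr0).ne'
    have hg : gs 1 (-n) k = conj (sx (-1) k) * conj (sx n k) * gs 1 1 k := by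
      rw [gs_sqfree hks (by norm_num) (-n), ← neg_one_mul n, sx_mul_left, map_mul, pow_one]
    rw [Fp, hf, FT_tw_mul (isTw_mul_coprime h1 (isTw_one r)) hχ.conj (mul_ne_zero hk0 hr0) he hkre,
      FT_tw_mul h1 (isTw_one r) hk0 hr0 hrk.symm, FT_one_eq hr, hd, crossa_one hre.symm,
      crossa_one hrk.symm, sx_mul_left]
    change _ * _ * (_ * (gs 1 (-n) k * _) * Fp e χ n) = _
    rw [hg]
    ring
  have hne : (nm r : ℂ) * (sx (r * e) k * conj (χ (k * r)) * conj (sx (-1) k) * gs 1 1 k) ≠ 0 := by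
    refine mul_ne_zero (by exact_mod_cast (nm_pos hr0).ne') (mul_ne_zero (mul_ne_zero
      (mul_ne_zero ?_ ?_) ?_) ?_)
    · exact sx_ne_zero.2 ⟨hk, hrk.mul_left hke.symm⟩
    · exact (map_ne_zero _).2 (hχ.ne_zero.2 hkre)
    · exact (map_ne_zero _).2 (sx_ne_zero.2 ⟨hk, isCoprime_one_left.neg_left⟩)
    · rw [← norm_ne_zero_iff, norm_gs hks hk (by norm_num)]
      exact (Real.sqrt_pos.2 (nm_pos hk0)).ne'
  rw [hA, kap1, eq_inv_mul_iff_mul_eq₀ hne]
  ring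

/-- `conj (sx y k) * cb y k ^ 2 = sx y k ^ 3`, `one r y * cb y r ^ 2 = cb y r ^ 2`; `FT_tw_mul`
twice, `gs_sqfree`, `gc_sqfree` -/
theorem dual_eq {k r e : O} {χ : O → ℂ} (hk : IsCoprime k 6) (hks : Squarefree k)
    (hr : IsCoprime r 6) (hrs : Squarefree r) (he : Prim e) (hχ : IsTw e χ) (hrk : IsCoprime r k)
    (hke : IsCoprime k e) (hre : IsCoprime r e) (l : O) :
    Fd (k * r * e) (chi k r χ) l = kap2 k r e χ * (Fd e χ l * sx l k ^ 3 * cb l r) := by
  have hk0 : k ≠ 0 := crossa_ne hk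
  have hr0 : r ≠ 0 := crossa_ne hr
  have hf : (fun y => chi k r χ y * cb y (k * r * e) ^ 2) =
      fun y => (sx y k ^ 3 * cb y r ^ 2) * (χ y * cb y e ^ 2) := by
    funext y
    have a1 : conj (sx y k) * cb y k ^ 2 = sx y k ^ 3 := by
      rw [conj_sx, ← sx_sq y (coprime_six_iff.1 hk).1, ← pow_mul, ← pow_add]
      exact sx_pow_add_six y k (j := 3) (by norm_num)
    have a2 : one r y * cb y r ^ 2 = cb y r ^ 2 := by
      by_cases h : IsCoprime y r
      · rw [crossa_one h, one_mul]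
      · rw [cb_eq_zero_of_not_coprime h]; simp
    rw [chi, cb_mul_right, cb_mul_right, ← a1, ← a2]
    ring
  have h1 : IsTw k fun y => sx y k ^ 3 := isTw_sx_pow hk (by norm_num)
  have h2 : IsTw r fun y => cb y r ^ 2 := isTw_cb_pow (coprime_six_iff.1 hr).2 (by norm_num)
  have h3 : IsTw e fun y => χ y * cb y e ^ 2 :=
    hχ.mul' (isTw_cb_pow he.coprime_three (by norm_num))
  have hkre : IsCoprime (k * r) e := hke.mul_left hre
  have hg : gs 3 l k = sx l k ^ 3 * gs 3 1 k := by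
    rw [gs_sqfree hks (by norm_num) l, ← map_pow, conj_sx_cube]
  have hg' : gc 2 l r = cb l r * gc 2 1 r := by
    rw [gc_sqfree hrs (by norm_num) l, conj_cb, ← pow_mul]
    have := cb_pow_add_three l r (j := 1) one_ne_zero
    rw [pow_one] at this
    rw [this]
  rw [Fd, hf, FT_tw_mul (isTw_mul_coprime h1 h2) h3 (mul_ne_zero hk0 hr0) he.ne_zero hkre,
    FT_tw_mul h1 h2 hk0 hr0 hrk.symm]
  change _ * _ * (_ * (gs 3 l k * gc 2 l r) * Fd e χ l) = _
  rw [hg, hg', kap2, sx_mul_left, cb_mul_left k e r]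
  ring

theorem crossb_clip {u₀ : O → ℂ} (P : O → Prop) (h : ∀ k, P k → ‖u₀ k‖ ≤ 1) :
    ∃ u : O → ℂ, (∀ k, ‖u k‖ ≤ 1) ∧ ∀ k, P k → u k = u₀ k := by
  refine ⟨fun k => if P k then u₀ k else 0, fun k => ?_, fun k hk => if_pos hk⟩
  by_cases hk : P k
  · simpa [hk] using h k hk
  · simp [hk]

theorem crossb_mul {a b : ℂ} (ha : ‖a‖ ≤ 1) (hb : ‖b‖ ≤ 1) : ‖a * b‖ ≤ 1 := by
  rw [norm_mul]
  exact mul_le_one₀ ha (norm_nonneg _) hb

theorem crossb_pow {a : ℂ} (ha : ‖a‖ ≤ 1) (n : ℕ) : ‖a ^ n‖ ≤ 1 := by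
  rw [norm_pow]
  exact pow_le_one₀ (norm_nonneg _) ha

theorem crossb_conj {a : ℂ} (ha : ‖a‖ ≤ 1) : ‖conj a‖ ≤ 1 := by
  rwa [Complex.norm_conj]

theorem crossb_alg {N S s σ ck cr m g₁ A B : ℂ} (hN : N = S ^ 2) (hS : S ≠ 0) (hs : s ≠ 0)
    (hσ : σ ≠ 0) (hck : ck ≠ 0) (hcr : cr ≠ 0) (hm : m ≠ 0) (hg : g₁ ≠ 0) {x : ℂ}
    (hx : s ^ 2 * x ^ 2 = 1) :
    (N * (s * σ * (ck * cr) * m * g₁))⁻¹ * (s ^ 3 * x ^ 2 * (A * B)) =
      ((σ * ck * m * g₁)⁻¹ * A) * ((cr * S)⁻¹ * B) * S⁻¹ := by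
  have : s ^ 3 * x ^ 2 = s := by rw [show s ^ 3 * x ^ 2 = s * (s ^ 2 * x ^ 2) by ring, hx, mul_one]
  rw [this, hN]
  field_simp

/-- The constants separate.  `sx (r e) k ^ 2 = cb r k * cb e k`, `cb r k * cb k r ^ 2 = 1`
(`cb_recip`), `‖gs 3 1 k / gs 1 1 k‖ = 1`, `‖gc 2 1 r‖ = √(nm r)`, `one r (3 c₀) = 1`.
To get the bounds for all `k`, `r` clip: `u k = if ‖u₀ k‖ ≤ 1 then u₀ k else 0`. -/
theorem cross {Q c₀ e : O} {χ : O → ℂ} (hQ : Lev Q) (hc : 3 * c₀ ∣ Q) (he : Prim e)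
    (heQ : IsCoprime e Q) (hχ : IsTw e χ) :
    ∃ u v : O → ℂ, (∀ k, ‖u k‖ ≤ 1) ∧ (∀ r, ‖v r‖ ≤ 1) ∧ ∀ k r : O,
      Prim k → Squarefree k → IsCoprime k (Q * e) → Prim r → Squarefree r → IsCoprime r (Q * e) →
      IsCoprime r k →
      kap1 k r e χ * (cb c₀ (k * r * e) * cb (3 * c₀) (k * r * e) *
          (chi k r χ (3 * c₀) * cb (3 * c₀) (k * r * e) ^ 2) ^ 2 * al (c₀ * (k * r * e)) ^ 2) *
        kap2 k r e χ = u k * v r * (((√(nm r))⁻¹ : ℝ) : ℂ) := by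
  have he0 := he.ne_zero
  obtain ⟨u, hu1, hu⟩ := crossb_clip (u₀ := fun k =>
      (sx e k * conj (χ k) * conj (sx (-1) k) * gs 1 1 k)⁻¹ * (gs 3 1 k *
        (sx e k ^ 3 * χ k * cb k e ^ 2 * cb c₀ k * cb (3 * c₀) k *
          (conj (sx (3 * c₀) k) * cb (3 * c₀) k ^ 2) ^ 2 * al k ^ 2 *
          (cb c₀ e * cb (3 * c₀) e * (χ (3 * c₀) * cb (3 * c₀) e ^ 2) ^ 2 * (al c₀ * al e) ^ 2))))
    (fun k => Squarefree k ∧ IsCoprime k (Q * e)) (by
      rintro k ⟨hks, hk⟩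
      have hk6 := hQ.coprime_six hk.of_mul_right_left
      have hke : IsCoprime k e := hk.of_mul_right_right
      have hk0 : 0 < √(nm k) := Real.sqrt_pos.2 (nm_pos hks.ne_zero)
      rw [← mul_assoc]
      refine crossb_mul (le_of_eq ?_) ?_
      · rw [norm_mul, norm_inv, norm_mul, norm_mul, norm_mul, Complex.norm_conj, Complex.norm_conj,
          norm_sx hk6 hke.symm, hχ.norm_eq he0 hke, norm_sx hk6 isCoprime_one_left.neg_left,
          norm_gs hks hk6 (by norm_num), norm_gs hks hk6 (by norm_num)]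
        field_simp
      · repeat' with_reducible first
          | apply crossb_mul | apply crossb_pow | apply crossb_conj | exact norm_sx_le _ _
          | exact norm_cb_le _ _ | exact norm_al_le _ | exact hχ.norm_le he0 _)
  obtain ⟨v, hv1, hv⟩ := crossb_clip (u₀ := fun r =>
      (conj (χ r) * (√(nm r) : ℝ))⁻¹ * (gc 2 1 r * (χ r * cb e r ^ 2 * cb r e ^ 2 * cb c₀ r *
        cb (3 * c₀) r * (cb (3 * c₀) r ^ 2) ^ 2 * al r ^ 2)))
    (fun r => Squarefree r ∧ IsCoprime r (Q * e)) (by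
      rintro r ⟨hrs, hr⟩
      have hr6 := hQ.coprime_six hr.of_mul_right_left
      have hre : IsCoprime r e := hr.of_mul_right_right
      have hr0 : 0 < √(nm r) := Real.sqrt_pos.2 (nm_pos hrs.ne_zero)
      rw [← mul_assoc]
      refine crossb_mul (le_of_eq ?_) ?_
      · rw [norm_mul, norm_inv, norm_mul, Complex.norm_conj, hχ.norm_eq he0 hre,
          norm_gc hrs (coprime_six_iff.1 hr6).2 (by norm_num), Complex.norm_real,
          Real.norm_of_nonneg hr0.le]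
        field_simp
      · repeat' with_reducible first
          | apply crossb_mul | apply crossb_pow | apply crossb_conj | exact norm_sx_le _ _
          | exact norm_cb_le _ _ | exact norm_al_le _ | exact hχ.norm_le he0 _)
  refine ⟨u, v, hu1, hv1, fun k r hk hks hkQ hr hrs hrQ hrk => ?_⟩
  rw [hu k ⟨hks, hkQ⟩, hv r ⟨hrs, hrQ⟩]
  have hk6 := hQ.coprime_six hkQ.of_mul_right_left
  have hke : IsCoprime k e := hkQ.of_mul_right_right
  have hre : IsCoprime r e := hrQ.of_mul_right_right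
  have hr0 : 0 < √(nm r) := Real.sqrt_pos.2 (nm_pos hrs.ne_zero)
  have hone : one r (3 * c₀) = 1 :=
    if_pos (hrQ.of_mul_right_left.of_isCoprime_of_dvd_right hc).symm
  have hne : ∀ z : ℂ, ‖z‖ = 1 → conj z ≠ 0 := fun z hz h => by
    rw [← Complex.norm_conj, h, norm_zero] at hz
    exact zero_ne_one hz
  have hx : sx r k ^ 2 * cb k r ^ 2 = 1 := by
    rw [sx_sq r (coprime_six_iff.1 hk6).1, cb_recip hr hk, ← pow_succ', cb_pow_three,
      if_pos ⟨hr.coprime_three, hrk.symm⟩]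
  have hg : gs 1 1 k ≠ 0 := fun h => by
    have h1 := norm_gs hks hk6 (j := 1) (by norm_num)
    rw [h, norm_zero] at h1
    exact (Real.sqrt_pos.2 (nm_pos hks.ne_zero)).ne h1
  rw [Complex.ofReal_inv, ← crossb_alg (N := (nm r : ℂ)) (gsb_sqrt_sq r).symm
    (gsb_sqrt_ne hrs.ne_zero) (sx_ne_zero.2 ⟨hk6, hrk⟩) (sx_ne_zero.2 ⟨hk6, hke.symm⟩)
    (hne _ (hχ.norm_eq he0 hke)) (hne _ (hχ.norm_eq he0 hre))
    (hne _ (norm_sx hk6 isCoprime_one_left.neg_left)) hg hx]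
  simp only [kap1, kap2, chi, hone, cb_mul_right, sx_mul_left r e, hχ.mul k r, map_mul,
    cb_mul_left k e, cb_mul_left k r, al_mul]
  ring

/-- `primal_eq`, `Th_const_mul`, `refl2` with `m = k r e`, `dual_eq`, `Du_const_mul`, `cross` -/
theorem refl3 {τ : O → ℂ} {e₀ : ℂ} (hτ : Gr τ) (hR : Refl τ e₀) (he₀ : ‖e₀‖ = 1) {Q c₀ α e : O}
    {χ : O → ℂ} (hQ : Lev Q) (hc : Cusp Q c₀ α) (he : Prim e) (heQ : IsCoprime e Q)
    (hχ : IsTw e χ) :
    ∃ u v : O → ℂ, (∀ k, ‖u k‖ ≤ 1) ∧ (∀ r, ‖v r‖ ≤ 1) ∧ ∀ (k r α' : O) (w : ℂ) (a Y t : ℝ),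
      0 < a → 0 < Y → Prim k → Squarefree k → IsCoprime k (Q * e) → Prim r → Squarefree r →
      IsCoprime r (Q * e) → IsCoprime r k → 3 * c₀ ∣ α * α' * (k * r * e) ^ 2 - 1 →
      Th τ (fun n => eQ (-(n * α)) (3 * c₀) * (w * Fp e χ n) * conj (sx n k) * dl n r) a Y t =
        u k * v r * (((√(nm r))⁻¹ * (Y / (nm (c₀ * e) * nm k * nm r)) : ℝ) : ℂ) *
          Du τ (fun l => eQ (l * α') (3 * c₀) * (w * Fd e χ l) * sx l k ^ 3 * cb l r) a t
            ((nm (c₀ * e) * nm k * nm r) ^ 2 / Y) := by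
  obtain ⟨h3, hcQ, hα, hαc⟩ := hc
  obtain ⟨u, v, hu, hv, H⟩ := cross hQ hcQ he heQ hχ
  have hc0 : c₀ ≠ 0 := by
    rintro rfl
    rw [mul_zero, zero_dvd_iff] at hcQ
    exact hQ.1 hcQ
  refine ⟨fun k => e₀ * cb c₀ α * u k, v, fun k => crossb_mul (crossb_mul he₀.le (norm_cb_le _ _))
    (hu k), hv, fun k r α' w a Y t ha hY hk hks hkQ hr hrs hrQ hrk hinv => ?_⟩
  have hk6 := hQ.coprime_six hkQ.of_mul_right_left
  have hr6 := hQ.coprime_six hrQ.of_mul_right_left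
  have hke : IsCoprime k e := hkQ.of_mul_right_right
  have hre : IsCoprime r e := hrQ.of_mul_right_right
  have hmQ : IsCoprime (k * r * e) Q :=
    (hkQ.of_mul_right_left.mul_left hrQ.of_mul_right_left).mul_left heQ
  have hmc : IsCoprime (k * r * e) c₀ :=
    hmQ.of_isCoprime_of_dvd_right ((Dvd.intro_left 3 rfl).trans hcQ)
  have e1 : (fun n => eQ (-(n * α)) (3 * c₀) * (w * Fp e χ n) * conj (sx n k) * dl n r) =
      fun n => (w * kap1 k r e χ) *
        (eQ (-(n * α)) (3 * c₀) * Fp (k * r * e) (chi k r χ) n) := by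
    funext n
    have := primal_eq hk6 hks hr6 he.ne_zero hχ hrk hke hre n
    linear_combination eQ (-(n * α)) (3 * c₀) * w * this
  have e2 : (fun l => eQ (l * α') (3 * c₀) * Fd (k * r * e) (chi k r χ) l) =
      fun l => kap2 k r e χ * (eQ (l * α') (3 * c₀) * Fd e χ l * sx l k ^ 3 * cb l r) := by
    funext l
    rw [dual_eq hk6 hks hr6 hrs he hχ hrk hke hre l]
    ring
  have e3 : (fun l => eQ (l * α') (3 * c₀) * (w * Fd e χ l) * sx l k ^ 3 * cb l r) =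
      fun l => w * (eQ (l * α') (3 * c₀) * Fd e χ l * sx l k ^ 3 * cb l r) := by
    funext l
    ring
  have e4 : nm (c₀ * (k * r * e)) = nm (c₀ * e) * nm k * nm r := by
    simp only [nm_mul]
    ring
  rw [e1, e3, Th_const_mul, Du_const_mul, refl2 hτ hR hc0 h3 hα ((hk.mul hr).mul he) hmc
    (isTw_chi hk6 hχ) hinv ha hY t, e2, Du_const_mul, e4, Complex.ofReal_mul]
  have h := H k r hk hks hkQ hr hrs hrQ hrk
  generalize Du τ (fun l => eQ (l * α') (3 * c₀) * Fd e χ l * sx l k ^ 3 * cb l r) a t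
    ((nm (c₀ * e) * nm k * nm r) ^ 2 / Y) = D
  linear_combination (w * e₀ * cb c₀ α * ((Y / (nm (c₀ * e) * nm k * nm r) : ℝ) : ℂ) * D) * h

end Crest.Agent.R17.F
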