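import Crest.Agent.R17.F.Basic

/-!
Row 17, block F: from primary elements to all elements, and the mask `(r, k) = 1`.
-/

set_option autoImplicit false

namespace Crest.Agent.R17.F

open scoped Classical ComplexConjugate

theorem de1_dec {l : O} (h : l ≠ 0) :
    ∃ (j i : ℕ) (n : O), j < 6 ∧ Prim n ∧ l = zt ^ j * lam ^ i * n := by
  obtain ⟨ζ, i, n, h1, h2, h3⟩ := exists_decomp h
  obtain ⟨j, hj, rfl⟩ := isUnit_iff.1 h1
  exact ⟨j, i, n, hj, h2, h3⟩

/-- Classes `(j, i)`, `l = zt ^ j * lam ^ i * n` (`exists_decomp`, `isUnit_iff`), `j < 6`,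
`3 ^ i ≤ L ≤ Z`; `sum_sq_fiber_le`.  In a class (`u = zt ^ j * lam ^ i`) pull out `t (zt ^ j) i` and
`sx u k ^ 3` (norm `≤ 1`), `AA Rs β (u n) = AA Rs (fun r => β r * cb u r) n`, `DE0` with length
`L / 3 ^ i`, `En_div`. -/
theorem de1 {τ : O → ℂ} {t : O → ℕ → ℂ} (hc : Coef τ t) (hb : TB t) (h : DE0) : DE1 τ := by
  obtain ⟨C₀, hC₀⟩ := hb
  intro ε hε
  obtain ⟨C, hC, H⟩ := h (ε / 2) (half_pos hε)
  refine ⟨(6 * (4 / ε + 1)) ^ 2 * (C₀ ^ 2 * C), by positivity,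
    fun φ β Z K P L Rs A B hK hKZ hP hPZ hL hLZ hφ hR hA hB => ?_⟩
  have hZ : 1 ≤ Z := hK.trans hKZ
  choose! j i n hj hn e using fun l (hl : l ∈ B) => de1_dec (hB l hl).1
  have hnm : ∀ l ∈ B, 3 ^ i l * nm (n l) ≤ L := fun l hl => by
    have := (hB l hl).2
    rwa [e l hl, nm_mul, nm_mul, nm_unit (isUnit_zt.pow _), one_mul, nm_pow, nm_lam] at this
  have hE := En_nonneg (zero_le_one.trans hK) (zero_le_one.trans hP) hL
  have hβ : 0 ≤ ∑ r ∈ Rs, ‖β r‖ ^ 2 := Finset.sum_nonneg fun _ _ => by positivity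
  refine (sum_sq_fiber_le A B (Finset.range 6 ×ˢ Finset.range (⌊Real.log Z⌋₊ + 1))
    (fun l => (j l, i l)) (fun l hl => ?_) _
    (B := C₀ ^ 2 * C * Z ^ (ε / 2) * En K P L * ∑ r ∈ Rs, ‖β r‖ ^ 2) fun s _ => ?_).trans ?_
  · refine Finset.mem_product.2 ⟨Finset.mem_range.2 (hj l hl), Finset.mem_range.2
      (Nat.lt_succ_of_le (Nat.le_floor ((Real.le_log_iff_exp_le (by linarith)).2 ?_)))⟩
    rw [← Real.exp_one_pow]
    exact (pow_le_pow_left₀ (Real.exp_pos 1).le Real.exp_one_lt_three.le _).trans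
      ((le_mul_of_one_le_right (by positivity) (one_le_nm (hn l hl).ne_zero)).trans
        ((hnm l hl).trans hLZ))
  · obtain ⟨j₀, i₀⟩ := s
    generalize hT : @Finset.filter _ _ (_) B = T
    replace hT : ∀ l ∈ T, l ∈ B ∧ (j l, i l) = (j₀, i₀) := fun l hl => by simpa [← hT] using hl
    have e' : ∀ l ∈ T, l = zt ^ j₀ * lam ^ i₀ * n l := fun l hl => by
      obtain ⟨h1, h2⟩ := hT l hl
      obtain ⟨rfl, rfl⟩ := Prod.ext_iff.1 h2
      exact e l h1
    have h3 : (1 : ℝ) ≤ 3 ^ i₀ := one_le_pow₀ (by norm_num)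
    have h1 := H (fun m => cb (zt ^ j₀ * lam ^ (i₀ + 1)) m * φ (zt ^ j₀ * lam ^ i₀ * m))
      (fun r => β r * cb (zt ^ j₀ * lam ^ i₀) r) Z K P (L / 3 ^ i₀) Rs A
      (T.image n) hK hKZ hP hPZ (by positivity)
      ((div_le_self hL h3).trans hLZ)
      (fun m => by rw [norm_mul]; exact mul_le_one₀ (norm_cb_le _ _) (norm_nonneg _) (hφ _)) hR hA
      (Finset.forall_mem_image.2 fun l hl => by
        obtain ⟨h1, h2⟩ := hT l hl
        obtain ⟨-, rfl⟩ := Prod.ext_iff.1 h2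
        exact ⟨hn l h1, (le_div_iff₀' (by positivity)).2 (hnm l h1)⟩)
    have h2 : ∑ r ∈ Rs, ‖β r * cb (zt ^ j₀ * lam ^ i₀) r‖ ^ 2 ≤ ∑ r ∈ Rs, ‖β r‖ ^ 2 :=
      Finset.sum_le_sum fun r _ => pow_le_pow_left₀ (norm_nonneg _)
        ((norm_mul _ _).trans_le (mul_le_of_le_one_right (norm_nonneg _) (norm_cb_le _ _))) 2
    have h4 : ‖t (zt ^ j₀) i₀‖ ^ 2 ≤ C₀ ^ 2 * ((3 : ℝ) ^ i₀) ^ (2 / 3 : ℝ) := by
      refine (pow_le_pow_left₀ (norm_nonneg _) (hC₀ _ i₀ (isUnit_zt.pow _)) 2).trans (le_of_eq ?_)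
      rw [mul_pow, ← Real.rpow_natCast 3 i₀, ← Real.rpow_mul (by norm_num),
        ← Real.rpow_mul_natCast (by norm_num)]
      congr 2
      push_cast
      ring
    have hE' := En_nonneg (zero_le_one.trans hK) (zero_le_one.trans hP)
      (show 0 ≤ L / 3 ^ i₀ by positivity)
    refine le_trans (Finset.sum_le_sum fun k _ => ?_) (((Finset.mul_sum _ _ _).symm.trans_le
      (mul_le_mul h4 (h1.trans (mul_le_mul_of_nonneg_left h2 (by positivity)))
        (Finset.sum_nonneg fun _ _ => by positivity) (by positivity))).trans ?_)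
    · rw [Finset.sum_image fun x hx y hy hxy => by rw [e' x hx, e' y hy, hxy], ← mul_pow, ← norm_mul]
      refine pow_le_pow_left₀ (norm_nonneg _) (le_trans (le_of_eq ?_) ((norm_mul _ _).trans_le
        (mul_le_of_le_one_left (norm_nonneg _) ((norm_pow _ 3).trans_le
          (pow_le_one₀ (norm_nonneg _) (norm_sx_le (zt ^ j₀ * lam ^ i₀) k)))))) 2
      rw [Finset.mul_sum, Finset.mul_sum]
      refine congrArg _ (Finset.sum_congr rfl fun l hl => ?_)
      have h5 := hn l (hT l hl).1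
      have h6 := e' l hl
      generalize n l = m at h5 h6
      subst h6
      have h7 : AA Rs β (zt ^ j₀ * lam ^ i₀ * m) =
          AA Rs (fun r => β r * cb (zt ^ j₀ * lam ^ i₀) r) m :=
        Finset.sum_congr rfl fun r _ => by rw [cb_mul_left, mul_assoc]
      rw [hc _ _ _ (isUnit_zt.pow _) h5, h7, sx_mul_left _ m]
      ring
    · have := mul_le_mul_of_nonneg_left
        (En_div (zero_le_one.trans hK) (zero_le_one.trans hP) hL h3)
        (show 0 ≤ C₀ ^ 2 * C * Z ^ (ε / 2) * ∑ r ∈ Rs, ‖β r‖ ^ 2 by positivity)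
      linarith
  · have h1 : ((Finset.range 6 ×ˢ Finset.range (⌊Real.log Z⌋₊ + 1)).card : ℝ) ≤
        6 * (4 / ε + 1) * Z ^ (ε / 4) := by
      have h2 := Real.log_le_rpow_div (zero_le_one.trans hZ) (show 0 < ε / 4 by positivity)
      have h3 := Nat.floor_le (Real.log_nonneg hZ)
      have h4 := Real.one_le_rpow hZ (show 0 ≤ ε / 4 by positivity)
      rw [div_div_eq_mul_div, mul_div_assoc] at h2
      rw [Finset.card_product, Finset.card_range, Finset.card_range]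
      push_cast
      linarith
    refine (mul_le_mul_of_nonneg_right (pow_le_pow_left₀ (Nat.cast_nonneg _) h1 2)
      (by positivity)).trans (le_of_eq ?_)
    have h2 : Z ^ ε = (Z ^ (ε / 4)) ^ 2 * Z ^ (ε / 2) := by
      rw [← Real.rpow_mul_natCast (by linarith), ← Real.rpow_add (by linarith)]
      congr 1
      push_cast
      ring
    rw [h2]
    ring

/-- `sum_mu_coprime` with `a = k`: `AA (Rs.filter (IsCoprime · k)) β l =
∑_{d ∈ pdiv k} mu d * AA (Rs.filter (d ∣ ·)) β l`; `sq_sum_le_card`, `card_pdiv_le`; enlarge the sum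
over `d` to all primary `d` with `nm d ≤ K` and swap; `∑_d ∑_{r ∈ Rs, d ∣ r} ‖β r‖² ≤
∑_r card (pdiv r) ‖β r‖²`. -/
theorem de2 {τ : O → ℂ} (h : DE1 τ) : DE2 τ := by
  intro ε hε
  have hε' : 0 < ε / 3 := by positivity
  obtain ⟨C, hC, h⟩ := h _ hε'
  obtain ⟨C₁, hC₁, h₁⟩ := card_pdiv_le hε'
  refine ⟨C₁ * C * C₁, by positivity, fun φ β Z K P L Rs A B hK hKZ hP hPZ hL hLZ hφ hR hA hB => ?_⟩
  have hZ : 0 < Z := by linarith
  have hE := En_nonneg (K := K) (P := P) (by linarith) (by linarith) hL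
  have h₂ : ∀ n : O, n ≠ 0 → nm n ≤ Z → ((pdiv n).card : ℝ) ≤ C₁ * Z ^ (ε / 3) := fun n hn hn' =>
    (h₁ n hn).trans (mul_le_mul_of_nonneg_left (Real.rpow_le_rpow (nm_nonneg _) hn' hε'.le) hC₁.le)
  set X : O → O → ℂ := fun d k =>
    ∑ l ∈ B, τ l * φ l * sx l k ^ 3 * AA (Rs.filter (d ∣ ·)) β l with hX
  have h₃ : ∀ k ∈ A, ‖∑ l ∈ B, τ l * φ l * sx l k ^ 3 * AA (Rs.filter (IsCoprime · k)) β l‖ ^ 2 ≤
      C₁ * Z ^ (ε / 3) * ∑ d ∈ (ball K).filter Prim, ‖X d k‖ ^ 2 := fun k hk => by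
    obtain ⟨k1, -, -, k2⟩ := hA k hk
    have e : ∀ l, AA (Rs.filter (IsCoprime · k)) β l =
        ∑ d ∈ pdiv k, mu d * AA (Rs.filter (d ∣ ·)) β l := fun l => by
      simp only [AA, Finset.sum_filter, Finset.mul_sum]
      rw [Finset.sum_comm]
      refine Finset.sum_congr rfl fun r _ => ?_
      have := congrArg (· * (β r * cb l r)) (sum_mu_coprime k1 r)
      simpa only [Finset.sum_mul, ite_mul, mul_ite, one_mul, zero_mul, mul_zero, isCoprime_comm]
        using this.symm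
    have e' : ∑ l ∈ B, τ l * φ l * sx l k ^ 3 * AA (Rs.filter (IsCoprime · k)) β l =
        ∑ d ∈ pdiv k, mu d * X d k := by
      simp only [e, hX, Finset.mul_sum]
      rw [Finset.sum_comm]
      simp only [mul_left_comm (mu _)]
    rw [e']
    refine (sq_sum_le_card _ _).trans (mul_le_mul (h₂ k k1.ne_zero (k2.trans hKZ))
      ((Finset.sum_le_sum fun d _ => ?_).trans (Finset.sum_le_sum_of_subset_of_nonneg (fun d hd => ?_)
        fun _ _ _ => by positivity)) (by positivity) (by positivity))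
    · exact pow_le_pow_left₀ (norm_nonneg _) ((norm_mul_le _ _).trans
        (mul_le_of_le_one_left (norm_nonneg _) (norm_mu_le d))) 2
    · obtain ⟨d1, d2⟩ := (mem_pdiv k1.ne_zero).1 hd
      exact Finset.mem_filter.2 ⟨mem_ball.2 ((nm_le_of_dvd d2 k1.ne_zero).trans k2), d1⟩
  have h₄ : ∑ d ∈ (ball K).filter Prim, ∑ r ∈ Rs.filter (d ∣ ·), ‖β r‖ ^ 2 ≤
      C₁ * Z ^ (ε / 3) * ∑ r ∈ Rs, ‖β r‖ ^ 2 := by
    rw [Finset.sum_congr rfl fun d _ => Finset.sum_filter _ _, Finset.sum_comm, Finset.mul_sum]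
    refine Finset.sum_le_sum fun r hr => ?_
    obtain ⟨r1, -, -, r2⟩ := hR r hr
    rw [← Finset.sum_filter, Finset.sum_const, nsmul_eq_mul]
    refine mul_le_mul_of_nonneg_right (le_trans (Nat.cast_le.2 (Finset.card_le_card fun d hd => ?_))
      (h₂ r r1.ne_zero (r2.trans hPZ))) (by positivity)
    exact (mem_pdiv r1.ne_zero).2 ⟨(Finset.mem_filter.1 (Finset.mem_filter.1 hd).1).2,
      (Finset.mem_filter.1 hd).2⟩
  refine (Finset.sum_le_sum h₃).trans ?_
  rw [← Finset.mul_sum, Finset.sum_comm]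
  refine (mul_le_mul_of_nonneg_left (Finset.sum_le_sum fun d _ => h φ β Z K P L _ A B hK hKZ hP hPZ hL
    hLZ hφ (fun r hr => hR r (Finset.mem_filter.1 hr).1) hA hB) (by positivity)).trans ?_
  rw [← Finset.mul_sum]
  refine (mul_le_mul_of_nonneg_left (mul_le_mul_of_nonneg_left h₄ (by positivity))
    (by positivity)).trans_eq ?_
  rw [show Z ^ ε = Z ^ (ε / 3) * Z ^ (ε / 3) * Z ^ (ε / 3) by
    rw [← Real.rpow_add hZ, ← Real.rpow_add hZ, add_thirds]]
  ring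

end Crest.Agent.R17.F
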