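import Crest.Agent.R17.F.LS3

/-!
Row 17, block F: the second moment of the dual coefficients.  A quadruple `(w, c, d, e)` stands for
`l = (w c) (w d e²)³`.
-/

set_option autoImplicit false

namespace Crest.Agent.R17.F

open scoped Classical ComplexConjugate

/-- the cube variable `w d e²` -/
noncomputable def qd (j : O × O × O × O) : O := j.1 * j.2.2.1 * j.2.2.2 ^ 2

/-- the element `(w c) (w d e²)³` -/
noncomputable def ql (j : O × O × O × O) : O := j.1 * j.2.1 * qd j ^ 3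

/-- for fixed `(w, e)` at most `11 D / (nm w * nm e ^ 2)` values of `d`; `sum_inv_nm_le` twice -/
theorem cnt3 : ∃ C : ℝ, 0 ≤ C ∧ ∀ (D : ℝ) (S : Finset (O × O × O)), 1 ≤ D →
    (∀ j ∈ S, j.1 * j.2.1 * j.2.2 ^ 2 ≠ 0 ∧ nm (j.1 * j.2.1 * j.2.2 ^ 2) ≤ D) →
    ∑ j ∈ S, nm j.2.2 ≤ C * D * (1 + Real.log D) ^ 2 := by
  refine ⟨11 * 44 ^ 2, by positivity, fun D S hD h => ?_⟩
  have hD0 : 0 ≤ D := zero_le_one.trans hD
  have h1 : ∀ j ∈ S, 1 ≤ nm j.1 ∧ 1 ≤ nm j.2.1 ∧ 1 ≤ nm j.2.2 ∧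
      nm j.1 * nm j.2.1 * nm j.2.2 ^ 2 ≤ D := fun j hj => by
    obtain ⟨a1, a2⟩ := h j hj
    rw [nm_mul, nm_mul, nm_pow] at a2
    exact ⟨one_le_nm (left_ne_zero_of_mul (left_ne_zero_of_mul a1)),
      one_le_nm (right_ne_zero_of_mul (left_ne_zero_of_mul a1)),
      one_le_nm (ne_zero_pow two_ne_zero (right_ne_zero_of_mul a1)), a2⟩
  have h2 : ∀ j ∈ S, (j.1, j.2.2) ∈ ball D ×ˢ ball D := fun j hj => by
    obtain ⟨a1, a2, a3, a4⟩ := h1 j hj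
    have a5 : 1 ≤ nm j.2.2 ^ 2 := one_le_pow₀ a3
    have a6 : 1 ≤ nm j.1 * nm j.2.1 := one_le_mul_of_one_le_of_one_le a1 a2
    refine Finset.mem_product.2 ⟨mem_ball.2 (le_trans ?_ a4), mem_ball.2 (le_trans ?_ a4)⟩
    · exact (le_mul_of_one_le_right (nm_nonneg _) a2).trans
        (le_mul_of_one_le_right (by positivity) a5)
    · exact (le_self_pow₀ a3 two_ne_zero).trans (le_mul_of_one_le_left (by positivity) a6)
  rw [← Finset.sum_fiberwise_of_maps_to h2]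
  have h3 : ∀ p ∈ ball D ×ˢ ball D, ∑ j ∈ S with (j.1, j.2.2) = p, nm j.2.2 ≤
      11 * D * ((nm p.1)⁻¹ * (nm p.2)⁻¹) := fun p _ => by
    rcases (S.filter fun j => (j.1, j.2.2) = p).eq_empty_or_nonempty with h0 | ⟨j₀, hj₀⟩
    · rw [h0, Finset.sum_empty]
      have := nm_nonneg p.1
      have := nm_nonneg p.2
      positivity
    obtain ⟨hj, rfl⟩ := Finset.mem_filter.1 hj₀
    obtain ⟨a1, -, a3, -⟩ := h1 j₀ hj
    have b1 : ∀ j ∈ S.filter fun j => (j.1, j.2.2) = (j₀.1, j₀.2.2),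
        j ∈ S ∧ j.1 = j₀.1 ∧ j.2.2 = j₀.2.2 := fun j hj =>
      ⟨(Finset.mem_filter.1 hj).1, Prod.ext_iff.1 (Finset.mem_filter.1 hj).2⟩
    rw [Finset.sum_congr rfl fun j hj => congrArg nm (b1 j hj).2.2, Finset.sum_const, nsmul_eq_mul,
      ← Finset.card_image_of_injOn (f := fun j : O × O × O => j.2.1) fun j hj j' hj' e =>
        Prod.ext ((b1 j hj).2.1.trans (b1 j' hj').2.1.symm)
          (Prod.ext e ((b1 j hj).2.2.trans (b1 j' hj').2.2.symm))]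
    have b2 := card_le_of_nm_le (X := D / (nm j₀.1 * nm j₀.2.2 ^ 2)) (by positivity)
      (A := (S.filter fun j => (j.1, j.2.2) = (j₀.1, j₀.2.2)).image fun j : O × O × O => j.2.1)
      fun n hn => by
        obtain ⟨j, hj, rfl⟩ := Finset.mem_image.1 hn
        obtain ⟨c1, c2, c3⟩ := b1 j hj
        obtain ⟨-, d2, -, d4⟩ := h1 j c1
        refine ⟨fun e => ?_, ?_⟩
        · rw [e, nm_zero] at d2
          linarith
        · rw [le_div_iff₀ (by positivity), ← c2, ← c3]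
          linarith
    refine (mul_le_mul_of_nonneg_right b2 (nm_nonneg _)).trans_eq ?_
    field_simp
  refine (Finset.sum_le_sum h3).trans ?_
  rw [← Finset.mul_sum, Finset.sum_product]
  simp only [← Finset.mul_sum, ← Finset.sum_mul]
  have h4 := sum_inv_nm_le hD (A := ball D) fun n hn => mem_ball.1 hn
  have h5 : 0 ≤ ∑ n ∈ ball D, (nm n)⁻¹ := Finset.sum_nonneg fun n _ => inv_nonneg.2 (nm_nonneg n)
  have h6 := mul_le_mul_of_nonneg_left (mul_self_le_mul_self h5 h4) (by positivity : 0 ≤ 11 * D)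
  linarith

theorem fsec_pow {x a : ℝ} (hx : 0 ≤ x) {n k : ℕ} (h : a * n = k) : (x ^ a) ^ n = x ^ k := by
  rw [← Real.rpow_natCast, ← Real.rpow_mul hx, h, Real.rpow_natCast]

/-- the real inequality behind `second_moment` (`W = nm w ≤ 2 D`, `E = nm e ≥ 1`, `C₀ = L / D³`):
`min x y ≤ x^{3/4} y^{1/4}`, `min x y ≤ x^{1/2} y^{1/2}` -/
theorem sec_ineq {K P L D W E : ℝ} (hK : 0 ≤ K) (hP : 1 ≤ P) (hL : 0 ≤ L) (hD : 1 ≤ D) (hW : 1 ≤ W)
    (hWD : W ≤ 2 * D) (hE : 1 ≤ E) :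
    (K * (W * E) + L / D ^ 2) * (2 * D) * (L / D ^ 3 / W + min (P * (L / D ^ 3 / W)) (P ^ 2)) * D ≤
      4 * E * En K P L := by
  have hP0 : 0 ≤ P := zero_le_one.trans hP
  have hD0 : 0 < D := one_pos.trans_le hD
  have hW0 : 0 < W := one_pos.trans_le hW
  obtain ⟨y, hy⟩ : ∃ y, y = L / D ^ 3 / W := ⟨_, rfl⟩
  rw [← hy]
  have hL' : L = y * D ^ 3 * W := by
    rw [hy]
    field_simp
  have hy0 : 0 ≤ y := by
    rw [hy]
    positivity
  have hyL : y ≤ L := hy ▸ (div_le_self (by positivity) hW).trans (div_le_self hL (one_le_pow₀ hD))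
  obtain ⟨m, hm⟩ : ∃ m, m = min (P * y) (P ^ 2) := ⟨_, rfl⟩
  rw [← hm]
  have m0 : 0 ≤ m := hm ▸ le_min (by positivity) (by positivity)
  have m1 : m ≤ P * y := hm ▸ min_le_left _ _
  have m2 : m ≤ P ^ 2 := hm ▸ min_le_right _ _
  have t1 : W * D ^ 2 * y ≤ L := by
    rw [hL']
    have : W * D ^ 2 * y * 1 ≤ W * D ^ 2 * y * D := by gcongr
    linarith
  have t2 : W * D ^ 2 * m ≤ 2 * (P ^ (5 / 4 : ℝ) * L ^ (3 / 4 : ℝ)) := by
    refine le_of_pow_le_pow_left₀ (n := 4) (by norm_num) (by positivity) ?_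
    rw [mul_pow 2, mul_pow (P ^ (5 / 4 : ℝ)), fsec_pow hP0 (n := 4) (k := 5) (by norm_num),
      fsec_pow hL (n := 4) (k := 3) (by norm_num)]
    calc (W * D ^ 2 * m) ^ 4 = (W * D ^ 2) ^ 4 * (m ^ 3 * m) := by ring
      _ ≤ (W * D ^ 2) ^ 4 * ((P * y) ^ 3 * P ^ 2) := by gcongr
      _ = W * (W ^ 3 * D ^ 8 * P ^ 5 * y ^ 3) := by ring
      _ ≤ (2 ^ 4 * D) * (W ^ 3 * D ^ 8 * P ^ 5 * y ^ 3) := by
        gcongr
        linarith
      _ = _ := by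
        rw [hL']
        ring
  have t4 : L * m ≤ P ^ (3 / 2 : ℝ) * L ^ (3 / 2 : ℝ) := by
    refine le_of_pow_le_pow_left₀ (n := 2) (by norm_num) (by positivity) ?_
    rw [mul_pow (P ^ (3 / 2 : ℝ)), fsec_pow hP0 (n := 2) (k := 3) (by norm_num),
      fsec_pow hL (n := 2) (k := 3) (by norm_num)]
    calc (L * m) ^ 2 = L ^ 2 * (m * m) := by ring
      _ ≤ L ^ 2 * ((P * L) * P ^ 2) := by
        gcongr
        exact m1.trans (by gcongr)
      _ = _ := by ring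
  have e : (K * (W * E) + L / D ^ 2) * (2 * D) * (y + m) * D =
      2 * E * K * (W * D ^ 2 * y) + 2 * E * K * (W * D ^ 2 * m) + 2 * (L * y) + 2 * (L * m) := by
    field_simp
    ring
  have hE0 : 0 ≤ 2 * E * K := by positivity
  have u1 := mul_le_mul_of_nonneg_left t1 hE0
  have u2 := mul_le_mul_of_nonneg_left t2 hE0
  have u3 := mul_le_mul_of_nonneg_left hyL hL
  have u4 : L ^ 2 ≤ E * L ^ 2 := le_mul_of_one_le_left (by positivity) hE
  have u5 : P ^ (3 / 2 : ℝ) * L ^ (3 / 2 : ℝ) ≤ E * (P ^ (3 / 2 : ℝ) * L ^ (3 / 2 : ℝ)) :=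
    le_mul_of_one_le_left (by positivity) hE
  have u6 : 0 ≤ E * K * L := by positivity
  have u7 : 0 ≤ E * L ^ 2 := by positivity
  have u8 : 0 ≤ E * (P ^ (3 / 2 : ℝ) * L ^ (3 / 2 : ℝ)) := by positivity
  rw [e, En]
  linarith

/-- Group `T` by `(w, d, e)`; for fixed `(w, d, e)`: `AA Rs β (ql j) = AA Rs β' c` with
`β' r = β r * cb (w * (w d e²)³) r`, `nm c ≤ L / D³ / nm w`, `ls3`, `sec_ineq`; sum with `cnt3`. -/
theorem second_moment : ∃ C : ℝ, 0 ≤ C ∧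
    ∀ (T : Finset (O × O × O × O)) (K P L D : ℝ) (Rs : Finset O) (β : O → ℂ), 0 ≤ K → 1 ≤ P →
      0 ≤ L → 1 ≤ D → Mk 1 P Rs →
      (∀ j ∈ T, ql j ≠ 0 ∧ nm (ql j) ≤ L ∧ D ≤ nm (qd j) ∧ nm (qd j) ≤ 2 * D) →
      ∑ j ∈ T, (K * nm (j.1 * j.2.2.2) + L / D ^ 2) * (nm (qd j) * ‖AA Rs β (ql j)‖ ^ 2) ≤
        C * (1 + Real.log P) * (1 + Real.log (2 * D)) ^ 2 * En K P L * ∑ r ∈ Rs, ‖β r‖ ^ 2 := by
  obtain ⟨C₁, hC₁, h₁⟩ := ls3
  obtain ⟨C₂, hC₂, h₂⟩ := cnt3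
  refine ⟨8 * C₁ * C₂, by positivity, fun T K P L D Rs β hK hP hL hD hM hT => ?_⟩
  have hD0 : 0 < D := one_pos.trans_le hD
  have hlP : 0 ≤ 1 + Real.log P := add_nonneg zero_le_one (Real.log_nonneg hP)
  have hS : 0 ≤ ∑ r ∈ Rs, ‖β r‖ ^ 2 := Finset.sum_nonneg fun _ _ => sq_nonneg _
  have hEn := En_nonneg hK (zero_le_one.trans hP) hL
  rw [← Finset.sum_fiberwise_of_maps_to (g := fun j : O × O × O × O => (j.1, j.2.2))
    (t := T.image fun j => (j.1, j.2.2)) fun j hj => Finset.mem_image_of_mem _ hj]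
  have key : ∀ p ∈ T.image fun j => (j.1, j.2.2), ∑ j ∈ T with (j.1, j.2.2) = p,
      (K * nm (j.1 * j.2.2.2) + L / D ^ 2) * (nm (qd j) * ‖AA Rs β (ql j)‖ ^ 2) ≤
      4 * C₁ * (1 + Real.log P) * En K P L * (∑ r ∈ Rs, ‖β r‖ ^ 2) / D * nm p.2.2 := by
    intro p hp
    obtain ⟨j₀, hj₀, rfl⟩ := Finset.mem_image.1 hp
    obtain ⟨a1, -, a3, a4⟩ := hT j₀ hj₀
    have a5 : j₀.1 ≠ 0 := left_ne_zero_of_mul (left_ne_zero_of_mul a1)
    have a6 : qd j₀ ≠ 0 := ne_zero_pow three_ne_zero (right_ne_zero_of_mul a1)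
    have hW := one_le_nm a5
    have hE := one_le_nm (ne_zero_pow two_ne_zero (right_ne_zero_of_mul a6))
    have hWD : nm j₀.1 ≤ 2 * D :=
      (nm_le_of_dvd ((dvd_mul_right _ _).trans (dvd_mul_right _ _)) a6).trans a4
    have b1 : ∀ j ∈ T.filter fun j => (j.1, j.2.2) = (j₀.1, j₀.2.2),
        j ∈ T ∧ j.1 = j₀.1 ∧ j.2.2 = j₀.2.2 := fun j hj =>
      ⟨(Finset.mem_filter.1 hj).1, Prod.ext_iff.1 (Finset.mem_filter.1 hj).2⟩
    have b2 : ∀ j ∈ T.filter fun j => (j.1, j.2.2) = (j₀.1, j₀.2.2),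
        qd j = qd j₀ ∧ ql j = j₀.1 * qd j₀ ^ 3 * j.2.1 := fun j hj => by
      have c1 : qd j = qd j₀ := by rw [qd, qd, (b1 j hj).2.1, (b1 j hj).2.2]
      exact ⟨c1, by rw [ql, c1, (b1 j hj).2.1]; ring⟩
    have b3 := h₁ P (L / D ^ 3 / nm j₀.1) Rs
      ((T.filter fun j => (j.1, j.2.2) = (j₀.1, j₀.2.2)).image fun j : O × O × O × O => j.2.1)
      (fun r => β r * cb (j₀.1 * qd j₀ ^ 3) r) hP (by positivity) hM fun n hn => by
        obtain ⟨j, hj, rfl⟩ := Finset.mem_image.1 hn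
        obtain ⟨c1, c2, -⟩ := hT j (b1 j hj).1
        rw [(b2 j hj).2] at c1 c2
        refine ⟨right_ne_zero_of_mul c1, ?_⟩
        rw [nm_mul, nm_mul, nm_pow] at c2
        rw [le_div_iff₀ (by positivity), le_div_iff₀ (by positivity)]
        refine le_trans ?_ c2
        have c3 := nm_nonneg j.2.1
        calc nm j.2.1 * nm j₀.1 * D ^ 3 ≤ nm j.2.1 * nm j₀.1 * nm (qd j₀) ^ 3 := by gcongr
          _ = _ := by ring
    rw [Finset.sum_image fun j hj j' hj' e =>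
      Prod.ext ((b1 j hj).2.1.trans (b1 j' hj').2.1.symm)
        (Prod.ext e ((b1 j hj).2.2.trans (b1 j' hj').2.2.symm))] at b3
    have b4 : ∑ r ∈ Rs, ‖β r * cb (j₀.1 * qd j₀ ^ 3) r‖ ^ 2 ≤ ∑ r ∈ Rs, ‖β r‖ ^ 2 :=
      Finset.sum_le_sum fun r _ => pow_le_pow_left₀ (norm_nonneg _) (by
        rw [norm_mul]
        exact mul_le_of_le_one_right (norm_nonneg _) (norm_cb_le _ _)) 2
    have b5 : ∀ j ∈ T.filter fun j => (j.1, j.2.2) = (j₀.1, j₀.2.2),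
        (K * nm (j.1 * j.2.2.2) + L / D ^ 2) * (nm (qd j) * ‖AA Rs β (ql j)‖ ^ 2) =
        (K * (nm j₀.1 * nm j₀.2.2.2) + L / D ^ 2) * nm (qd j₀) *
          ‖AA Rs (fun r => β r * cb (j₀.1 * qd j₀ ^ 3) r) j.2.1‖ ^ 2 := fun j hj => by
      rw [(b2 j hj).1, (b2 j hj).2, (b1 j hj).2.1, (b1 j hj).2.2, nm_mul, mul_assoc _ (nm (qd j₀))]
      simp only [AA, cb_mul_left (j₀.1 * qd j₀ ^ 3), mul_assoc (β _)]
    rw [Finset.sum_congr rfl b5, ← Finset.mul_sum, div_mul_eq_mul_div, le_div_iff₀ hD0]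
    have b6 := sec_ineq hK hP hL hD hW hWD hE
    have b7 : 0 ≤ L / D ^ 3 / nm j₀.1 + min (P * (L / D ^ 3 / nm j₀.1)) (P ^ 2) :=
      add_nonneg (by positivity) (le_min (by positivity) (by positivity))
    generalize L / D ^ 3 / nm j₀.1 + min (P * (L / D ^ 3 / nm j₀.1)) (P ^ 2) = Y at b3 b6 b7
    have b8 : 0 ≤ K * (nm j₀.1 * nm j₀.2.2.2) + L / D ^ 2 := by positivity
    generalize K * (nm j₀.1 * nm j₀.2.2.2) + L / D ^ 2 = X at b6 b8 ⊢
    calc _ ≤ X * (2 * D) * (C₁ * (1 + Real.log P) * Y * ∑ r ∈ Rs, ‖β r‖ ^ 2) * D := by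
          refine mul_le_mul_of_nonneg_right (mul_le_mul (by gcongr) (b3.trans (by gcongr))
            (Finset.sum_nonneg fun _ _ => sq_nonneg _) (by positivity)) hD0.le
      _ = X * (2 * D) * Y * D * (C₁ * (1 + Real.log P) * ∑ r ∈ Rs, ‖β r‖ ^ 2) := by ring
      _ ≤ 4 * nm j₀.2.2.2 * En K P L * (C₁ * (1 + Real.log P) * ∑ r ∈ Rs, ‖β r‖ ^ 2) :=
          mul_le_mul_of_nonneg_right b6 (by positivity)
      _ = _ := by ring
  refine (Finset.sum_le_sum key).trans ?_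
  rw [← Finset.mul_sum]
  refine (mul_le_mul_of_nonneg_left (h₂ (2 * D) _ (by linarith) fun p hp => ?_)
    (by positivity)).trans_eq ?_
  · obtain ⟨j, hj, rfl⟩ := Finset.mem_image.1 hp
    obtain ⟨a1, -, -, a4⟩ := hT j hj
    exact ⟨ne_zero_pow three_ne_zero (right_ne_zero_of_mul a1), a4⟩
  · field_simp
    ring

end Crest.Agent.R17.F
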