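import Crest.Agent.R17.F.Sieve
import Crest.Agent.R17.F.Sec

/-!
Row 17, block F: energy of the dual polynomial on primary elements.
-/

set_option autoImplicit false

namespace Crest.Agent.R17.F

open scoped Classical ComplexConjugate

/-- `l = c₁ d₁³` (`exists_of_tau0_ne_zero`), `d₁ = d₂ e²` with `d₂` squarefree
(`Prim.exists_powFree`, `powFree_two`), `w = gcd (c₁, d₂)` (`Prim.exists_gcd`) -/
theorem exists_quad {l : O} (h : tau0 l ≠ 0) : ∃ j : O × O × O × O,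
    Prim j.1 ∧ Prim j.2.1 ∧ Prim j.2.2.1 ∧ Prim j.2.2.2 ∧ Squarefree (j.2.1 * j.2.2.1) ∧
      l = ql j ∧ ‖tau0 l‖ ^ 2 = nm (qd j) := by
  obtain ⟨c₁, d₁, hc₁, hd₁, hs, rfl⟩ := exists_of_tau0_ne_zero h
  obtain ⟨d₂, e, hd₂, he, hpf, rfl⟩ := hd₁.exists_powFree (k := 2) (by norm_num)
  have hs₂ : Squarefree d₂ := (powFree_two hd₂.ne_zero).1 hpf
  obtain ⟨w, c, d, hw, hc, rfl, rfl, hcd⟩ := hc₁.exists_gcd d₂
  have hd : Prim d := hw.of_mul hd₂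
  refine ⟨(w, c, d, e), hw, hc, hd, he, ?_, rfl, ?_⟩
  · exact squarefree_mul_iff.2 ⟨hcd.isRelPrime, hs.of_mul_right, hs₂.of_mul_right⟩
  · rw [norm_tau0 hc₁ hd₁ hs, Real.sq_sqrt (nm_nonneg _)]
    rfl

theorem sx_ql (j : O × O × O × O) (k : O) :
    sx (ql j) k ^ 3 = sx ((j.1 * j.2.2.2) ^ 2 * (j.2.1 * j.2.2.1)) k ^ 3 := by
  obtain ⟨w, c, d, e⟩ := j
  simp only [ql, qd, sx_mul_left, sx_pow_left _ _ (three_ne_zero), sx_pow_left _ _ (two_ne_zero)]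
  have hW : sx w k ^ 12 = sx w k ^ 6 := sx_pow_add_six w k (j := 6) (by norm_num)
  have hD : sx d k ^ 9 = sx d k ^ 3 := sx_pow_add_six d k (j := 3) (by norm_num)
  have hE : sx e k ^ 18 = sx e k ^ 6 :=
    (sx_pow_add_six e k (j := 12) (by norm_num)).trans (sx_pow_add_six e k (j := 6) (by norm_num))
  calc (sx w k * sx c k * (sx w k * sx d k * sx e k ^ 2) ^ 3) ^ 3
      = sx w k ^ 12 * sx c k ^ 3 * sx d k ^ 9 * sx e k ^ 18 := by ring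
    _ = _ := by rw [hW, hD, hE]; ring

/-- inject into `anti y ×ˢ anti z`; `card_anti`, `card_pdiv_le` -/
theorem card_quad_le {ε : ℝ} (hε : 0 < ε) : ∃ C : ℝ, 0 ≤ C ∧
    ∀ (T : Finset (O × O × O × O)) (Z : ℝ), 1 ≤ Z →
      (∀ j ∈ T, Prim j.1 ∧ Prim j.2.1 ∧ Prim j.2.2.1 ∧ Prim j.2.2.2 ∧ nm (ql j) ≤ Z) →
      ∀ y z : O, ((T.filter fun j => j.1 * j.2.2.2 = y ∧ j.2.1 * j.2.2.1 = z).card : ℝ) ≤
        C * Z ^ ε := by
  obtain ⟨C, hC, h⟩ := card_pdiv_le (half_pos hε)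
  refine ⟨C ^ 2, by positivity, fun T Z hZ hT y z => ?_⟩
  rcases (T.filter fun j => j.1 * j.2.2.2 = y ∧ j.2.1 * j.2.2.1 = z).eq_empty_or_nonempty with
    h0 | ⟨j₀, hj₀⟩
  · rw [h0]
    simp only [Finset.card_empty, Nat.cast_zero]
    positivity
  · obtain ⟨hj, rfl, rfl⟩ := Finset.mem_filter.1 hj₀
    obtain ⟨a1, a2, a3, a4, a5⟩ := hT j₀ hj
    have hq : ql j₀ ≠ 0 := ((a1.mul a2).mul (((a1.mul a3).mul (a4.pow 2)).pow 3)).ne_zero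
    have hy : nm (j₀.1 * j₀.2.2.2) ≤ Z := (nm_le_of_dvd
      ⟨j₀.1 ^ 3 * j₀.2.1 * j₀.2.2.1 ^ 3 * j₀.2.2.2 ^ 5, by simp only [ql, qd]; ring⟩ hq).trans a5
    have hz : nm (j₀.2.1 * j₀.2.2.1) ≤ Z := (nm_le_of_dvd
      ⟨j₀.1 ^ 4 * j₀.2.2.1 ^ 2 * j₀.2.2.2 ^ 6, by simp only [ql, qd]; ring⟩ hq).trans a5
    have hc : (T.filter fun j => j.1 * j.2.2.2 = j₀.1 * j₀.2.2.2 ∧
        j.2.1 * j.2.2.1 = j₀.2.1 * j₀.2.2.1).card ≤
        (anti (j₀.1 * j₀.2.2.2) ×ˢ anti (j₀.2.1 * j₀.2.2.1)).card := by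
      refine Finset.card_le_card_of_injOn (fun j => ((j.1, j.2.2.2), (j.2.1, j.2.2.1))) ?_ ?_
      · intro j hj'
        obtain ⟨hj', e1, e2⟩ := Finset.mem_filter.1 (Finset.mem_coe.1 hj')
        obtain ⟨b1, b2, b3, b4, -⟩ := hT j hj'
        exact Finset.mem_coe.2 (Finset.mem_product.2 ⟨mem_anti.2 ⟨b1, b4, e1⟩,
          mem_anti.2 ⟨b2, b3, e2⟩⟩)
      · rintro ⟨w, c, d, e⟩ - ⟨w', c', d', e'⟩ - he
        simp only [Prod.mk.injEq] at he ⊢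
        tauto
    rw [Finset.card_product, card_anti (a1.mul a4), card_anti (a2.mul a3)] at hc
    have h1 := (h _ (a1.mul a4).ne_zero).trans (mul_le_mul_of_nonneg_left
      (Real.rpow_le_rpow (nm_nonneg _) hy (half_pos hε).le) hC.le)
    have h2 := (h _ (a2.mul a3).ne_zero).trans (mul_le_mul_of_nonneg_left
      (Real.rpow_le_rpow (nm_nonneg _) hz (half_pos hε).le) hC.le)
    have hZ0 : 0 < Z := by linarith
    calc _ ≤ ((pdiv (j₀.1 * j₀.2.2.2)).card : ℝ) * (pdiv (j₀.2.1 * j₀.2.2.1)).card := by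
          exact_mod_cast hc
      _ ≤ (C * Z ^ (ε / 2)) * (C * Z ^ (ε / 2)) :=
          mul_le_mul h1 h2 (Nat.cast_nonneg _) (by positivity)
      _ = C ^ 2 * (Z ^ (ε / 2) * Z ^ (ε / 2)) := by ring
      _ = C ^ 2 * Z ^ ε := by rw [← Real.rpow_add hZ0, add_halves]

theorem de0_block (hE : StE) {ε : ℝ} (hε : 0 < ε) : ∃ C : ℝ, 0 ≤ C ∧
    ∀ (φ β : O → ℂ) (Z K P L D : ℝ) (Rs A : Finset O) (T : Finset (O × O × O × O)), 1 ≤ K → K ≤ Z →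
    1 ≤ P → P ≤ Z → 0 ≤ L → L ≤ Z → 1 ≤ D → D ≤ Z → (∀ l, ‖φ l‖ ≤ 1) → Mk 1 P Rs →
    (∀ k ∈ A, Sq K k) →
    (∀ j ∈ T, (Prim j.1 ∧ Prim j.2.1 ∧ Prim j.2.2.1 ∧ Prim j.2.2.2 ∧
      Squarefree (j.2.1 * j.2.2.1) ∧ nm (ql j) ≤ L ∧ ‖tau0 (ql j)‖ ^ 2 = nm (qd j)) ∧
      D ≤ nm (qd j) ∧ nm (qd j) ≤ 2 * D) →
    ∑ k ∈ A, ‖∑ j ∈ T, tau0 (ql j) * φ (ql j) * sx (ql j) k ^ 3 * AA Rs β (ql j)‖ ^ 2 ≤
      C * Z ^ ε * (1 + Real.log Z) ^ 3 * En K P L * ∑ r ∈ Rs, ‖β r‖ ^ 2 := by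
  obtain ⟨C₁, hC₁, h₁⟩ := sieve_sq hE (half_pos hε)
  obtain ⟨C₂, hC₂, h₂⟩ := card_quad_le (half_pos hε)
  obtain ⟨C₃, hC₃, h₃⟩ := second_moment
  refine ⟨4 * (C₁ * C₂ * C₃), by positivity, ?_⟩
  intro φ β Z K P L D Rs A T hK hKZ hP hPZ hL hLZ hD hDZ hφ hRs hA hT
  have hZ : 1 ≤ Z := hK.trans hKZ
  have hZ0 : 0 < Z := by linarith
  have hD0 : 0 < D := by linarith
  have hq : ∀ j ∈ T, ql j ≠ 0 := fun j hj => by
    obtain ⟨⟨a1, a2, a3, a4, -⟩, -⟩ := hT j hj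
    exact ((a1.mul a2).mul (((a1.mul a3).mul (a4.pow 2)).pow 3)).ne_zero
  have e₁ := h₁ T (fun j => j.1 * j.2.2.2) (fun j => j.2.1 * j.2.2.1)
    (fun j => tau0 (ql j) * φ (ql j) * AA Rs β (ql j)) Z K (L / D ^ 2) (C₂ * Z ^ (ε / 2)) A hK hKZ
    ((div_le_self hL (one_le_pow₀ hD)).trans hLZ) hA (fun j hj => ?_)
    (h₂ T Z hZ fun j hj => ?_)
  · have e₃ := h₃ T K P L D Rs β (by linarith) hP hL hD hRs fun j hj =>
      ⟨hq j hj, (hT j hj).1.2.2.2.2.2.1, (hT j hj).2⟩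
    have e₂ : ∑ j ∈ T, (K * nm (j.1 * j.2.2.2) + L / D ^ 2) *
          ‖tau0 (ql j) * φ (ql j) * AA Rs β (ql j)‖ ^ 2 ≤
        ∑ j ∈ T, (K * nm (j.1 * j.2.2.2) + L / D ^ 2) * (nm (qd j) * ‖AA Rs β (ql j)‖ ^ 2) := by
      refine Finset.sum_le_sum fun j hj => mul_le_mul_of_nonneg_left ?_ ?_
      · rw [norm_mul, norm_mul, mul_pow, mul_pow, (hT j hj).1.2.2.2.2.2.2]
        refine mul_le_mul_of_nonneg_right ?_ (by positivity)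
        exact mul_le_of_le_one_right (nm_nonneg _) (pow_le_one₀ (norm_nonneg _) (hφ _))
      · have := nm_nonneg (j.1 * j.2.2.2)
        have : 0 ≤ K := by linarith
        positivity
    have hlog : 0 ≤ Real.log Z := Real.log_nonneg hZ
    have l1 : 1 + Real.log P ≤ 1 + Real.log Z := by
      have := Real.log_le_log (by linarith) hPZ
      linarith
    have l2 : 1 + Real.log (2 * D) ≤ 2 * (1 + Real.log Z) := by
      rw [Real.log_mul two_ne_zero hD0.ne']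
      have := Real.log_le_log hD0 hDZ
      have := Real.log_two_lt_d9
      linarith
    have l3 : 0 ≤ Real.log (2 * D) := Real.log_nonneg (by linarith)
    have l4 : 0 ≤ Real.log P := Real.log_nonneg hP
    have hEn : 0 ≤ En K P L := En_nonneg (by linarith) (by linarith) hL
    have hβ : 0 ≤ ∑ r ∈ Rs, ‖β r‖ ^ 2 := Finset.sum_nonneg fun _ _ => by positivity
    calc _ = ∑ k ∈ A, ‖∑ j ∈ T, tau0 (ql j) * φ (ql j) * AA Rs β (ql j) *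
            sx ((j.1 * j.2.2.2) ^ 2 * (j.2.1 * j.2.2.1)) k ^ 3‖ ^ 2 := by
          refine Finset.sum_congr rfl fun k _ => ?_
          congr 2
          refine Finset.sum_congr rfl fun j _ => ?_
          rw [sx_ql]
          ring
      _ ≤ C₁ * Z ^ (ε / 2) * (C₂ * Z ^ (ε / 2)) * (C₃ * (1 + Real.log P) *
            (1 + Real.log (2 * D)) ^ 2 * En K P L * ∑ r ∈ Rs, ‖β r‖ ^ 2) :=
          e₁.trans (mul_le_mul_of_nonneg_left (e₂.trans e₃) (by positivity))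
      _ ≤ C₁ * Z ^ (ε / 2) * (C₂ * Z ^ (ε / 2)) * (C₃ * (1 + Real.log Z) *
            (2 * (1 + Real.log Z)) ^ 2 * En K P L * ∑ r ∈ Rs, ‖β r‖ ^ 2) := by
          gcongr
      _ = 4 * (C₁ * C₂ * C₃) * (Z ^ (ε / 2) * Z ^ (ε / 2)) * (1 + Real.log Z) ^ 3 * En K P L *
            ∑ r ∈ Rs, ‖β r‖ ^ 2 := by ring
      _ = _ := by rw [← Real.rpow_add hZ0, add_halves]
  · obtain ⟨⟨a1, a2, a3, a4, a5, a6, -⟩, b1, -⟩ := hT j hj
    refine ⟨a1.mul a4, a2.mul a3, a5, ?_⟩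
    rw [le_div_iff₀ (by positivity)]
    have e : nm (ql j) = nm (j.1 * j.2.2.2) ^ 2 * nm (j.2.1 * j.2.2.1) * nm (qd j) ^ 2 := by
      rw [← nm_pow, ← nm_pow, ← nm_mul, ← nm_mul]
      congr 1
      simp only [ql, qd]
      ring
    refine le_trans ?_ a6
    rw [e]
    have := nm_nonneg (j.2.1 * j.2.2.1)
    gcongr
  · obtain ⟨⟨a1, a2, a3, a4, -, a6, -⟩, -⟩ := hT j hj
    exact ⟨a1, a2, a3, a4, a6.trans hLZ⟩

/-- Discard the `l` with `tau0 l = 0`, choose quadruples (`exists_quad`; the map is injective, use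
`T = image`), `sum_sq_dyadic` in `h j = nm (qd j) ≤ Z`; in a block `D ≤ nm (qd j) ≤ 2 D`:
`sx_ql`, `sieve_sq` with `M = L / D²`, `card_quad_le`, `second_moment`; logarithms by
`one_add_log_rpow_le`. -/
theorem de0 (hE : StE) : DE0 := by
  intro ε hε
  obtain ⟨C₁, hC₁, h₁⟩ := de0_block hE (half_pos hε)
  obtain ⟨C₂, hC₂, h₂⟩ := one_add_log_rpow_le 5 (half_pos hε)
  refine ⟨4 * C₁ * C₂, by positivity, ?_⟩
  intro φ β Z K P L Rs A B hK hKZ hP hPZ hL hLZ hφ hRs hA hB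
  have hZ : 1 ≤ Z := hK.trans hKZ
  have hZ0 : 0 < Z := by linarith
  choose! J hJ using fun l (h : tau0 l ≠ 0) => exists_quad h
  set B' := B.filter fun l => tau0 l ≠ 0 with hB'
  have hinj : Set.InjOn J B' := fun l hl l' hl' e => by
    rw [(hJ l (Finset.mem_filter.1 hl).2).2.2.2.2.2.1,
      (hJ l' (Finset.mem_filter.1 hl').2).2.2.2.2.2.1, e]
  have hT : ∀ j ∈ B'.image J, Prim j.1 ∧ Prim j.2.1 ∧ Prim j.2.2.1 ∧ Prim j.2.2.2 ∧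
      Squarefree (j.2.1 * j.2.2.1) ∧ nm (ql j) ≤ L ∧ ‖tau0 (ql j)‖ ^ 2 = nm (qd j) := by
    intro j hj
    obtain ⟨l, hl, rfl⟩ := Finset.mem_image.1 hj
    obtain ⟨hl1, hl2⟩ := Finset.mem_filter.1 hl
    obtain ⟨a1, a2, a3, a4, a5, a6, a7⟩ := hJ l hl2
    exact ⟨a1, a2, a3, a4, a5, a6 ▸ (hB l hl1).2, a6 ▸ a7⟩
  have hsum : ∀ k, ∑ l ∈ B, tau0 l * φ l * sx l k ^ 3 * AA Rs β l =
      ∑ j ∈ B'.image J, tau0 (ql j) * φ (ql j) * sx (ql j) k ^ 3 * AA Rs β (ql j) := by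
    intro k
    rw [Finset.sum_image hinj, hB', Finset.sum_filter]
    refine Finset.sum_congr rfl fun l _ => ?_
    by_cases h : tau0 l = 0
    · simp [h]
    · rw [if_pos h, ← (hJ l h).2.2.2.2.2.1]
  simp only [hsum]
  have hlog : 0 ≤ Real.log Z := Real.log_nonneg hZ
  have hEn : 0 ≤ En K P L := En_nonneg (by linarith) (by linarith) hL
  have hβ : 0 ≤ ∑ r ∈ Rs, ‖β r‖ ^ 2 := Finset.sum_nonneg fun _ _ => by positivity
  have key := sum_sq_dyadic A (B'.image J) (fun j => nm (qd j))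
    (fun k j => tau0 (ql j) * φ (ql j) * sx (ql j) k ^ 3 * AA Rs β (ql j)) (H := Z)
    (B := C₁ * Z ^ (ε / 2) * (1 + Real.log Z) ^ 3 * En K P L * ∑ r ∈ Rs, ‖β r‖ ^ 2) hZ
    (by positivity) (fun j hj => ?_) (fun D T' hD hDZ hsub hT' => ?_)
  · refine key.trans ?_
    have e5 := h₂ Z hZ
    rw [show (5 : ℝ) = ((5 : ℕ) : ℝ) by norm_num, Real.rpow_natCast] at e5
    calc _ = 4 * C₁ * (Z ^ (ε / 2) * (1 + Real.log Z) ^ 5) * (En K P L * ∑ r ∈ Rs, ‖β r‖ ^ 2) := by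
          ring
      _ ≤ 4 * C₁ * (Z ^ (ε / 2) * (C₂ * Z ^ (ε / 2))) * (En K P L * ∑ r ∈ Rs, ‖β r‖ ^ 2) := by
          gcongr
      _ = 4 * C₁ * C₂ * (Z ^ (ε / 2) * Z ^ (ε / 2)) * En K P L * ∑ r ∈ Rs, ‖β r‖ ^ 2 := by ring
      _ = _ := by rw [← Real.rpow_add hZ0, add_halves]
  · obtain ⟨a1, a2, a3, a4, -, a6, -⟩ := hT j hj
    have hd : Prim (qd j) := (a1.mul a3).mul (a4.pow 2)
    have hq : ql j ≠ 0 := ((a1.mul a2).mul (hd.pow 3)).ne_zero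
    exact ⟨one_le_nm hd.ne_zero, (nm_le_of_dvd
      ⟨j.1 * j.2.1 * qd j ^ 2, by simp only [ql]; ring⟩ hq).trans (a6.trans hLZ)⟩
  · exact h₁ φ β Z K P L D Rs A T' hK hKZ hP hPZ hL hLZ hD hDZ hφ hRs hA
      (fun j hj => ⟨hT j (hsub hj), hT' j hj⟩)

end Crest.Agent.R17.F
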