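import Crest.Agent.R17.A.All
import Crest.Agent.R17.B.All

/-!
Row 17, block F (marked theta energy; owner helper72): definitions.  FROZEN.

Chain of reductions: `StF ⇐ S1 ⇐ S2 ⇐ S3 τ ⇐ S4 τ ⇐ S5 τ ⇐ S6 τ ⇐ SD τ (+ refl3) ⇐ DE2 τ ⇐ DE1 τ ⇐ DE0 ⇐ StE`.
* `S1`: rows primary and prime to `q`, symbol turned around by reciprocity;
* `S2`: the marks `1_{r ∣ n}` are replaced by the centred marks `dl n r = ∏_{p ∣ r} (1_{p ∣ n} - 1 / N p)`;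
* `S3`: sums over all `n ∈ O` with the theta coefficients `τ` and a periodic factor `G` whose
  additive expansion only contains cusps `α / (3 c₀)`, `3 ∣ c₀`;
* `S4`: one additive character; `S5`: squarefree rows and one extra character modulo `e`;
* `S6`: fixed residue classes modulo `3 c₀`; `SD`: the dual sums after the reflection;
* `DE2, DE1, DE0`: finite dual polynomials.
-/

set_option autoImplicit false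

namespace Crest.Agent.R17.F

open scoped Classical ComplexConjugate

/-! ### The pieces of `StD` -/

def Coef (τ : O → ℂ) (t : O → ℕ → ℂ) : Prop :=
  ∀ (ζ : O) (i : ℕ) (n : O), IsUnit ζ → Prim n →
    τ (ζ * lam ^ i * n) = t ζ i * cb (ζ * lam ^ (i + 1)) n * tau0 n

def TB (t : O → ℕ → ℂ) : Prop :=
  ∃ C : ℝ, ∀ (ζ : O) (i : ℕ), IsUnit ζ → ‖t ζ i‖ ≤ C * (3 : ℝ) ^ ((i : ℝ) / 3)

def Gr (τ : O → ℂ) : Prop :=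
  ∃ C : ℝ, 0 ≤ C ∧ ∀ n : O, n ≠ 0 → ‖τ n‖ ≤ C * nm n ^ (1 / 3 : ℝ)

def Refl (τ : O → ℂ) (e₀ : ℂ) : Prop :=
  ∀ a d c : O, c ≠ 0 → (3 : O) ∣ c → Prim a → 3 * c ∣ a * d - 1 →
    ∃ Λ Λ' : ℂ → ℂ, EntBdd Λ ∧ EntBdd Λ' ∧
      (∀ s : ℂ, 2 < s.re →
        Λ s = gth s * ∑' n : O, τ n * al n * eQ (-(n * a)) (3 * c) * (nm n : ℂ) ^ (-s)) ∧
      (∀ s : ℂ, 2 < s.re →
        Λ' s = gth s * ∑' n : O, τ n * conj (al n) * eQ (n * d) (3 * c) * (nm n : ℂ) ^ (-s)) ∧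
      ∀ s : ℂ, Λ s = e₀ * cb c a * al c ^ 2 * (nm c : ℂ) ^ (1 - 2 * s) * Λ' (1 - s)

/-! ### Sums -/

/-- smooth theta sum with a factor `G` (this is `SS (fun n => τ n * al n * G n) nm a Y t`) -/
noncomputable def Th (τ G : O → ℂ) (a Y t : ℝ) : ℂ :=
  ∑' n : O, τ n * al n * G n * LN a Y t (nm n)

/-- the reflected test function -/
noncomputable def WW (a t y : ℝ) : ℂ :=
  VI 0 fun s => LNt a (1 - s + Complex.I * t) * Rth s * (y : ℂ) ^ (-s)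

/-- dual theta sum of length `L` -/
noncomputable def Du (τ G : O → ℂ) (a t L : ℝ) : ℂ :=
  ∑' l : O, τ l * conj (al l) * G l * WW a t (nm l / L)

/-- centred mark (normalised Ramanujan sum) -/
noncomputable def dl (n r : O) : ℂ := gs 6 n r / (nm r : ℂ)

noncomputable def T1 (ψ : O → ℂ) (a N t : ℝ) (Rs : Finset O) (c : O → ℂ) (k : O) : ℂ :=
  ∑ r ∈ Rs, c r * ∑' n : Pr, if r ∣ (n : O) then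
    tau0 n * al n * ψ n * conj (sx n k) * LN a (N * nm r) t (nm n) else 0

noncomputable def T2 (ψ : O → ℂ) (a N t : ℝ) (Rs : Finset O) (c : O → ℂ) (k : O) : ℂ :=
  ∑ r ∈ Rs, if IsCoprime r k then c r * ∑' n : Pr,
    tau0 n * al n * ψ n * conj (sx n k) * dl n r * LN a (N * nm r) t (nm n) else 0

noncomputable def TE (τ G : O → ℂ) (a Y t : ℝ) (Rs : Finset O) (c : O → ℂ) (k : O) : ℂ :=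
  ∑ r ∈ Rs, if IsCoprime r k then
    c r * Th τ (fun n => G n * conj (sx n k) * dl n r) a (Y * nm r) t else 0

noncomputable def DT (τ φ : O → ℂ) (a t L₀ : ℝ) (Rs : Finset O) (β : O → ℂ) (k : O) : ℂ :=
  ∑ r ∈ Rs, if IsCoprime r k then
    β r * Du τ (fun l => φ l * sx l k ^ 3 * cb l r) a t (L₀ * nm k ^ 2 * nm r) else 0

/-- the cubic polynomial of the marks -/
noncomputable def AA (Rs : Finset O) (β : O → ℂ) (x : O) : ℂ := ∑ r ∈ Rs, β r * cb x r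

/-- primal side of a character modulo `e` -/
noncomputable def Fp (e : O) (χ : O → ℂ) (n : O) : ℂ := FT e (fun y => conj (χ y)) (-n)

/-- dual side of a character modulo `e` -/
noncomputable def Fd (e : O) (χ : O → ℂ) (l : O) : ℂ := FT e (fun y => χ y * cb y e ^ 2) l

/-! ### Bounds -/

noncomputable def bd (X K P B : ℝ) : ℝ :=
  X * K + (B * K * P) ^ 2 + X ^ (1 / 2 : ℝ) * (B * K) * P ^ (5 / 2 : ℝ) +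
    X ^ (5 / 4 : ℝ) * K ^ (1 / 2 : ℝ) * P ^ (3 / 4 : ℝ)

noncomputable def En (K P L : ℝ) : ℝ :=
  K * L + K * P ^ (5 / 4 : ℝ) * L ^ (3 / 4 : ℝ) + L ^ 2 + P ^ (3 / 2 : ℝ) * L ^ (3 / 2 : ℝ)

/-! ### Hypotheses -/

def Rng (Z K P Y : ℝ) : Prop := 1 ≤ K ∧ K ≤ Z ∧ 1 ≤ P ∧ P ≤ Z ∧ Z⁻¹ ≤ Y ∧ Y ≤ Z

/-- marks -/
def Mk (q : O) (P : ℝ) (Rs : Finset O) : Prop :=
  ∀ r ∈ Rs, Prim r ∧ Squarefree r ∧ IsCoprime r q ∧ nm r ≤ P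

/-- rows -/
def Rw (q : O) (K : ℝ) (A : Finset O) : Prop := ∀ k ∈ A, Prim k ∧ IsCoprime k q ∧ nm k ≤ K

/-- an admissible cusp `α / (3 c₀)` of level `Q` -/
def Cusp (Q c₀ α : O) : Prop := (3 : O) ∣ c₀ ∧ 3 * c₀ ∣ Q ∧ Prim α ∧ IsCoprime α c₀

/-- periodic, bounded, and only admissible cusps occur in the additive expansion -/
def Good (Q : O) (G : O → ℂ) : Prop :=
  Per Q G ∧ (∀ n, ‖G n‖ ≤ 1) ∧ ∀ h, FT Q G h ≠ 0 →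
    ∃ c₀ α : O, Cusp Q c₀ α ∧ ∀ n, eQ (-(h * n)) Q = eQ (-(n * α)) (3 * c₀)

/-- additive expansion of `n ↦ conj (n / f)₆` whose dual functions are bounded by `√(N g)` -/
def Exp (f g : O) : Prop :=
  ∃ (ι : Type) (I : Finset ι) (e : ι → O) (χ : ι → O → ℂ) (w : ι → ℂ),
    (I.card : ℝ) ≤ 2 ^ (pfs f).card ∧
    (∀ i ∈ I, Prim (e i) ∧ e i ^ 2 ∣ f ∧ IsTw (e i) (χ i) ∧
      ∀ l, ‖w i * Fd (e i) (χ i) l‖ ^ 2 ≤ nm g) ∧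
    ∀ n, conj (sx n f) = ∑ i ∈ I, w i * Fp (e i) (χ i) n

/-! ### The statements -/

def S1 : Prop :=
  ∀ (q : O) (a ε : ℝ), Lev q → 0 < a → 0 < ε → ∃ C : ℝ, 0 ≤ C ∧
    ∀ (ψ : O → ℂ) (Z K N P t : ℝ) (Rs A : Finset O) (c : O → ℂ), IsTw q ψ → Rng Z K P N →
    Mk q P Rs → (∀ r, ‖c r‖ ≤ 1) → Rw q K A →
    ∑ k ∈ A, ‖T1 ψ a N t Rs c k‖ ^ 2 ≤ C * Z ^ ε * (1 + |t|) ^ 12 * bd (N * P) K P 1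

def S2 : Prop :=
  ∀ (q : O) (a ε : ℝ), Lev q → 0 < a → 0 < ε → ∃ C : ℝ, 0 ≤ C ∧
    ∀ (ψ : O → ℂ) (Z K N P t : ℝ) (Rs A : Finset O) (c : O → ℂ), IsTw q ψ → Rng Z K P N →
    Mk q P Rs → (∀ r, ‖c r‖ ≤ 1) → Rw q K A →
    ∑ k ∈ A, ‖T2 ψ a N t Rs c k‖ ^ 2 ≤ C * Z ^ ε * (1 + |t|) ^ 12 * bd (N * P) K P 1

def S3 (τ : O → ℂ) : Prop :=
  ∀ (Q : O) (a ε : ℝ), Lev Q → 0 < a → 0 < ε → ∃ C : ℝ, 0 ≤ C ∧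
    ∀ (G : O → ℂ) (Z K Y P t : ℝ) (Rs A : Finset O) (c : O → ℂ), Good Q G → Rng Z K P Y →
    Mk Q P Rs → (∀ r, ‖c r‖ ≤ 1) → Rw Q K A →
    ∑ k ∈ A, ‖TE τ G a Y t Rs c k‖ ^ 2 ≤ C * Z ^ ε * (1 + |t|) ^ 12 * bd (Y * P) K P 1

def S4 (τ : O → ℂ) : Prop :=
  ∀ (Q : O) (a ε : ℝ), Lev Q → 0 < a → 0 < ε → ∃ C : ℝ, 0 ≤ C ∧
    ∀ (c₀ α : O) (Z K Y P t : ℝ) (Rs A : Finset O) (c : O → ℂ), Cusp Q c₀ α → Rng Z K P Y →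
    Mk Q P Rs → (∀ r, ‖c r‖ ≤ 1) → Rw Q K A →
    ∑ k ∈ A, ‖TE τ (fun n => eQ (-(n * α)) (3 * c₀)) a Y t Rs c k‖ ^ 2 ≤
      C * Z ^ ε * (1 + |t|) ^ 12 * bd (Y * P) K P 1

def S5 (τ : O → ℂ) : Prop :=
  ∀ (Q : O) (a ε : ℝ), Lev Q → 0 < a → 0 < ε → ∃ C : ℝ, 0 ≤ C ∧
    ∀ (c₀ α e : O) (χ : O → ℂ) (w : ℂ) (M Z K Y P t : ℝ) (Rs A : Finset O) (c : O → ℂ),
    Cusp Q c₀ α → Prim e → IsCoprime e Q → IsTw e χ → nm e ≤ Z →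
    (∀ l, ‖w * Fd e χ l‖ ^ 2 ≤ M) → Rng Z K P Y → Mk (Q * e) P Rs → (∀ r, ‖c r‖ ≤ 1) →
    Rw (Q * e) K A → (∀ k ∈ A, Squarefree k) →
    ∑ k ∈ A, ‖TE τ (fun n => eQ (-(n * α)) (3 * c₀) * (w * Fp e χ n)) a Y t Rs c k‖ ^ 2 ≤
      C * Z ^ ε * (1 + |t|) ^ 12 * (M * bd (Y * P) K P (nm e))

def S6 (τ : O → ℂ) : Prop :=
  ∀ (Q : O) (a ε : ℝ), Lev Q → 0 < a → 0 < ε → ∃ C : ℝ, 0 ≤ C ∧
    ∀ (c₀ α α' e : O) (χ : O → ℂ) (w : ℂ) (M Z K Y P t : ℝ) (Rs A : Finset O) (c : O → ℂ),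
    Cusp Q c₀ α → Prim e → IsCoprime e Q → IsTw e χ → nm e ≤ Z →
    (∀ l, ‖w * Fd e χ l‖ ^ 2 ≤ M) → Rng Z K P Y → Mk (Q * e) P Rs → (∀ r, ‖c r‖ ≤ 1) →
    Rw (Q * e) K A → (∀ k ∈ A, Squarefree k) →
    (∀ k ∈ A, ∀ r ∈ Rs, 3 * c₀ ∣ α * α' * (k * r * e) ^ 2 - 1) →
    ∑ k ∈ A, ‖TE τ (fun n => eQ (-(n * α)) (3 * c₀) * (w * Fp e χ n)) a Y t Rs c k‖ ^ 2 ≤
      C * Z ^ ε * (1 + |t|) ^ 12 * (M * bd (Y * P) K P (nm e))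

def SD (τ : O → ℂ) : Prop :=
  ∀ a ε : ℝ, 0 < a → 0 < ε → ∃ C : ℝ, 0 ≤ C ∧
    ∀ (φ β : O → ℂ) (Z K P L₀ t : ℝ) (Rs A : Finset O), 1 ≤ K → K ≤ Z → 1 ≤ P → P ≤ Z →
    0 < L₀ → L₀ ≤ Z → (∀ l, ‖φ l‖ ≤ 1) → Mk 1 P Rs → (∀ r ∈ Rs, ‖β r‖ ^ 2 ≤ (nm r)⁻¹) →
    (∀ k ∈ A, Sq K k) →
    ∑ k ∈ A, ‖DT τ φ a t L₀ Rs β k‖ ^ 2 ≤
      C * Z ^ ε * (1 + |t|) ^ 12 * (En K P (L₀ * K ^ 2 * P) + Z⁻¹)

def DE2 (τ : O → ℂ) : Prop :=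
  ∀ ε : ℝ, 0 < ε → ∃ C : ℝ, 0 ≤ C ∧
    ∀ (φ β : O → ℂ) (Z K P L : ℝ) (Rs A B : Finset O), 1 ≤ K → K ≤ Z → 1 ≤ P → P ≤ Z →
    0 ≤ L → L ≤ Z → (∀ l, ‖φ l‖ ≤ 1) → Mk 1 P Rs → (∀ k ∈ A, Sq K k) →
    (∀ l ∈ B, l ≠ 0 ∧ nm l ≤ L) →
    ∑ k ∈ A, ‖∑ l ∈ B, τ l * φ l * sx l k ^ 3 * AA (Rs.filter (IsCoprime · k)) β l‖ ^ 2 ≤
      C * Z ^ ε * En K P L * ∑ r ∈ Rs, ‖β r‖ ^ 2

def DE1 (τ : O → ℂ) : Prop :=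
  ∀ ε : ℝ, 0 < ε → ∃ C : ℝ, 0 ≤ C ∧
    ∀ (φ β : O → ℂ) (Z K P L : ℝ) (Rs A B : Finset O), 1 ≤ K → K ≤ Z → 1 ≤ P → P ≤ Z →
    0 ≤ L → L ≤ Z → (∀ l, ‖φ l‖ ≤ 1) → Mk 1 P Rs → (∀ k ∈ A, Sq K k) →
    (∀ l ∈ B, l ≠ 0 ∧ nm l ≤ L) →
    ∑ k ∈ A, ‖∑ l ∈ B, τ l * φ l * sx l k ^ 3 * AA Rs β l‖ ^ 2 ≤
      C * Z ^ ε * En K P L * ∑ r ∈ Rs, ‖β r‖ ^ 2

def DE0 : Prop :=
  ∀ ε : ℝ, 0 < ε → ∃ C : ℝ, 0 ≤ C ∧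
    ∀ (φ β : O → ℂ) (Z K P L : ℝ) (Rs A B : Finset O), 1 ≤ K → K ≤ Z → 1 ≤ P → P ≤ Z →
    0 ≤ L → L ≤ Z → (∀ l, ‖φ l‖ ≤ 1) → Mk 1 P Rs → (∀ k ∈ A, Sq K k) →
    (∀ l ∈ B, Prim l ∧ nm l ≤ L) →
    ∑ k ∈ A, ‖∑ l ∈ B, tau0 l * φ l * sx l k ^ 3 * AA Rs β l‖ ^ 2 ≤
      C * Z ^ ε * En K P L * ∑ r ∈ Rs, ‖β r‖ ^ 2

theorem Th_eq_SS (τ G : O → ℂ) (a Y t : ℝ) :
    Th τ G a Y t = SS (fun n : O => τ n * al n * G n) (fun n => nm n) a Y t := rfl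

end Crest.Agent.R17.F
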