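import Crest.Agent.R17.F.Ker

/-!
Row 17, block F: the energy of the dual sums.
-/

set_option autoImplicit false

namespace Crest.Agent.R17.F

open Complex
open scoped Classical ComplexConjugate

/-- the truncated dual sum -/
noncomputable def DM (τ φ : O → ℂ) (a t L₀ L' : ℝ) (Rs : Finset O) (β : O → ℂ) (k : O) : ℂ :=
  ∑ r ∈ Rs, if IsCoprime r k then β r * ∑ l ∈ (ball L').erase 0,
    τ l * conj (al l) * (φ l * sx l k ^ 3 * cb l r) * WW a t (nm l / (L₀ * nm k ^ 2 * nm r)) else 0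

theorem duala_cpow {x y z : ℝ} (hx : 0 < x) (hy : 0 < y) (hz : 0 < z) (v : ℝ) :
    ((x / (y * z) : ℝ) : ℂ) ^ (-(v * I)) = exp (((Real.log y * v : ℝ) : ℂ) * I) *
      (exp (((-(Real.log x * v) : ℝ) : ℂ) * I) * exp (((Real.log z * v : ℝ) : ℂ) * I)) := by
  have h : 0 < x / (y * z) := by positivity
  rw [cpow_def_of_ne_zero (ofReal_ne_zero.2 h.ne'), ← ofReal_log h.le, ← exp_add, ← exp_add,
    Real.log_div hx.ne' (by positivity), Real.log_mul hy.ne' hz.ne']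
  congr 1
  push_cast
  ring

/-- `sep` with `J = Rs ×ˢ (ball L').erase 0`; `y^(-iv) = (nm l)^(-iv) (L₀ nm k²)^(iv) (nm r)^(iv)`;
`DE2` with `φ' l = conj (al l) * φ l * (nm l)^(-iv)`, `β' r = β r * (nm r)^(iv)`. -/
theorem dm_energy {τ : O → ℂ} (h : DE2 τ) {a ε : ℝ} (ha : 0 < a) (hε : 0 < ε) :
    ∃ C : ℝ, 0 ≤ C ∧ ∀ (φ β : O → ℂ) (Z K P L₀ L' t : ℝ) (Rs A : Finset O), 1 ≤ K → K ≤ Z →
      1 ≤ P → P ≤ Z → 0 < L₀ → 0 ≤ L' → L' ≤ Z → (∀ l, ‖φ l‖ ≤ 1) → Mk 1 P Rs →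
      (∀ k ∈ A, Sq K k) →
      ∑ k ∈ A, ‖DM τ φ a t L₀ L' Rs β k‖ ^ 2 ≤ C * Z ^ ε * En K P L' * ∑ r ∈ Rs, ‖β r‖ ^ 2 := by
  obtain ⟨C₁, hC₁, H₁⟩ := sep ha
  obtain ⟨C₂, hC₂, H₂⟩ := h ε hε
  refine ⟨C₁ * C₂, mul_nonneg hC₁ hC₂,
    fun φ β Z K P L₀ L' t Rs A hK hKZ hP hPZ hL₀ hL' hLZ hφ hRs hA => ?_⟩
  have hk0 : ∀ k ∈ A, 0 < nm k := fun k hk => nm_pos (hA k hk).1.ne_zero
  have hr0 : ∀ r ∈ Rs, 0 < nm r := fun r hr => nm_pos (hRs r hr).1.ne_zero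
  have hl0 : ∀ l ∈ (ball L').erase 0, 0 < nm l := fun l hl => nm_pos (Finset.ne_of_mem_erase hl)
  have key := H₁ A (Rs ×ˢ (ball L').erase 0)
    (fun k j => if IsCoprime j.1 k then
      β j.1 * (τ j.2 * conj (al j.2) * (φ j.2 * sx j.2 k ^ 3 * cb j.2 j.1)) else 0)
    (fun k j => nm j.2 / (L₀ * nm k ^ 2 * nm j.1)) t
    (C₂ * Z ^ ε * En K P L' * ∑ r ∈ Rs, ‖β r‖ ^ 2)
    (fun k hk j hj => by
      have h1 := hk0 k hk
      have h2 := hr0 _ (Finset.mem_product.1 hj).1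
      have h3 := hl0 _ (Finset.mem_product.1 hj).2
      positivity)
    (fun v => by
      have h1 := H₂ (fun l => conj (al l) * φ l * exp (((-(Real.log (nm l) * v) : ℝ) : ℂ) * I))
        (fun r => β r * exp (((Real.log (nm r) * v : ℝ) : ℂ) * I)) Z K P L' Rs A
        ((ball L').erase 0) hK hKZ hP hPZ hL' hLZ
        (fun l => by
          rw [norm_mul, norm_mul, norm_exp_ofReal_mul_I, mul_one, norm_conj]
          exact mul_le_one₀ (norm_al_le l) (norm_nonneg _) (hφ l))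
        hRs hA fun l hl => ⟨Finset.ne_of_mem_erase hl, mem_ball.1 (Finset.mem_of_mem_erase hl)⟩
      simp only [norm_mul, norm_exp_ofReal_mul_I, mul_one] at h1
      refine le_trans (le_of_eq (Finset.sum_congr rfl fun k hk => ?_)) h1
      have h2 := hk0 k hk
      congr 1
      rw [← one_mul ‖∑ l ∈ (ball L').erase 0, _‖,
        ← norm_exp_ofReal_mul_I (Real.log (L₀ * nm k ^ 2) * v), ← norm_mul]
      congr 1
      rw [Finset.sum_product_right, Finset.mul_sum]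
      refine Finset.sum_congr rfl fun l hl => ?_
      rw [AA, Finset.sum_filter, Finset.mul_sum, Finset.mul_sum]
      refine Finset.sum_congr rfl fun r hr => ?_
      dsimp only
      split_ifs
      · rw [duala_cpow (hl0 l hl) (by positivity) (hr0 r hr)]
        ring
      · simp)
  refine le_trans (le_of_eq (Finset.sum_congr rfl fun k _ => ?_)) (key.trans (le_of_eq (by ring)))
  congr 2
  rw [DM, Finset.sum_product]
  refine Finset.sum_congr rfl fun r _ => ?_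
  dsimp only
  split_ifs
  · rw [Finset.mul_sum]
    exact Finset.sum_congr rfl fun l _ => by ring
  · simp

/-- the numerical part of `dt_tail` -/
theorem dualb_num {δ Z u L Λ : ℝ} {m : ℕ} (hδ : 0 < δ) (hδ1 : δ ≤ 1) (hm : 18 ≤ δ * m) (hZ : 1 ≤ Z)
    (hu : 1 ≤ u) (hL : 0 < L) (hLΛ : L ≤ Λ) (hΛ : Λ ≤ Z ^ 4) :
    ((u ^ 4 * L / (Z ^ δ * u ^ 4 * Λ)) ^ ((m + 1) / 2 : ℝ) *
      max 1 (Z ^ δ * u ^ 4 * Λ) ^ (4 / 3 : ℝ)) ^ 2 ≤ u ^ 11 * (Z ^ 4)⁻¹ := by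
  have hZ0 : 0 < Z := by linarith
  have hu0 : 0 < u := by linarith
  have hΛ0 : 0 < Λ := lt_of_lt_of_le hL hLΛ
  have hZδ : 0 < Z ^ δ := Real.rpow_pos_of_pos hZ0 δ
  have h1 : u ^ 4 * L / (Z ^ δ * u ^ 4 * Λ) ≤ Z ^ (-δ) := by
    rw [Real.rpow_neg hZ0.le, div_le_iff₀ (by positivity)]
    calc u ^ 4 * L ≤ u ^ 4 * Λ := by gcongr
      _ = (Z ^ δ)⁻¹ * (Z ^ δ * u ^ 4 * Λ) := by field_simp
  have h2 : (u ^ 4 * L / (Z ^ δ * u ^ 4 * Λ)) ^ ((m + 1) / 2 : ℝ) ≤ Z ^ (-9 : ℝ) := by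
    refine le_trans (Real.rpow_le_rpow (by positivity) h1 (by positivity)) ?_
    rw [← Real.rpow_mul hZ0.le]
    exact Real.rpow_le_rpow_of_exponent_le hZ (by nlinarith)
  have h3 : max 1 (Z ^ δ * u ^ 4 * Λ) ≤ Z ^ 5 * u ^ 4 := by
    refine max_le (one_le_mul_of_one_le_of_one_le (one_le_pow₀ hZ) (one_le_pow₀ hu)) ?_
    have : Z ^ δ ≤ Z := by
      simpa using Real.rpow_le_rpow_of_exponent_le hZ hδ1
    calc Z ^ δ * u ^ 4 * Λ ≤ Z * u ^ 4 * Z ^ 4 := by gcongr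
      _ = Z ^ 5 * u ^ 4 := by ring
  have h4 : max 1 (Z ^ δ * u ^ 4 * Λ) ^ (4 / 3 : ℝ) ≤ Z ^ (7 : ℝ) * u ^ (11 / 2 : ℝ) := by
    refine le_trans (Real.rpow_le_rpow (by positivity) h3 (by positivity)) ?_
    rw [Real.mul_rpow (by positivity) (by positivity), ← Real.rpow_natCast, ← Real.rpow_natCast,
      ← Real.rpow_mul hZ0.le, ← Real.rpow_mul hu0.le]
    exact mul_le_mul (Real.rpow_le_rpow_of_exponent_le hZ (by norm_num))
      (Real.rpow_le_rpow_of_exponent_le hu (by norm_num)) (by positivity) (by positivity)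
  calc _ ≤ (Z ^ (-9 : ℝ) * (Z ^ (7 : ℝ) * u ^ (11 / 2 : ℝ))) ^ 2 := by gcongr
    _ = u ^ 11 * (Z ^ 4)⁻¹ := by
      rw [← mul_assoc, ← Real.rpow_add hZ0, mul_pow, ← Real.rpow_natCast, ← Real.rpow_natCast,
        ← Real.rpow_mul hZ0.le, ← Real.rpow_mul hu0.le, mul_comm, ← Real.rpow_natCast,
        ← Real.rpow_natCast, ← Real.rpow_neg hZ0.le]
      norm_num

/-- `du_tail` with `δ (m + 1) ≥ 18`; `L₀ nm k² nm r ≤ L₀ K² P ≤ Z⁴`, `max 1 L' ≤ Z⁵ (1 + |t|)⁴`,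
`‖β r‖ ≤ 1`, at most `11 Z` marks and `11 Z` rows -/
theorem dt_tail {τ : O → ℂ} (hτ : Gr τ) {a δ : ℝ} (ha : 0 < a) (hδ : 0 < δ) (hδ1 : δ ≤ 1) :
    ∃ C : ℝ, 0 ≤ C ∧ ∀ (φ β : O → ℂ) (Z K P L₀ t : ℝ) (Rs A : Finset O), 1 ≤ K → K ≤ Z →
      1 ≤ P → P ≤ Z → 0 < L₀ → L₀ ≤ Z → (∀ l, ‖φ l‖ ≤ 1) → Mk 1 P Rs →
      (∀ r ∈ Rs, ‖β r‖ ^ 2 ≤ (nm r)⁻¹) → (∀ k ∈ A, Sq K k) →
      ∑ k ∈ A, ‖DT τ φ a t L₀ Rs β k -
          DM τ φ a t L₀ (Z ^ δ * (1 + |t|) ^ 4 * (L₀ * K ^ 2 * P)) Rs β k‖ ^ 2 ≤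
        C * (1 + |t|) ^ 11 * Z⁻¹ := by
  obtain ⟨m, hm⟩ := exists_nat_ge (18 / δ)
  have hm18 : 18 ≤ δ * m := by
    rw [div_le_iff₀ hδ] at hm
    linarith
  have hm2 : 2 ≤ m := by
    have : (2 : ℝ) ≤ m := by nlinarith [Nat.cast_nonneg (α := ℝ) m]
    exact_mod_cast this
  obtain ⟨C, hC0, hC⟩ := du_tail hτ ha hm2
  refine ⟨1331 * C ^ 2, by positivity, ?_⟩
  intro φ β Z K P L₀ t Rs A hK hKZ hP hPZ hL₀ hLZ hφ hRs hβ hA
  have hZ : 1 ≤ Z := hK.trans hKZ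
  have hZ0 : 0 < Z := by linarith
  have hu : 1 ≤ 1 + |t| := by linarith [abs_nonneg t]
  have hcR : (Rs.card : ℝ) ≤ 11 * Z := card_le_of_nm_le hZ0.le fun r hr =>
    ⟨(hRs r hr).1.ne_zero, (hRs r hr).2.2.2.trans hPZ⟩
  have hcA : (A.card : ℝ) ≤ 11 * Z := card_le_of_nm_le hZ0.le fun k hk =>
    ⟨(hA k hk).1.ne_zero, (hA k hk).2.2.2.trans hKZ⟩
  have hΛ : L₀ * K ^ 2 * P ≤ Z ^ 4 := by
    calc L₀ * K ^ 2 * P ≤ Z * Z ^ 2 * Z := by gcongr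
      _ = Z ^ 4 := by ring
  have hL' : 0 < Z ^ δ * (1 + |t|) ^ 4 * (L₀ * K ^ 2 * P) := by
    have := Real.rpow_pos_of_pos hZ0 δ
    positivity
  have key : ∀ k ∈ A, ‖DT τ φ a t L₀ Rs β k -
      DM τ φ a t L₀ (Z ^ δ * (1 + |t|) ^ 4 * (L₀ * K ^ 2 * P)) Rs β k‖ ^ 2 ≤
        (11 * Z) * ((11 * Z) * (C ^ 2 * ((1 + |t|) ^ 11 * (Z ^ 4)⁻¹))) := by
    intro k hk
    unfold DT DM
    rw [← Finset.sum_sub_distrib]
    refine le_trans (sq_sum_le_card _ _) ?_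
    refine mul_le_mul hcR ?_ (Finset.sum_nonneg fun _ _ => by positivity) (by positivity)
    refine le_trans (Finset.sum_le_card_nsmul _ _ (C ^ 2 * ((1 + |t|) ^ 11 * (Z ^ 4)⁻¹))
      fun r hr => ?_) ?_
    · split_ifs with hc
      · have hk0 := nm_pos (hA k hk).1.ne_zero
        have hr1 := one_le_nm (hRs r hr).1.ne_zero
        have hL : 0 < L₀ * nm k ^ 2 * nm r := by positivity
        have hLΛ : L₀ * nm k ^ 2 * nm r ≤ L₀ * K ^ 2 * P := by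
          have := (hA k hk).2.2.2
          have := (hRs r hr).2.2.2
          gcongr
        have hG : ∀ l, ‖φ l * sx l k ^ 3 * cb l r‖ ≤ 1 := by
          intro l
          rw [norm_mul, norm_mul, norm_pow]
          exact mul_le_one₀ (mul_le_one₀ (hφ l) (by positivity)
            (pow_le_one₀ (norm_nonneg _) (norm_sx_le _ _))) (norm_nonneg _) (norm_cb_le _ _)
        have h1 := hC (fun l => φ l * sx l k ^ 3 * cb l r) t _ _ hG hL hL'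
        have h2 := dualb_num hδ hδ1 hm18 hZ hu hL hLΛ hΛ
        have h3 : ‖β r‖ ^ 2 ≤ 1 := (hβ r hr).trans (inv_le_one_of_one_le₀ hr1)
        rw [← mul_sub, norm_mul, mul_pow]
        refine le_trans (mul_le_mul h3 (pow_le_pow_left₀ (norm_nonneg _) h1 2) (by positivity)
          zero_le_one) ?_
        rw [one_mul, mul_assoc C, mul_pow]
        exact mul_le_mul_of_nonneg_left h2 (by positivity)
      · simp only [sub_self, norm_zero, ne_eq, OfNat.ofNat_ne_zero, not_false_eq_true, zero_pow]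
        positivity
    · rw [nsmul_eq_mul]
      exact mul_le_mul_of_nonneg_right hcR (by positivity)
  refine le_trans (Finset.sum_le_card_nsmul _ _ _ key) ?_
  rw [nsmul_eq_mul]
  refine le_trans (mul_le_mul_of_nonneg_right hcA (by positivity)) (le_of_eq ?_)
  field_simp
  ring

/-- `δ = min ε 1 / 10`; `dm_energy` with `Z' = Z⁵ (1 + |t|)⁴` and exponent `δ`, `En_scale`,
`∑ ‖β r‖² ≤ 44 (1 + log P)` (`sum_inv_nm_le`), `dt_tail` -/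
theorem sd {τ : O → ℂ} (hτ : Gr τ) (h : DE2 τ) : SD τ := by
  intro a ε ha hε
  obtain ⟨δ, hδ, hδ1, hδε⟩ : ∃ δ : ℝ, 0 < δ ∧ δ ≤ 1 ∧ 8 * δ ≤ ε :=
    ⟨min ε 1 / 10, by positivity, by linarith [min_le_right ε 1],
      by linarith [min_le_left ε 1, lt_min hε one_pos]⟩
  obtain ⟨C₁, hC₁, H₁⟩ := dm_energy h ha hδ
  obtain ⟨C₂, hC₂, H₂⟩ := one_add_log_rpow_le 1 hδ
  obtain ⟨C₃, hC₃, H₃⟩ := dt_tail hτ ha hδ hδ1
  refine ⟨2 * C₃ + 2 * (C₁ * (44 * C₂)), by positivity,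
    fun φ β Z K P L₀ t Rs A hK hKZ hP hPZ hL₀ hLZ hφ hRs hβ hA => ?_⟩
  have hZ : 1 ≤ Z := hK.trans hKZ
  have hZ0 : 0 < Z := by linarith
  have hK0 : 0 < K := by linarith
  have hP0 : 0 < P := by linarith
  have h3 := H₃ φ β Z K P L₀ t Rs A hK hKZ hP hPZ hL₀ hLZ hφ hRs hβ hA
  obtain ⟨T, hT⟩ : ∃ T, T = 1 + |t| := ⟨_, rfl⟩
  have hT1 : 1 ≤ T := hT ▸ le_add_of_nonneg_right (abs_nonneg t)
  have hT0 : 0 < T := by linarith
  rw [← hT] at h3 ⊢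
  have hT4 : 1 ≤ T ^ 4 := one_le_pow₀ hT1
  have hZδ : 1 ≤ Z ^ δ := Real.one_le_rpow hZ hδ.le
  have hZδ' : Z ^ δ ≤ Z := by
    simpa using Real.rpow_le_rpow_of_exponent_le hZ hδ1
  have hZ' : Z ≤ Z ^ 5 * T ^ 4 :=
    (le_self_pow₀ hZ (by norm_num)).trans (le_mul_of_one_le_right (by positivity) hT4)
  have hL' : Z ^ δ * T ^ 4 * (L₀ * K ^ 2 * P) ≤ Z ^ 5 * T ^ 4 := by
    calc _ ≤ Z * T ^ 4 * (Z * Z ^ 2 * Z) := by gcongr
      _ = _ := by ring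
  have h1 := H₁ φ β (Z ^ 5 * T ^ 4) K P L₀ _ t Rs A hK (hKZ.trans hZ') hP (hPZ.trans hZ') hL₀
    (by positivity) hL' hφ hRs hA
  have hL0 : 0 ≤ L₀ * K ^ 2 * P := by positivity
  have hE := En_scale hK0.le hP0.le hL0 (one_le_mul_of_one_le_of_one_le hZδ hT4)
  have hE0 := En_nonneg hK0.le hP0.le hL0
  have hβ' : ∑ r ∈ Rs, ‖β r‖ ^ 2 ≤ 44 * C₂ * Z ^ δ := by
    refine (Finset.sum_le_sum hβ).trans ((sum_inv_nm_le hP fun r hr => (hRs r hr).2.2.2).trans ?_)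
    have i1 := H₂ P hP
    rw [Real.rpow_one] at i1
    have i2 : P ^ δ ≤ Z ^ δ := Real.rpow_le_rpow hP0.le hPZ hδ.le
    rw [mul_assoc]
    gcongr
    exact i1.trans (by gcongr)
  have hW : (Z ^ 5 * T ^ 4) ^ δ ≤ (Z ^ δ) ^ 5 * T ^ 4 := by
    rw [Real.mul_rpow (by positivity) (by positivity), ← Real.rpow_natCast (Z ^ δ),
      ← Real.rpow_natCast Z, ← Real.rpow_mul hZ0.le, ← Real.rpow_mul hZ0.le, mul_comm δ]
    gcongr
    simpa using Real.rpow_le_rpow_of_exponent_le hT4 hδ1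
  have h8 : (Z ^ δ) ^ 8 ≤ Z ^ ε := by
    rw [← Real.rpow_natCast, ← Real.rpow_mul hZ0.le]
    refine Real.rpow_le_rpow_of_exponent_le hZ ?_
    push_cast
    linarith
  have hZε : 1 ≤ Z ^ ε := Real.one_le_rpow hZ hε.le
  obtain ⟨E, hEE⟩ : ∃ E, E = En K P (L₀ * K ^ 2 * P) := ⟨_, rfl⟩
  rw [← hEE] at hE hE0 ⊢
  have g1 : ∑ k ∈ A, ‖DM τ φ a t L₀ (Z ^ δ * T ^ 4 * (L₀ * K ^ 2 * P)) Rs β k‖ ^ 2 ≤
      C₁ * (44 * C₂) * Z ^ ε * T ^ 12 * (E + Z⁻¹) := by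
    calc _ ≤ _ := h1
      _ ≤ C₁ * ((Z ^ δ) ^ 5 * T ^ 4) * ((Z ^ δ * T ^ 4) ^ 2 * E) * (44 * C₂ * Z ^ δ) := by
          have := En_nonneg hK0.le hP0.le
            (by positivity : 0 ≤ Z ^ δ * T ^ 4 * (L₀ * K ^ 2 * P))
          gcongr
      _ = C₁ * (44 * C₂) * (Z ^ δ) ^ 8 * T ^ 12 * E := by ring
      _ ≤ _ := by
          gcongr
          exact le_add_of_nonneg_right (by positivity)
  have g2 : C₃ * T ^ 11 * Z⁻¹ ≤ C₃ * Z ^ ε * T ^ 12 * (E + Z⁻¹) := by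
    calc _ = C₃ * 1 * T ^ 11 * Z⁻¹ := by ring
      _ ≤ _ := by
          gcongr
          · norm_num
          · exact le_add_of_nonneg_left hE0
  calc _ ≤ ∑ k ∈ A, (2 * ‖DT τ φ a t L₀ Rs β k -
          DM τ φ a t L₀ (Z ^ δ * T ^ 4 * (L₀ * K ^ 2 * P)) Rs β k‖ ^ 2 +
        2 * ‖DM τ φ a t L₀ (Z ^ δ * T ^ 4 * (L₀ * K ^ 2 * P)) Rs β k‖ ^ 2) := by
        refine Finset.sum_le_sum fun k _ => ?_
        have key : ∀ x y : ℂ, ‖x‖ ^ 2 ≤ 2 * ‖x - y‖ ^ 2 + 2 * ‖y‖ ^ 2 := by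
          intro x y
          have i1 : ‖x‖ ≤ ‖x - y‖ + ‖y‖ := by simpa using norm_add_le (x - y) y
          have i2 := pow_le_pow_left₀ (norm_nonneg _) i1 2
          nlinarith [sq_nonneg (‖x - y‖ - ‖y‖)]
        exact key _ _
    _ ≤ 2 * (C₃ * Z ^ ε * T ^ 12 * (E + Z⁻¹)) +
        2 * (C₁ * (44 * C₂) * Z ^ ε * T ^ 12 * (E + Z⁻¹)) := by
        rw [Finset.sum_add_distrib, ← Finset.mul_sum, ← Finset.mul_sum]
        gcongr
        exact h3.trans g2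
    _ = _ := by ring

end Crest.Agent.R17.F
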