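import Crest.Agent.R17.F.Lin

/-!
Row 17, block F: additive expansion of the squarefull part of the row.
-/

set_option autoImplicit false

namespace Crest.Agent.R17.F

open scoped Classical ComplexConjugate

theorem fxa_FT_one (k : O) : FT 1 (fun _ => 1) k = 1 := by
  simpa [gs] using gs_unit 0 k isUnit_one

theorem fxa_tw_one : IsTw 1 fun _ => 1 :=
  ⟨rfl, fun _ _ => (one_mul 1).symm, fun _ _ _ => rfl, fun _ h => absurd isCoprime_one_right h⟩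

theorem fxa_Fp_one (n : O) : Fp 1 (fun _ => 1) n = 1 := by
  simp only [Fp, map_one, fxa_FT_one]

theorem fxa_Fd_one (n : O) : Fd 1 (fun _ => 1) n = 1 := by
  simp only [Fd, cb_one_right, one_pow, mul_one, fxa_FT_one]

theorem exp_one : Exp 1 1 := by
  refine ⟨Unit, Finset.univ, fun _ => 1, fun _ _ => 1, fun _ => 1, by simp [pra_pfs_one],
    fun _ _ => ⟨prim_one, by simp, fxa_tw_one, fun l => by simp [fxa_Fd_one]⟩, fun n => ?_⟩
  simp [fxa_Fp_one]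

/-- `6 ∤ v`: one term, `e = p`, `χ y = sx y p ^ (5 v)`, `w = (conj (sx (-1) p) ^ v * gs v 1 p)⁻¹`,
`Fd = gs (5 v + 4) · p` (`gs_sqfree`, `norm_gs`; `norm_gs_le` if `v ≡ 4 mod 6`) -/
theorem exp_pow {p : O} (hp : Prime p) (h1 : Prim p) (h2 : IsCoprime p 2) {v : ℕ} (hv : 2 ≤ v)
    (h6 : ¬ 6 ∣ v) : Exp (p ^ v) (if v % 6 = 4 then p else 1) := by
  have hc := h1.coprime_six h2
  have hN := nm_pos hp.ne_zero
  have hs : 0 < Real.sqrt (nm p) := Real.sqrt_pos.2 hN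
  have hW : ‖conj (sx (-1) p) ^ v * gs v 1 p‖ = Real.sqrt (nm p) := by
    rw [norm_mul, norm_pow, Complex.norm_conj, norm_sx hc isCoprime_one_left.neg_left, one_pow, one_mul,
      norm_gs hp.squarefree hc h6]
  have hW0 : conj (sx (-1) p) ^ v * gs v 1 p ≠ 0 := by
    rw [← norm_ne_zero_iff, hW]
    exact hs.ne'
  refine ⟨Unit, Finset.univ, fun _ => p, fun _ y => sx y p ^ (5 * v),
    fun _ => (conj (sx (-1) p) ^ v * gs v 1 p)⁻¹, by simpa using one_le_pow₀ (one_le_two (α := ℝ)),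
    fun _ _ => ⟨h1, pow_dvd_pow p hv, isTw_sx_pow hc (by omega), fun l => ?_⟩, fun n => ?_⟩
  · have h3 : Fd p (fun y => sx y p ^ (5 * v)) l = gs (5 * v + 4) l p := by
      simp only [Fd, gs, ← sx_sq _ h2, ← pow_mul, ← pow_add]
    rw [h3, norm_mul, norm_inv, hW, mul_pow, inv_pow, Real.sq_sqrt hN.le, inv_mul_le_iff₀ hN]
    split_ifs with h4
    · rw [sq]
      exact mul_self_le_mul_self (norm_nonneg _) (norm_gs_le _ _ hp.ne_zero)
    · have h5 : ¬ 6 ∣ 5 * v + 4 := by omega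
      rw [gs_sqfree hp.squarefree h5, norm_mul, norm_gs hp.squarefree hc h5, mul_pow, Real.sq_sqrt hN.le,
        nm_one, mul_one, norm_pow, Complex.norm_conj]
      exact mul_le_of_le_one_left hN.le
        (pow_le_one₀ (by positivity) (pow_le_one₀ (norm_nonneg _) (norm_sx_le _ _)))
  · have h3 : Fp p (fun y => sx y p ^ (5 * v)) n = gs v (-n) p := by
      rw [← gs_congr_mod (j := 5 * (5 * v)) (by omega) (by omega) (by omega)]
      simp only [Fp, gs, map_pow, conj_sx, ← pow_mul]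
    rw [Finset.univ_unique, Finset.sum_singleton, h3, gs_sqfree hp.squarefree h6 (-n), ← neg_one_mul n,
      sx_mul_left, map_mul, mul_pow, mul_right_comm, inv_mul_cancel_left₀ hW0, sx_pow_right, map_pow]

/-- `6 ∣ v`: `1_{p ∤ n} = (1 - 1 / N p) - c_p(n) / N p`; terms `e = 1`, `χ = 1` and `e = p`,
`χ = one p` (`FT_one_eq`, `gs_prime_six`, `gc_sqfree`, `norm_gc`) -/
theorem exp_pow_six {p : O} (hp : Prime p) (h1 : Prim p) (h2 : IsCoprime p 2) {v : ℕ} (hv : 2 ≤ v)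
    (h6 : 6 ∣ v) : Exp (p ^ v) 1 := by
  have hc := h1.coprime_six h2
  have hN := nm_pos hp.ne_zero
  have hN1 := one_le_nm hp.ne_zero
  have hN0 : (nm p : ℂ) ≠ 0 := Complex.ofReal_ne_zero.2 hN.ne'
  refine ⟨Bool, Finset.univ, fun b => bif b then p else 1, fun b => bif b then one p else fun _ => 1,
    fun b => bif b then -(nm p : ℂ)⁻¹ else 1 - (nm p : ℂ)⁻¹, ?_, ?_, fun n => ?_⟩
  · have h3 : 1 ≤ (pfs (p ^ v)).card := Finset.card_pos.2
      ⟨p, (mem_pfs (pow_ne_zero _ hp.ne_zero)).2 ⟨hp, h1, dvd_pow_self p (by omega)⟩⟩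
    simpa using pow_le_pow_right₀ (one_le_two (α := ℝ)) h3
  · rintro (_ | _) -
    · refine ⟨prim_one, by simp, fxa_tw_one, fun l => ?_⟩
      have h3 : (1 - (nm p : ℂ)⁻¹) = ((1 - (nm p)⁻¹ : ℝ) : ℂ) := by push_cast; rfl
      have h4 : (nm p)⁻¹ ≤ 1 := inv_le_one_of_one_le₀ hN1
      have h5 : 0 ≤ (nm p)⁻¹ := by positivity
      simp only [cond_false, fxa_Fd_one, mul_one, nm_one]
      rw [h3, Complex.norm_real, Real.norm_of_nonneg (by linarith)]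
      exact pow_le_one₀ (by linarith) (by linarith)
    · refine ⟨h1, pow_dvd_pow p hv, isTw_one p, fun l => ?_⟩
      have h3 : Fd p (one p) l = gc 2 l p := by
        simp only [Fd, gc, one]
        congr 1
        funext y
        split_ifs with h
        · rw [one_mul]
        · rw [cb_eq_zero_of_not_coprime h]; simp
      have h4 : ¬ 3 ∣ 2 := by norm_num
      simp only [cond_true, nm_one]
      rw [h3, gc_sqfree hp.squarefree h4, norm_mul, norm_mul, norm_gc hp.squarefree h1.coprime_three h4,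
        norm_neg, norm_inv, Complex.norm_real, Real.norm_of_nonneg hN.le, mul_pow, mul_pow,
        Real.sq_sqrt hN.le, norm_pow, Complex.norm_conj, inv_pow, inv_mul_le_iff₀ (by positivity), mul_one]
      exact (mul_le_of_le_one_left hN.le
        (pow_le_one₀ (by positivity) (pow_le_one₀ (norm_nonneg _) (norm_cb_le _ _)))).trans (by nlinarith)
  · have h3 : Fp p (one p) n = gs 6 (-n) p := by
      rw [← FT_one_eq hc, Fp]
      congr 1
      funext y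
      unfold one
      split_ifs <;> simp
    obtain ⟨k, rfl⟩ := h6
    simp only [Fintype.sum_bool, cond_true, cond_false, fxa_Fp_one, h3]
    rw [gs_prime_six hp hc (by norm_num) dvd_rfl, sx_pow_right, pow_mul, sx_pow_six, dvd_neg]
    by_cases h : p ∣ n
    · rw [if_pos h, if_neg fun h' => hp.coprime_iff_not_dvd.1 h'.2.symm h, zero_pow (by omega), map_zero]
      field_simp
      ring
    · rw [if_neg h, if_pos ⟨hc, (hp.coprime_iff_not_dvd.2 h).symm⟩, one_pow, map_one]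
      ring

/-- product index set, `e = e₁ e₂`, `χ = χ₁ χ₂`, `w = w₁ w₂ χ₁(e₂) χ₂(e₁)` (`FT_tw_mul`) -/
theorem exp_mul {f₁ f₂ g₁ g₂ : O} (h₁ : f₁ ≠ 0) (h₂ : f₂ ≠ 0) (h : IsCoprime f₁ f₂)
    (e₁ : Exp f₁ g₁) (e₂ : Exp f₂ g₂) : Exp (f₁ * f₂) (g₁ * g₂) := by
  obtain ⟨ι₁, I₁, e₁, χ₁, w₁, c₁, a₁, b₁⟩ := e₁
  obtain ⟨ι₂, I₂, e₂, χ₂, w₂, c₂, a₂, b₂⟩ := e₂
  have hc : ∀ i ∈ I₁, ∀ j ∈ I₂, IsCoprime (e₁ i) (e₂ j) := fun i hi j hj =>
    (h.of_isCoprime_of_dvd_left ((dvd_pow_self _ two_ne_zero).trans (a₁ i hi).2.1)).of_isCoprime_of_dvd_right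
      ((dvd_pow_self _ two_ne_zero).trans (a₂ j hj).2.1)
  refine ⟨ι₁ × ι₂, I₁ ×ˢ I₂, fun i => e₁ i.1 * e₂ i.2, fun i y => χ₁ i.1 y * χ₂ i.2 y,
    fun i => w₁ i.1 * w₂ i.2 * χ₁ i.1 (e₂ i.2) * χ₂ i.2 (e₁ i.1), ?_, ?_, fun n => ?_⟩
  · rw [Finset.card_product, pfs_mul h₁ h₂, Finset.card_union_of_disjoint (pfs_disjoint h), pow_add,
      Nat.cast_mul]
    exact mul_le_mul c₁ c₂ (Nat.cast_nonneg _) (by positivity)
  · rintro ⟨i, j⟩ hij
    obtain ⟨hi, hj⟩ := Finset.mem_product.1 hij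
    obtain ⟨p₁, d₁, t₁, n₁⟩ := a₁ i hi
    obtain ⟨p₂, d₂, t₂, n₂⟩ := a₂ j hj
    refine ⟨p₁.mul p₂, by rw [mul_pow]; exact mul_dvd_mul d₁ d₂, isTw_mul_coprime t₁ t₂, fun l => ?_⟩
    have s₁ := t₁.mul' (isTw_cb_pow p₁.coprime_three two_ne_zero)
    have s₂ := t₂.mul' (isTw_cb_pow p₂.coprime_three two_ne_zero)
    have h3 : Fd (e₁ i * e₂ j) (fun y => χ₁ i y * χ₂ j y) l =
        χ₁ i (e₂ j) * cb (e₂ j) (e₁ i) ^ 2 * (χ₂ j (e₁ i) * cb (e₁ i) (e₂ j) ^ 2) *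
          (Fd (e₁ i) (χ₁ i) l * Fd (e₂ j) (χ₂ j) l) := by
      rw [Fd, Fd, Fd, ← FT_tw_mul s₁ s₂ p₁.ne_zero p₂.ne_zero (hc i hi j hj)]
      congr 1
      funext y
      rw [cb_mul_right]
      ring
    have h4 : w₁ i * w₂ j * χ₁ i (e₂ j) * χ₂ j (e₁ i) * Fd (e₁ i * e₂ j) (fun y => χ₁ i y * χ₂ j y) l =
        (χ₁ i (e₂ j) * χ₂ j (e₁ i) * (χ₁ i (e₂ j) * cb (e₂ j) (e₁ i) ^ 2 *
          (χ₂ j (e₁ i) * cb (e₁ i) (e₂ j) ^ 2))) *
          (w₁ i * Fd (e₁ i) (χ₁ i) l * (w₂ j * Fd (e₂ j) (χ₂ j) l)) := by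
      rw [h3]; ring
    have h5 : ‖χ₁ i (e₂ j) * χ₂ j (e₁ i) * (χ₁ i (e₂ j) * cb (e₂ j) (e₁ i) ^ 2 *
        (χ₂ j (e₁ i) * cb (e₁ i) (e₂ j) ^ 2))‖ ≤ 1 := by
      rw [norm_mul, norm_mul, norm_mul]
      exact mul_le_one₀ (mul_le_one₀ (t₁.norm_le p₁.ne_zero _) (norm_nonneg _) (t₂.norm_le p₂.ne_zero _))
        (by positivity) (mul_le_one₀ (s₁.norm_le p₁.ne_zero _) (norm_nonneg _) (s₂.norm_le p₂.ne_zero _))
    dsimp only
    rw [h4, norm_mul, mul_pow, nm_mul]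
    refine (mul_le_of_le_one_left (sq_nonneg _) (pow_le_one₀ (norm_nonneg _) h5)).trans ?_
    rw [norm_mul, mul_pow]
    exact mul_le_mul (n₁ l) (n₂ l) (sq_nonneg _) (nm_nonneg _)
  · rw [sx_mul_right, map_mul, b₁, b₂, Finset.sum_mul_sum, Finset.sum_product]
    refine Finset.sum_congr rfl fun i hi => Finset.sum_congr rfl fun j hj => ?_
    obtain ⟨p₁, -, t₁, -⟩ := a₁ i hi
    obtain ⟨p₂, -, t₂, -⟩ := a₂ j hj
    have h3 : Fp (e₁ i * e₂ j) (fun y => χ₁ i y * χ₂ j y) n =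
        conj (χ₁ i (e₂ j)) * conj (χ₂ j (e₁ i)) * (Fp (e₁ i) (χ₁ i) n * Fp (e₂ j) (χ₂ j) n) := by
      rw [Fp, Fp, Fp, ← FT_tw_mul t₁.conj t₂.conj p₁.ne_zero p₂.ne_zero (hc i hi j hj)]
      simp only [map_mul]
    have h4 : χ₁ i (e₂ j) * conj (χ₁ i (e₂ j)) = 1 := by
      rw [t₁.mul_conj p₁.ne_zero, one, if_pos (hc i hi j hj).symm]
    have h5 : χ₂ j (e₁ i) * conj (χ₂ j (e₁ i)) = 1 := by
      rw [t₂.mul_conj p₂.ne_zero, one, if_pos (hc i hi j hj)]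
    dsimp only
    rw [h3]
    calc _ = (χ₁ i (e₂ j) * conj (χ₁ i (e₂ j))) * (χ₂ j (e₁ i) * conj (χ₂ j (e₁ i))) *
          (w₁ i * Fp (e₁ i) (χ₁ i) n * (w₂ j * Fp (e₂ j) (χ₂ j) n)) := by rw [h4, h5, one_mul, one_mul]
      _ = _ := by ring

theorem fxb_sqfull {p f : O} {w : ℕ} (hw : w ≠ 1) (hf : Sqfull f) : Sqfull (p ^ w * f) := by
  intro r hr h
  rcases hr.dvd_or_dvd h with h | h
  · have h0 : w ≠ 0 := by
      rintro rfl
      exact hr.not_dvd_one (by simpa using h)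
    exact ((pow_dvd_pow_of_dvd (hr.dvd_of_dvd_pow h) 2).trans
      (pow_dvd_pow p (by omega))).mul_right _
  · exact (hf r hr h).mul_left _

/-- `Prim.induction_coprime`; `p ^ (v - 4)` is squarefull for `v ≡ 4 mod 6` -/
theorem fx {f : O} (hf : Prim f) (h2 : IsCoprime f 2) (hs : Sqfull f) :
    ∃ g f' : O, Sqfull f' ∧ f = g ^ 4 * f' ∧ Exp f g := by
  refine hf.induction_coprime (P := fun n => IsCoprime n 2 → Sqfull n →
    ∃ g f' : O, Sqfull f' ∧ n = g ^ 4 * f' ∧ Exp n g)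
    (fun _ h => ⟨1, 1, h, by simp, exp_one⟩) ?_ h2 hs
  intro p k m hp hp' hm hpm ih h2 hs
  have hc : IsCoprime p m := hp.coprime_iff_not_dvd.2 hpm
  have hp2 : IsCoprime p 2 :=
    h2.of_mul_left_left.of_isCoprime_of_dvd_left (dvd_pow_self p k.succ_ne_zero)
  obtain ⟨g, f', h1, rfl, h3⟩ := ih h2.of_mul_left_right fun r hr h =>
    (hc.symm.of_isCoprime_of_dvd_left h).pow.dvd_of_dvd_mul_left (hs r hr (h.mul_left _))
  have hv : 2 ≤ k + 1 := (pow_dvd_pow_iff hp.ne_zero hp.not_isUnit).1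
    (hc.pow_left.dvd_of_dvd_mul_right
      (hs p hp ((dvd_pow_self p k.succ_ne_zero).mul_right _)))
  have key : Exp (p ^ (k + 1)) (if (k + 1) % 6 = 4 then p else 1) := by
    by_cases h6 : 6 ∣ k + 1
    · rw [if_neg (by omega)]
      exact exp_pow_six hp hp' hp2 hv h6
    · exact exp_pow hp hp' hp2 hv h6
  have h4 := exp_mul (pow_ne_zero _ hp.ne_zero) hm.ne_zero hc.pow_left key h3
  split_ifs at h4 with h5
  · obtain ⟨w, hw⟩ : ∃ w, k + 1 = w + 4 := ⟨k + 1 - 4, by omega⟩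
    exact ⟨_, p ^ w * f', fxb_sqfull (by omega) h1, by rw [hw]; ring, h4⟩
  · exact ⟨_, p ^ (k + 1) * f', fxb_sqfull (by omega) h1, by ring, h4⟩

/-- `nm g * nm f ^ (-1/2) = (nm g)⁻¹ * nm f' ^ (-1/2)`; `f ↦ (g f, f' f)` is injective;
`sum_inv_nm_le`, `sum_sqfull_le` -/
theorem sum_f {ε : ℝ} (hε : 0 < ε) : ∃ C : ℝ, 0 ≤ C ∧ ∀ (K : ℝ) (S : Finset O) (g f' : O → O),
    1 ≤ K → (∀ f ∈ S, f ≠ 0 ∧ nm f ≤ K ∧ Sqfull (f' f) ∧ f = g f ^ 4 * f' f) →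
    ∑ f ∈ S, nm (g f) * nm f ^ (-(1 / 2) : ℝ) ≤ C * K ^ ε := by
  obtain ⟨C, hC, H⟩ := sum_sqfull_le (half_pos hε)
  refine ⟨44 * (1 + 2 / ε) * C, by positivity, fun K S g f' hK hS => ?_⟩
  have hg : ∀ f ∈ S, g f ≠ 0 ∧ f' f ≠ 0 := fun f hf => by
    have h1 := (hS f hf).1
    rw [(hS f hf).2.2.2] at h1
    exact ⟨fun h => left_ne_zero_of_mul h1 (by rw [h]; simp), right_ne_zero_of_mul h1⟩
  have h0 : ∀ n : O, 0 ≤ nm n ^ (-(1 / 2) : ℝ) := fun n => Real.rpow_nonneg (nm_nonneg n) _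
  have h1 : ∑ n ∈ S.image g, (nm n)⁻¹ ≤ 44 * (1 + Real.log K) := by
    refine sum_inv_nm_le hK fun n hn => ?_
    obtain ⟨f, hf, rfl⟩ := Finset.mem_image.1 hn
    refine (nm_le_of_dvd ?_ (hS f hf).1).trans (hS f hf).2.1
    exact ⟨g f ^ 3 * f' f, (hS f hf).2.2.2.trans (by ring)⟩
  have h2 : ∑ n ∈ S.image f', nm n ^ (-(1 / 2) : ℝ) ≤ C * K ^ (ε / 2) := by
    refine H K _ hK fun n hn => ?_
    obtain ⟨f, hf, rfl⟩ := Finset.mem_image.1 hn
    refine ⟨(hg f hf).2, (hS f hf).2.2.1, (nm_le_of_dvd ?_ (hS f hf).1).trans (hS f hf).2.1⟩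
    exact ⟨g f ^ 4, (hS f hf).2.2.2.trans (by ring)⟩
  have h3 : 1 + Real.log K ≤ (1 + 2 / ε) * K ^ (ε / 2) := by
    have h4 := Real.log_le_rpow_div (zero_le_one.trans hK) (half_pos hε)
    have h5 := Real.one_le_rpow hK (half_pos hε).le
    have e : K ^ (ε / 2) / (ε / 2) = 2 / ε * K ^ (ε / 2) := by field_simp
    linarith
  have hinj : Set.InjOn (fun f => (g f, f' f)) S := fun f hf f₂ hf₂ h => by
    rw [(hS f hf).2.2.2, (hS f₂ hf₂).2.2.2, (Prod.mk.inj h).1, (Prod.mk.inj h).2]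
  calc ∑ f ∈ S, nm (g f) * nm f ^ (-(1 / 2) : ℝ)
      = ∑ f ∈ S, (nm (g f))⁻¹ * nm (f' f) ^ (-(1 / 2) : ℝ) := by
        refine Finset.sum_congr rfl fun f hf => ?_
        have hp := nm_pos (hg f hf).1
        have e : nm f = nm (g f) ^ 4 * nm (f' f) := by
          rw [← nm_pow, ← nm_mul, ← (hS f hf).2.2.2]
        rw [e, Real.mul_rpow (by positivity) (nm_nonneg _), ← mul_assoc, ← Real.rpow_natCast,
          ← Real.rpow_mul hp.le, ← Real.rpow_one_add' hp.le (by norm_num), ← Real.rpow_neg_one]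
        norm_num
    _ = ∑ x ∈ S.image fun f => (g f, f' f), (nm x.1)⁻¹ * nm x.2 ^ (-(1 / 2) : ℝ) := by
        rw [Finset.sum_image hinj]
    _ ≤ ∑ x ∈ S.image g ×ˢ S.image f', (nm x.1)⁻¹ * nm x.2 ^ (-(1 / 2) : ℝ) := by
        refine Finset.sum_le_sum_of_subset_of_nonneg (fun x hx => ?_) fun x _ _ =>
          mul_nonneg (inv_nonneg.2 (nm_nonneg _)) (h0 _)
        obtain ⟨f, hf, rfl⟩ := Finset.mem_image.1 hx
        exact Finset.mem_product.2 ⟨Finset.mem_image_of_mem _ hf, Finset.mem_image_of_mem _ hf⟩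
    _ = (∑ n ∈ S.image g, (nm n)⁻¹) * ∑ n ∈ S.image f', nm n ^ (-(1 / 2) : ℝ) := by
        rw [Finset.sum_mul_sum, Finset.sum_product]
    _ ≤ 44 * ((1 + 2 / ε) * K ^ (ε / 2)) * (C * K ^ (ε / 2)) :=
        mul_le_mul (h1.trans (by linarith)) h2 (Finset.sum_nonneg fun n _ => h0 n) (by positivity)
    _ = 44 * (1 + 2 / ε) * C * (K ^ (ε / 2) * K ^ (ε / 2)) := by ring
    _ = _ := by rw [← Real.rpow_add (by linarith), add_halves]

end Crest.Agent.R17.F
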