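import Crest.Agent.R17.F.Lin

/-!
Row 17, block F: the reflected test function `WW`, separation of variables, the additive reflection.
-/

set_option autoImplicit false

namespace Crest.Agent.R17.F

open Complex MeasureTheory
open scoped Classical ComplexConjugate

/-- `LNt_neg` turns the Gaussian into `LNt a (s + (-1 - I t))`; `VI_shift_LNt`, `polyOn_Rth`,
`ExpOn.of_poly`, `expOn_cpow` -/
theorem WW_eq_VI {a y σ : ℝ} (ha : 0 < a) (hy : 0 < y) (hσ : 0 ≤ σ) (t : ℝ) :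
    VInt σ (fun s => LNt a (1 - s + I * t) * Rth s * (y : ℂ) ^ (-s)) ∧
    WW a t y = VI σ fun s => LNt a (1 - s + I * t) * Rth s * (y : ℂ) ^ (-s) := by
  have e : (fun s : ℂ => LNt a (1 - s + I * t) * Rth s * (y : ℂ) ^ (-s)) =
      fun s => LNt a (s + (-1 - I * t)) * (Rth s * (y : ℂ) ^ (-s)) := by
    funext s
    rw [← LNt_neg a (s + (-1 - I * t)), mul_assoc]
    congr 2
    ring
  obtain ⟨C, A, -, -, hC⟩ := polyOn_Rth.2 0 σ (by norm_num)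
  have hd : DifferentiableOn ℂ (fun s => Rth s * (y : ℂ) ^ (-s)) (strip 0 σ) := by
    refine (polyOn_Rth.1.mono fun s hs => ?_).mul ?_
    · have := hs.1
      simp only [Set.mem_ofPred_eq]
      linarith
    · exact (differentiable_id.neg.const_cpow
        (Or.inl (ofReal_ne_zero.2 hy.ne'))).differentiableOn
  have hb : ExpOn 0 σ fun s => Rth s * (y : ℂ) ^ (-s) :=
    (ExpOn.of_poly hC).mul (by simpa using expOn_cpow hy 0 σ (-1) 0)
  obtain ⟨-, h2, h3⟩ := VI_shift_LNt ha (-1 - I * t) hσ hd hb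
  unfold WW
  rw [e]
  exact ⟨h2, h3⟩

theorem kera_Rth (m : ℕ) : ∃ C : ℝ, 0 ≤ C ∧ ∀ s : ℂ, s.re = (m + 1) / 2 →
    ‖Rth s‖ ≤ C * (1 + |s.im|) ^ ((2 * m : ℕ) : ℝ) := by
  have hm : (0 : ℝ) ≤ m := Nat.cast_nonneg m
  have hc : (0 : ℝ) < 27 / (4 * Real.pi ^ 2) := by positivity
  refine ⟨(27 / (4 * Real.pi ^ 2) : ℝ) ^ ((m + 1) / 2 : ℝ) *
    ((27 / (4 * Real.pi ^ 2) : ℝ) ^ (1 - (m + 1) / 2 : ℝ))⁻¹ *
      (((m : ℝ) + 2) ^ m * ((m : ℝ) + 2) ^ m), by positivity, fun s hs => ?_⟩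
  have r1 := rfa_ratio_le (α := 1 / 3) (by norm_num) (by norm_num) m hs
  have r2 := rfa_ratio_le (α := 2 / 3) (by norm_num) (by norm_num) m hs
  have e : Rth s = ((27 / (4 * Real.pi ^ 2) : ℝ) : ℂ) ^ s *
      (((27 / (4 * Real.pi ^ 2) : ℝ) : ℂ) ^ (1 - s))⁻¹ *
      ((Gamma (s + (1 / 3 : ℝ)) * (Gamma (1 - s + (1 / 3 : ℝ)))⁻¹) *
        (Gamma (s + (2 / 3 : ℝ)) * (Gamma (1 - s + (2 / 3 : ℝ)))⁻¹)) := by
    simp only [Rth, gth, mul_inv]
    push_cast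
    ring
  rw [e, norm_mul, norm_mul, norm_mul, norm_inv, norm_cpow_eq_rpow_re_of_pos hc,
    norm_cpow_eq_rpow_re_of_pos hc, sub_re, one_re, hs, Real.rpow_natCast, mul_assoc _ (_ * _)]
  refine mul_le_mul_of_nonneg_left ?_ (by positivity)
  refine (mul_le_mul r1 r2 (norm_nonneg _) (by positivity)).trans (le_of_eq ?_)
  ring

/-- line `Re s = (m + 1) / 2`: copy the bound for `Rth` from the proof of `norm_rk_Rth_decay`
(`rfa_ratio_le`), then `norm_LNt`, `norm_VI_le_gauss` -/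
theorem norm_WW_le {a : ℝ} (ha : 0 < a) (m : ℕ) : ∃ C : ℝ, 0 ≤ C ∧ ∀ t y : ℝ, 0 < y →
    ‖WW a t y‖ ≤ C * (1 + |t|) ^ (2 * m) * y ^ (-((m + 1) / 2 : ℝ)) := by
  obtain ⟨C₁, hC₁, h₁⟩ := norm_VI_le_gauss (c := a ^ 2 / 2) (A := ((2 * m : ℕ) : ℝ))
    (by positivity) (Nat.cast_nonneg _)
  obtain ⟨C₂, hC₂, h₂⟩ := kera_Rth m
  refine ⟨C₁ * (√(2 * Real.pi) * a * Real.exp (a ^ 2 * (1 - (m + 1) / 2) ^ 2 / 2) * C₂),
    by positivity, fun t y hy => ?_⟩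
  rw [(WW_eq_VI (σ := (m + 1) / 2) ha hy (by positivity) t).2]
  refine (h₁ _ t (√(2 * Real.pi) * a * Real.exp (a ^ 2 * (1 - (m + 1) / 2) ^ 2 / 2) * C₂ *
    y ^ (-((m + 1) / 2 : ℝ))) _ fun v => ?_).trans (le_of_eq ?_)
  · have h3 := h₂ ((((m + 1) / 2 : ℝ) : ℂ) + v * I) (by simp)
    have e1 : ((((m + 1) / 2 : ℝ) : ℂ) + v * I).im = v := by simp
    have e2 : (1 - ((((m + 1) / 2 : ℝ) : ℂ) + v * I) + I * t).re = 1 - (m + 1) / 2 := by simp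
    have e3 : (1 - ((((m + 1) / 2 : ℝ) : ℂ) + v * I) + I * t).im ^ 2 = (v - t) ^ 2 := by
      simp only [add_im, sub_im, one_im, e1, mul_im, I_re, I_im, ofReal_re, ofReal_im]
      ring
    have e4 : (-((((m + 1) / 2 : ℝ) : ℂ) + v * I)).re = -((m + 1) / 2) := by simp
    rw [e1] at h3
    rw [norm_mul, norm_mul, norm_LNt ha.le, norm_cpow_eq_rpow_re_of_pos hy, e2, e3, e4]
    refine (mul_le_mul_of_nonneg_right (mul_le_mul_of_nonneg_left h3 (by positivity))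
      (by positivity)).trans (le_of_eq ?_)
    ring
  · rw [Real.rpow_natCast]
    ring

theorem kera_term {τ : O → ℂ} (hτ : Gr τ) {a : ℝ} (ha : 0 < a) (m : ℕ) : ∃ C : ℝ, 0 ≤ C ∧
    ∀ (G : O → ℂ) (B t L : ℝ), (∀ n, ‖G n‖ ≤ B) → 0 < L → ∀ l : O,
      ‖τ l * conj (al l) * G l * WW a t (nm l / L)‖ ≤
        C * B * (1 + |t|) ^ (2 * m) * L ^ ((m + 1) / 2 : ℝ) * nm l ^ (-((m + 1) / 2 - 1 / 3 : ℝ)) := by
  obtain ⟨C₁, hC₁, h₁⟩ := hτ
  obtain ⟨C₂, hC₂, h₂⟩ := norm_WW_le ha m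
  refine ⟨C₁ * C₂, by positivity, fun G B t L hG hL l => ?_⟩
  have hB : 0 ≤ B := (norm_nonneg _).trans (hG 0)
  have hl0 := nm_nonneg l
  by_cases hl : l = 0
  · rw [hl, al_zero, map_zero, mul_zero, zero_mul, zero_mul, norm_zero, ← hl]
    positivity
  have hp := nm_pos hl
  have e1 := h₂ t _ (div_pos hp hL)
  rw [norm_mul, norm_mul, norm_mul, RCLike.norm_conj, norm_al hl, mul_one]
  refine (mul_le_mul (mul_le_mul (h₁ l hl) (hG l) (norm_nonneg _) (by positivity)) e1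
    (norm_nonneg _) (by positivity)).trans (le_of_eq ?_)
  rw [Real.div_rpow hp.le hL.le, Real.rpow_neg hL.le, div_inv_eq_mul, neg_sub, sub_eq_add_neg,
    Real.rpow_add hp]
  ring

/-- `norm_WW_le` with `m = 3`, `summable_nm_rpow` -/
theorem summable_Du {τ G : O → ℂ} (hτ : Gr τ) {B : ℝ} (hG : ∀ n, ‖G n‖ ≤ B) {a L : ℝ} (ha : 0 < a)
    (hL : 0 < L) (t : ℝ) :
    Summable fun l : O => τ l * conj (al l) * G l * WW a t (nm l / L) := by
  obtain ⟨C, -, h⟩ := kera_term hτ ha 3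
  exact Summable.of_norm_bounded ((summable_nm_rpow (by norm_num)).mul_left _) (h G B t L hG hL)

theorem Du_sum {τ : O → ℂ} (hτ : Gr τ) {ι : Type*} (S : Finset ι) {G : ι → O → ℂ}
    (hG : ∀ i ∈ S, ∃ B : ℝ, ∀ n, ‖G i n‖ ≤ B) {a L : ℝ} (ha : 0 < a) (hL : 0 < L) (t : ℝ) :
    Du τ (fun n => ∑ i ∈ S, G i n) a t L = ∑ i ∈ S, Du τ (G i) a t L := by
  unfold Du
  rw [← Summable.tsum_finsetSum fun i hi => by
    obtain ⟨B, hB⟩ := hG i hi
    exact summable_Du hτ hB ha hL t]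
  simp only [Finset.mul_sum, Finset.sum_mul]

/-- Separation of variables on `Re s = 0`: the finite sum is `VI 0 (K · F_k)` (`VI_sum`),
`‖K (iy)‖ ≤ φ y = 7 ‖LNt a (1 - iy + it)‖` (`norm_Rth_zero`, `norm_LNt`), `∫ φ` does not depend on
`t`; `norm_VI_mul_sq_le`, then exchange the finite sum over `k` and the integral. -/
theorem sep {a : ℝ} (ha : 0 < a) : ∃ C : ℝ, 0 ≤ C ∧
    ∀ {κ ι : Type} (A : Finset κ) (J : Finset ι) (x : κ → ι → ℂ) (y : κ → ι → ℝ) (t B : ℝ),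
      (∀ k ∈ A, ∀ j ∈ J, 0 < y k j) →
      (∀ v : ℝ, ∑ k ∈ A, ‖∑ j ∈ J, x k j * (y k j : ℂ) ^ (-(v * I))‖ ^ 2 ≤ B) →
      ∑ k ∈ A, ‖∑ j ∈ J, x k j * WW a t (y k j)‖ ^ 2 ≤ C * B := by
  have hg : Integrable fun v : ℝ => Real.exp (-(a ^ 2 / 2) * v ^ 2) :=
    integrable_exp_neg_mul_sq (by positivity)
  set c₀ : ℝ := √(2 * Real.pi) * a * Real.exp (a ^ 2 / 2) * 7 with hc₀
  refine ⟨(c₀ * ∫ v : ℝ, Real.exp (-(a ^ 2 / 2) * v ^ 2)) ^ 2, sq_nonneg _, ?_⟩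
  intro κ ι A J x y t B hy hB
  set φ : ℝ → ℝ := fun v => c₀ * Real.exp (-(a ^ 2 / 2) * (v - t) ^ 2) with hφ
  have hφ0 : ∀ v, 0 ≤ φ v := fun v => by rw [hφ, hc₀]; positivity
  have hφi : Integrable φ := (hg.comp_sub_right t).const_mul c₀
  have hφI : ∫ v, φ v = c₀ * ∫ v : ℝ, Real.exp (-(a ^ 2 / 2) * v ^ 2) := by
    rw [hφ, integral_const_mul,
      integral_sub_right_eq_self (fun v : ℝ => Real.exp (-(a ^ 2 / 2) * v ^ 2)) t]
  have hI0 : 0 ≤ ∫ v, φ v := integral_nonneg hφ0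
  set K : ℂ → ℂ := fun s => LNt a (1 - s + I * t) * Rth s with hK
  have hKm : AEStronglyMeasurable (fun v : ℝ => K ((0 : ℝ) + v * I)) volume := by
    have := (WW_eq_VI ha one_pos le_rfl t).1
    simp only [VInt, ofReal_one, one_cpow, mul_one] at this
    exact this.aestronglyMeasurable
  have hKφ : ∀ v : ℝ, ‖K ((0 : ℝ) + v * I)‖ ≤ φ v := fun v => by
    have h1 : ‖Rth ((0 : ℝ) + v * I)‖ ≤ 7 := norm_Rth_zero (by simp)
    have h2 : (1 - (((0 : ℝ) : ℂ) + v * I) + I * t).re = 1 := by simp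
    have h3 : (1 - (((0 : ℝ) : ℂ) + v * I) + I * t).im ^ 2 = (v - t) ^ 2 := by simp; ring
    rw [hK, hφ, hc₀]
    simp only
    rw [norm_mul, norm_LNt ha.le, h2, h3, one_pow, mul_one]
    calc _ ≤ √(2 * Real.pi) * a * Real.exp (a ^ 2 / 2) * Real.exp (-(a ^ 2 / 2) * (v - t) ^ 2) *
          7 := by gcongr
      _ = _ := by ring
  set F : κ → ℂ → ℂ := fun k s => ∑ j ∈ J, x k j * (y k j : ℂ) ^ (-s) with hF
  have hB' : ∀ v : ℝ, ∑ k ∈ A, ‖F k ((0 : ℝ) + v * I)‖ ^ 2 ≤ B := fun v => by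
    simpa [hF] using hB v
  have hFc : ∀ k ∈ A, Continuous fun v : ℝ => F k ((0 : ℝ) + v * I) := fun k hk => by
    refine continuous_finsetSum _ fun j hj => continuous_const.mul ?_
    exact Continuous.const_cpow (by fun_prop) (Or.inl (ofReal_ne_zero.2 (hy k hk j hj).ne'))
  have hFi : ∀ k ∈ A, Integrable fun v : ℝ => φ v * ‖F k ((0 : ℝ) + v * I)‖ ^ 2 := fun k hk => by
    refine (hφi.mul_const B).mono' (hφi.aestronglyMeasurable.mul
      ((hFc k hk).norm.pow 2).aestronglyMeasurable) (Filter.Eventually.of_forall fun v => ?_)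
    rw [Real.norm_of_nonneg (mul_nonneg (hφ0 v) (sq_nonneg _))]
    refine mul_le_mul_of_nonneg_left (le_trans ?_ (hB' v)) (hφ0 v)
    exact Finset.single_le_sum (f := fun k => ‖F k ((0 : ℝ) + v * I)‖ ^ 2)
      (fun _ _ => sq_nonneg _) hk
  have hW : ∀ k ∈ A, ∑ j ∈ J, x k j * WW a t (y k j) = VI 0 fun s => K s * F k s := fun k hk => by
    have h1 : (fun s => K s * F k s) =
        fun s => ∑ j ∈ J, x k j * (LNt a (1 - s + I * t) * Rth s * (y k j : ℂ) ^ (-s)) := by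
      funext s
      rw [hK, hF]
      simp only [Finset.mul_sum]
      exact Finset.sum_congr rfl fun j _ => by ring
    rw [h1, VI_sum (σ := 0) J
      (F := fun j s => x k j * (LNt a (1 - s + I * t) * Rth s * (y k j : ℂ) ^ (-s))) fun j hj =>
      Integrable.const_mul (WW_eq_VI ha (hy k hk j hj) le_rfl t).1 (x k j)]
    exact Finset.sum_congr rfl fun j _ => by rw [VI_const_mul]; rfl
  calc _ ≤ ∑ k ∈ A, (∫ v, φ v) * ∫ v : ℝ, φ v * ‖F k ((0 : ℝ) + v * I)‖ ^ 2 := by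
        refine Finset.sum_le_sum fun k hk => ?_
        rw [hW k hk]
        exact norm_VI_mul_sq_le hKm (hFc k hk).aestronglyMeasurable hKφ hφi (hFi k hk)
    _ = (∫ v, φ v) * ∫ v : ℝ, ∑ k ∈ A, φ v * ‖F k ((0 : ℝ) + v * I)‖ ^ 2 := by
        rw [← Finset.mul_sum, integral_finsetSum _ hFi]
    _ ≤ (∫ v, φ v) * ∫ v : ℝ, φ v * B := by
        refine mul_le_mul_of_nonneg_left (integral_mono (integrable_finsetSum _ hFi)
          (hφi.mul_const B) fun v => ?_) hI0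
        simp only
        rw [← Finset.mul_sum]
        exact mul_le_mul_of_nonneg_left (hB' v) (hφ0 v)
    _ = _ := by rw [integral_mul_const, hφI]; ring

theorem kerb_cpow {L m : ℝ} (hL : 0 < L) (hm : 0 < m) (s : ℂ) :
    (L : ℂ) ^ s * (m : ℂ) ^ (-s) = ((m / L : ℝ) : ℂ) ^ (-s) := by
  rw [rfa_cpow hL, rfa_cpow hm, rfa_cpow (div_pos hm hL), ← Complex.exp_add,
    Real.log_div hm.ne' hL.ne']
  congr 1
  push_cast
  ring

/-- `reflect_gth` (any `b < a`, e.g. `a / 2`), `Adm.VI_eq_rk` backwards on the line `3`,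
`Adm.VI_mul_DD` termwise, `WW_eq_VI`; `L ^ s * (nm l) ^ (-s) = (nm l / L) ^ (-s)` for `l ≠ 0`. -/
theorem refl1 {τ : O → ℂ} {e₀ : ℂ} (hτ : Gr τ) (hR : Refl τ e₀) {a' d c : O} (hc : c ≠ 0)
    (h3 : (3 : O) ∣ c) (ha' : Prim a') (hd : 3 * c ∣ a' * d - 1) {a Y : ℝ} (ha : 0 < a)
    (hY : 0 < Y) (t : ℝ) :
    Th τ (fun n => eQ (-(n * a')) (3 * c)) a Y t =
      e₀ * cb c a' * al c ^ 2 * ((Y / nm c : ℝ) : ℂ) *
        Du τ (fun l => eQ (l * d) (3 * c)) a t (nm c ^ 2 / Y) := by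
  obtain ⟨Λ, Λ', hΛ, -, h1, h2, h4⟩ := hR a' d c hc h3 ha' hd
  have adm := (adm_Th (G := fun n => eQ (-(n * a')) (3 * c)) hτ (B := 1) fun n => by simp).1
  have adm' := (adm_Th (G := fun n => eQ (n * d) (3 * c)) hτ (B := 1) fun n => by simp).2
  have hQ := nm_pos hc
  have hL : 0 < nm c ^ 2 / Y := by positivity
  have hb : 0 < a / 2 := by positivity
  have hab : a / 2 < a := by linarith
  have e1 := (reflect_gth adm adm' hb hab hY hQ t hΛ h1 h2 h4).2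
  have e2 := (adm'.VI_eq_rk polyOn_Rth (by norm_num) (by norm_num) hb hab hL t).2
  have hK : VInt 3 fun s => LNt a (1 - s + I * t) * Rth s * ((nm c ^ 2 / Y : ℝ) : ℂ) ^ s := by
    refine (WW_eq_VI ha (div_pos one_pos hL) (by norm_num) t).1.congr fun s _ => ?_
    rw [← kerb_cpow hL one_pos]
    simp
  have e3 := (adm'.VI_mul_DD hK).2.tsum_eq
  rw [Th_eq_SS, e1, ← e2, ← e3]
  congr 1
  unfold Du
  refine tsum_congr fun l => ?_
  by_cases hl : l = 0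
  · simp [hl]
  rw [(WW_eq_VI ha (div_pos (nm_pos hl) hL) (by norm_num : (0 : ℝ) ≤ 3) t).2]
  congr 1
  refine VI_congr fun s _ => ?_
  rw [← kerb_cpow hL (nm_pos hl)]
  ring

/-- the tail of a dual sum: `σ = (m + 1) / 2`, `norm_WW_le`, `sum_nm_rpow_tail` at
`X = max 1 L'` with exponent `σ - 1/3 > 1` -/
theorem du_tail {τ : O → ℂ} (hτ : Gr τ) {a : ℝ} (ha : 0 < a) {m : ℕ} (hm : 2 ≤ m) :
    ∃ C : ℝ, 0 ≤ C ∧ ∀ (G : O → ℂ) (t L L' : ℝ), (∀ l, ‖G l‖ ≤ 1) → 0 < L → 0 < L' →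
      ‖Du τ G a t L - ∑ l ∈ (ball L').erase 0, τ l * conj (al l) * G l * WW a t (nm l / L)‖ ≤
        C * ((1 + |t|) ^ 4 * L / L') ^ ((m + 1) / 2 : ℝ) * max 1 L' ^ (4 / 3 : ℝ) := by
  obtain ⟨C₁, hC₁, h₁⟩ := kera_term hτ ha m
  have hm' : (2 : ℝ) ≤ m := by exact_mod_cast hm
  obtain ⟨C₂, hC₂, h₂⟩ := sum_nm_rpow_tail (σ := (m + 1) / 2 - 1 / 3) (by linarith)
  refine ⟨C₁ * C₂, by positivity, fun G t L L' hG hL hL' => ?_⟩
  have hs := summable_Du hτ hG ha hL t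
  have hb := h₁ G 1 t L hG hL
  have h0 : τ 0 * conj (al 0) * G 0 * WW a t (nm 0 / L) = 0 := by simp
  unfold Du
  set f : O → ℂ := fun l => τ l * conj (al l) * G l * WW a t (nm l / L) with hf
  set K : ℝ := C₁ * 1 * (1 + |t|) ^ (2 * m) * L ^ ((m + 1) / 2 : ℝ) with hK
  have hK0 : 0 ≤ K := by positivity
  have hX : (0 : ℝ) < max 1 L' := lt_max_of_lt_left one_pos
  have h3 : ‖∑' l, f l - ∑ l ∈ (ball L').erase 0, f l‖ ≤
      K * (C₂ * max 1 L' ^ (1 - ((m + 1) / 2 - 1 / 3) : ℝ)) := by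
    rw [← hs.sum_add_tsum_compl (s := (ball L').erase 0), add_sub_cancel_left]
    have hs' := (hs.norm).subtype (((ball L').erase 0 : Finset O) : Set O)ᶜ
    refine (norm_tsum_le_tsum_norm hs').trans (hs'.tsum_le_of_sum_le fun u => ?_)
    have e : ∑ x ∈ u, ‖f x‖ = ∑ l ∈ (u.map (Function.Embedding.subtype _)).erase 0, ‖f l‖ := by
      rw [Finset.sum_erase (f := fun l => ‖f l‖) (a := 0) _ (norm_eq_zero.2 h0), Finset.sum_map]
      rfl
    refine e.trans_le ((Finset.sum_le_sum fun l _ => hb l).trans ?_)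
    rw [← Finset.mul_sum]
    refine mul_le_mul_of_nonneg_left (h₂ _ _ hX fun l hl => ?_) hK0
    obtain ⟨hl0, hl⟩ := Finset.mem_erase.1 hl
    obtain ⟨x, -, rfl⟩ := Finset.mem_map.1 hl
    refine max_le (one_le_nm hl0) ?_
    by_contra hn
    exact x.2 (Finset.mem_coe.2 (Finset.mem_erase.2 ⟨hl0, mem_ball.2 (not_le.1 hn).le⟩))
  refine h3.trans ?_
  have ht : (1 : ℝ) ≤ 1 + |t| := le_add_of_nonneg_right (abs_nonneg t)
  have e1 : (1 + |t|) ^ (2 * m) ≤ ((1 + |t|) ^ 4) ^ ((m + 1) / 2 : ℝ) := by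
    rw [← Real.rpow_natCast, ← Real.rpow_natCast, ← Real.rpow_mul (by linarith)]
    refine Real.rpow_le_rpow_of_exponent_le ht ?_
    push_cast
    linarith
  have e2 : max 1 L' ^ (1 - ((m + 1) / 2 - 1 / 3) : ℝ) ≤
      (L' ^ ((m + 1) / 2 : ℝ))⁻¹ * max 1 L' ^ (4 / 3 : ℝ) := by
    rw [show (1 - ((m + 1) / 2 - 1 / 3) : ℝ) = -((m + 1) / 2) + 4 / 3 by ring, Real.rpow_add hX,
      Real.rpow_neg hX.le]
    gcongr
    exact le_max_right _ _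
  rw [Real.div_rpow (by positivity) hL'.le, Real.mul_rpow (by positivity) hL.le, hK]
  calc C₁ * 1 * (1 + |t|) ^ (2 * m) * L ^ ((m + 1) / 2 : ℝ) *
        (C₂ * max 1 L' ^ (1 - ((m + 1) / 2 - 1 / 3) : ℝ))
      ≤ C₁ * 1 * ((1 + |t|) ^ 4) ^ ((m + 1) / 2 : ℝ) * L ^ ((m + 1) / 2 : ℝ) *
        (C₂ * ((L' ^ ((m + 1) / 2 : ℝ))⁻¹ * max 1 L' ^ (4 / 3 : ℝ))) := by gcongr
    _ = _ := by ring

end Crest.Agent.R17.F
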