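import Crest.Agent.R17.F.Basic

/-!
Row 17, block F: the trivial large sieve for the cubic characters of the marks.
-/

set_option autoImplicit false

namespace Crest.Agent.R17.F

open scoped Classical ComplexConjugate

theorem lsa_prime {p M : O} (hp : Prime p) (hM : M ≠ 0) (h : ¬ p ∣ M) {j : ℕ} (hj : ¬ 3 ∣ j)
    {g : O → ℂ} (hg : Per M g) : rsum (p * M) (fun y => cb y p ^ j * g y) = 0 := by
  rw [rsum_crt_mul hp.ne_zero hM (hp.coprime_iff_not_dvd.2 h) ((per_cb p).comp (· ^ j)) hg,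
    rsum_cb_pow hp hj, zero_mul]

theorem lsa_sqf {p m : O} (hp : Prime p) (hs : Squarefree (p * m)) : ¬ p ∣ m := fun h =>
  hp.not_isUnit (hs p (mul_dvd_mul_left p h))

theorem lsa_exists {r r' : O} (hr : Prim r) (hs : Squarefree r) (hr' : Prim r')
    (hs' : Squarefree r') (hne : r ≠ r') :
    ∃ p : O, Prime p ∧ ((p ∣ r ∧ ¬ p ∣ r') ∨ (p ∣ r' ∧ ¬ p ∣ r)) := by
  obtain ⟨g, a, b, hg, ha, h1, h2, hab⟩ := hr.exists_gcd r'
  by_cases ha1 : a = 1
  · have hb : Prim b := hg.of_mul (h2 ▸ hr')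
    have hb1 : b ≠ 1 := fun h => hne (by rw [h1, h2, ha1, h])
    obtain ⟨p, hp, -, hpb⟩ := hb.exists_prime_dvd hb1
    refine ⟨p, hp, Or.inr ⟨h2 ▸ hpb.mul_left g, fun h => hp.not_isUnit (hs' p ?_)⟩⟩
    rw [h1, ha1, mul_one] at h
    rw [h2]
    exact mul_dvd_mul h hpb
  · obtain ⟨p, hp, -, hpa⟩ := ha.exists_prime_dvd ha1
    refine ⟨p, hp, Or.inl ⟨h1 ▸ hpa.mul_left g, fun h => ?_⟩⟩
    rw [h2] at h
    rcases hp.dvd_or_dvd h with h | h
    · refine hp.not_isUnit (hs p ?_)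
      rw [h1]
      exact mul_dvd_mul h hpa
    · exact hp.not_isUnit (hab.isUnit_of_dvd' hpa h)

/-- some primary prime `p` divides exactly one of `r`, `r'`; `rsum_crt_mul`, `rsum_cb_pow` -/
theorem rsum_cb_conj {r r' : O} (hr : Prim r) (hs : Squarefree r) (hr' : Prim r')
    (hs' : Squarefree r') (hne : r ≠ r') :
    rsum (r * r') (fun y => cb y r * conj (cb y r')) = 0 := by
  obtain ⟨p, hp, ⟨⟨m, rfl⟩, h⟩ | ⟨⟨m, rfl⟩, h⟩⟩ := lsa_exists hr hs hr' hs' hne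
  · have hm : m ≠ 0 := right_ne_zero_of_mul hr.ne_zero
    have H := lsa_prime hp (mul_ne_zero hm hr'.ne_zero)
      (fun h' => (hp.dvd_or_dvd h').elim (lsa_sqf hp hs) h) (j := 1) (by norm_num)
      (((per_cb m).mono (dvd_mul_right m r')).mul
        (((per_cb r').comp conj).mono (dvd_mul_left r' m)))
    rw [mul_assoc, ← H]
    congr 1
    funext y
    rw [cb_mul_right]
    ring
  · have hm : m ≠ 0 := right_ne_zero_of_mul hr'.ne_zero
    have H := lsa_prime hp (mul_ne_zero hr.ne_zero hm)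
      (fun h' => (hp.dvd_or_dvd h').elim h (lsa_sqf hp hs')) (j := 2) (by norm_num)
      (((per_cb r).mono (dvd_mul_right r m)).mul
        (((per_cb m).comp conj).mono (dvd_mul_left m r)))
    rw [mul_left_comm, ← H]
    congr 1
    funext y
    rw [cb_mul_right, map_mul, conj_cb y p]
    ring

/-- `poisson`; the term `h = 0` vanishes, `norm_FT_le`, `sum_gw_tail` with `X = 1` -/
theorem norm_tsum_gw_le {Q : O} (hQ : Q ≠ 0) {Ψ : O → ℂ} (hΨ : Per Q Ψ) (hb : ∀ y, ‖Ψ y‖ ≤ 1)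
    (h0 : rsum Q Ψ = 0) {K : ℝ} (hK : 0 < K) :
    ‖∑' k : O, Ψ k * gw K k‖ ≤ 22 * nm Q * Real.exp (-(K / nm Q)) := by
  have hN := nm_pos hQ
  have hL : 0 < nm Q / K := div_pos hN hK
  have hb' : ∀ s : Finset O, ∑ h ∈ s, ‖FT Q Ψ h * (gw (nm Q / K) h : ℂ)‖ ≤
      nm Q * (22 * (nm Q / K) * Real.exp (-(1 / (nm Q / K)))) := by
    intro s
    rw [← Finset.sum_filter_of_ne (p := fun h => h ≠ 0)]
    · refine le_trans (Finset.sum_le_sum (g := fun h => nm Q * gw (nm Q / K) h) fun h _ => ?_) ?_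
      · rw [norm_mul, Complex.norm_real, Real.norm_of_nonneg (gw_pos _ _).le]
        exact mul_le_mul_of_nonneg_right ((norm_FT_le hQ hb h).trans_eq (mul_one _)) (gw_pos _ _).le
      · rw [← Finset.mul_sum]
        refine mul_le_mul_of_nonneg_left (sum_gw_tail hL fun k hk => ?_) hN.le
        exact ⟨(Finset.mem_filter.1 hk).2, one_le_nm (Finset.mem_filter.1 hk).2⟩
    · rintro x - hx rfl
      rw [FT_zero, h0, zero_mul, norm_zero] at hx
      exact hx rfl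
  have hs := summable_of_sum_le (fun _ => norm_nonneg _) hb'
  rw [poisson hQ hΨ hK, norm_mul, Complex.norm_real, Real.norm_of_nonneg (div_pos hK hN).le]
  refine (mul_le_mul_of_nonneg_left ((norm_tsum_le_tsum_norm hs).trans
    (Real.tsum_le_of_sum_le (fun _ => norm_nonneg _) hb')) (div_pos hK hN).le).trans_eq ?_
  rw [one_div_div]
  field_simp

theorem lsa_cs {P : ℝ} (hP : 0 ≤ P) {Rs : Finset O} (h : Mk 1 P Rs) (β : O → ℂ) :
    (∑ r ∈ Rs, ‖β r‖) ^ 2 ≤ 11 * P * ∑ r ∈ Rs, ‖β r‖ ^ 2 :=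
  sq_sum_le_card_mul_sum_sq.trans (mul_le_mul_of_nonneg_right
    (card_le_of_nm_le hP fun r hr => ⟨(h r hr).1.ne_zero, (h r hr).2.2.2⟩)
    (Finset.sum_nonneg fun _ _ => sq_nonneg _))

theorem lsa_norm (y r r' : O) : ‖cb y r * conj (cb y r')‖ ≤ 1 := by
  rw [norm_mul, Complex.norm_conj]
  exact mul_le_one₀ (norm_cb_le _ _) (norm_nonneg _) (norm_cb_le _ _)

theorem lsa_diag (r r' : O) {K : ℝ} (hK : 0 < K) :
    ‖∑' k : O, (cb k r * conj (cb k r')) * gw K k‖ ≤ 1 + 11 * K := by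
  refine le_trans (tsum_of_norm_bounded (summable_gw hK).hasSum fun k => ?_) (tsum_gw_le hK)
  rw [norm_mul, Complex.norm_real, Real.norm_of_nonneg (gw_pos _ _).le]
  exact mul_le_of_le_one_left (gw_pos _ _).le (lsa_norm _ _ _)

theorem lsa_off {P K : ℝ} (hP : 1 ≤ P) (hK : P ^ 2 * (1 + Real.log P) ≤ K) {Rs : Finset O}
    (h : Mk 1 P Rs) {r r' : O} (hr : r ∈ Rs) (hr' : r' ∈ Rs) (hne : r ≠ r') :
    ‖∑' k : O, (cb k r * conj (cb k r')) * gw K k‖ ≤ 22 * P := by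
  obtain ⟨h1, h2, -, h3⟩ := h r hr
  obtain ⟨h1', h2', -, h3'⟩ := h r' hr'
  have hP0 : 0 < P := zero_lt_one.trans_le hP
  have hl : 0 ≤ Real.log P := Real.log_nonneg hP
  have hK0 : 0 < K := lt_of_lt_of_le (by positivity) hK
  have hQ : r * r' ≠ 0 := mul_ne_zero h1.ne_zero h1'.ne_zero
  have hN := nm_pos hQ
  have hQP : nm (r * r') ≤ P ^ 2 := by
    rw [nm_mul, sq]
    exact mul_le_mul h3 h3' (nm_nonneg _) hP0.le
  refine (norm_tsum_gw_le hQ (((per_cb r).mono (dvd_mul_right r r')).mul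
    (((per_cb r').comp conj).mono (dvd_mul_left r' r))) (fun y => lsa_norm y r r')
    (rsum_cb_conj h1 h2 h1' h2' hne) hK0).trans ?_
  have he : Real.exp (-(K / nm (r * r'))) ≤ P⁻¹ := by
    rw [← Real.exp_log hP0, ← Real.exp_neg, Real.exp_le_exp, neg_le_neg_iff, le_div_iff₀ hN]
    refine le_trans ?_ hK
    rw [mul_comm]
    exact mul_le_mul hQP (by linarith) hl (by positivity)
  calc 22 * nm (r * r') * Real.exp (-(K / nm (r * r'))) ≤ 22 * P ^ 2 * P⁻¹ :=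
        mul_le_mul (by linarith) he (Real.exp_pos _).le (by positivity)
    _ = 22 * P := by field_simp

theorem lsa_gauss {K : ℝ} (hK : 0 < K) (Rs B : Finset O) (β : O → ℂ) :
    ∑ c ∈ B, ‖AA Rs β c‖ ^ 2 * gw K c ≤ ∑ r ∈ Rs, ∑ r' ∈ Rs, ‖β r‖ * ‖β r'‖ *
      ‖∑' k : O, (cb k r * conj (cb k r')) * gw K k‖ := by
  have h1 : HasSum (fun c : O => ∑ r ∈ Rs, ∑ r' ∈ Rs, β r * conj (β r') *
      ((cb c r * conj (cb c r')) * gw K c)) (∑ r ∈ Rs, ∑ r' ∈ Rs, β r * conj (β r') *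
      ∑' k : O, (cb k r * conj (cb k r')) * gw K k) :=
    hasSum_sum fun r _ => hasSum_sum fun r' _ =>
      (poa_summable (fun y => lsa_norm y r r') hK).hasSum.mul_left _
  have h2 : ∀ c : O, (∑ r ∈ Rs, ∑ r' ∈ Rs, β r * conj (β r') *
      ((cb c r * conj (cb c r')) * gw K c)) = ((‖AA Rs β c‖ ^ 2 * gw K c : ℝ) : ℂ) := by
    intro c
    rw [Complex.ofReal_mul, Complex.ofReal_pow, ← Complex.mul_conj', AA, map_sum,
      Finset.sum_mul_sum, Finset.sum_mul]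
    refine Finset.sum_congr rfl fun r _ => ?_
    rw [Finset.sum_mul]
    refine Finset.sum_congr rfl fun r' _ => ?_
    rw [map_mul]
    ring
  simp only [h2] at h1
  have h3 := Complex.hasSum_re h1
  simp only [Complex.ofReal_re] at h3
  refine (sum_le_hasSum B (fun c _ => mul_nonneg (sq_nonneg _) (gw_pos _ _).le) h3).trans
    ((Complex.re_le_norm _).trans ((norm_sum_le _ _).trans (Finset.sum_le_sum fun r _ =>
      (norm_sum_le _ _).trans (Finset.sum_le_sum fun r' _ => ?_))))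
  rw [norm_mul, norm_mul, Complex.norm_conj]

/-- Majorise by the Gaussian `gw K₁`, `K₁ = y + P² (1 + log P)` (`le_gw`), expand the square:
diagonal `≤ (1 + 11 K₁) ∑ ‖β‖²` (`tsum_gw_le`), off-diagonal `≤ 22 P² exp (-K₁ / P²) (∑ ‖β‖)²`
(`x exp (-K/x)` is increasing), `(∑ ‖β‖)² ≤ 11 P ∑ ‖β‖²`. -/
theorem ls3_long : ∃ C : ℝ, 0 ≤ C ∧ ∀ (P y : ℝ) (Rs B : Finset O) (β : O → ℂ), 1 ≤ P → 0 ≤ y →
    Mk 1 P Rs → (∀ c ∈ B, nm c ≤ y) →
    ∑ c ∈ B, ‖AA Rs β c‖ ^ 2 ≤ C * (1 + Real.log P) * (y + P ^ 2) * ∑ r ∈ Rs, ‖β r‖ ^ 2 := by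
  refine ⟨Real.exp 4 * 254, by positivity, fun P y Rs B β hP hy hR hB => ?_⟩
  have hP0 : 0 < P := zero_lt_one.trans_le hP
  have hl : 0 ≤ Real.log P := Real.log_nonneg hP
  obtain ⟨K, hK⟩ : ∃ K : ℝ, K = y + P ^ 2 * (1 + Real.log P) := ⟨_, rfl⟩
  have hK1 : 0 < P ^ 2 * (1 + Real.log P) := by positivity
  have hK0 : 0 < K := by linarith
  have hS : 0 ≤ ∑ r ∈ Rs, ‖β r‖ ^ 2 := Finset.sum_nonneg fun _ _ => sq_nonneg _
  have h1 : ∑ c ∈ B, ‖AA Rs β c‖ ^ 2 ≤ Real.exp 4 * ∑ c ∈ B, ‖AA Rs β c‖ ^ 2 * gw K c := by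
    rw [Finset.mul_sum]
    refine Finset.sum_le_sum fun c hc => ?_
    have h := le_gw hK0 (k := c) (by linarith [hB c hc])
    have h' : 1 ≤ Real.exp 4 * gw K c := by
      refine le_trans ?_ (mul_le_mul_of_nonneg_left h (Real.exp_pos 4).le)
      rw [← Real.exp_add, add_neg_cancel, Real.exp_zero]
    rw [mul_left_comm]
    exact le_mul_of_one_le_right (sq_nonneg _) h'
  have h2 : ∑ r ∈ Rs, ∑ r' ∈ Rs, ‖β r‖ * ‖β r'‖ *
      ‖∑' k : O, (cb k r * conj (cb k r')) * gw K k‖ ≤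
      (1 + 11 * K) * ∑ r ∈ Rs, ‖β r‖ ^ 2 + 22 * P * (∑ r ∈ Rs, ‖β r‖) ^ 2 := by
    rw [sq (∑ r ∈ Rs, ‖β r‖), Finset.sum_mul_sum, Finset.mul_sum, Finset.mul_sum,
      ← Finset.sum_add_distrib]
    refine Finset.sum_le_sum fun r hr => ?_
    have e : (1 + 11 * K) * ‖β r‖ ^ 2 =
        ∑ r' ∈ Rs, if r = r' then (1 + 11 * K) * ‖β r‖ ^ 2 else 0 := by
      rw [Finset.sum_ite_eq, if_pos hr]
    rw [e, Finset.mul_sum, ← Finset.sum_add_distrib]
    refine Finset.sum_le_sum fun r' hr' => ?_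
    have hn : 0 ≤ ‖β r‖ * ‖β r'‖ := mul_nonneg (norm_nonneg _) (norm_nonneg _)
    split_ifs with h
    · subst h
      have := mul_le_mul_of_nonneg_left (lsa_diag r r hK0) hn
      have h' : 0 ≤ 22 * P * (‖β r‖ * ‖β r‖) := mul_nonneg (by linarith) hn
      refine this.trans ?_
      rw [sq, mul_comm]
      linarith
    · rw [zero_add, mul_comm]
      exact mul_le_mul_of_nonneg_right (lsa_off hP (by linarith) hR hr hr' h) hn
  have h3 := mul_le_mul_of_nonneg_left (lsa_cs hP0.le hR β) (show 0 ≤ 22 * P by linarith)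
  have h4 : 1 + 11 * K + 242 * P ^ 2 ≤ 254 * ((1 + Real.log P) * (y + P ^ 2)) := by
    have a1 : 1 ≤ P ^ 2 := one_le_pow₀ hP
    have a2 : 0 ≤ Real.log P * y := mul_nonneg hl hy
    have a3 : 0 ≤ Real.log P * P ^ 2 := mul_nonneg hl (sq_nonneg _)
    rw [hK]
    linarith
  have h5 := mul_le_mul_of_nonneg_right h4 hS
  refine h1.trans ((mul_le_mul_of_nonneg_left ((lsa_gauss hK0 Rs B β).trans (h2.trans
    (show _ ≤ 254 * ((1 + Real.log P) * (y + P ^ 2)) * ∑ r ∈ Rs, ‖β r‖ ^ 2 by linarith)))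
    (Real.exp_pos 4).le).trans_eq (by ring))

/-- combine with the trivial bound `11 y · 11 P · ∑ ‖β‖²` -/
theorem ls3 : ∃ C : ℝ, 0 ≤ C ∧ ∀ (P y : ℝ) (Rs B : Finset O) (β : O → ℂ), 1 ≤ P → 0 ≤ y →
    Mk 1 P Rs → (∀ c ∈ B, c ≠ 0 ∧ nm c ≤ y) →
    ∑ c ∈ B, ‖AA Rs β c‖ ^ 2 ≤
      C * (1 + Real.log P) * (y + min (P * y) (P ^ 2)) * ∑ r ∈ Rs, ‖β r‖ ^ 2 := by
  obtain ⟨C, hC, H⟩ := ls3_long
  refine ⟨C + 121, by positivity, fun P y Rs B β hP hy hR hB => ?_⟩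
  have hP0 : 0 < P := zero_lt_one.trans_le hP
  have hl : 0 ≤ Real.log P := Real.log_nonneg hP
  have hS : 0 ≤ ∑ r ∈ Rs, ‖β r‖ ^ 2 := Finset.sum_nonneg fun _ _ => sq_nonneg _
  rcases min_choice (P * y) (P ^ 2) with h | h
  · rw [h]
    have h1 : ∀ c ∈ B, ‖AA Rs β c‖ ^ 2 ≤ 11 * P * ∑ r ∈ Rs, ‖β r‖ ^ 2 := by
      intro c _
      refine le_trans (pow_le_pow_left₀ (norm_nonneg _) ?_ 2) (lsa_cs hP0.le hR β)
      refine (norm_sum_le _ _).trans (Finset.sum_le_sum fun r _ => ?_)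
      rw [norm_mul]
      exact mul_le_of_le_one_right (norm_nonneg _) (norm_cb_le _ _)
    refine (Finset.sum_le_card_nsmul _ _ _ h1).trans ?_
    rw [nsmul_eq_mul, ← mul_assoc]
    refine mul_le_mul_of_nonneg_right ?_ hS
    have h2 := mul_le_mul_of_nonneg_right (card_le_of_nm_le hy hB) (show 0 ≤ 11 * P by linarith)
    have h3 : 0 ≤ P * y := mul_nonneg hP0.le hy
    have h4 : 121 * 1 * (P * y) ≤ (C + 121) * (1 + Real.log P) * (y + P * y) :=
      mul_le_mul (mul_le_mul (by linarith) (by linarith) zero_le_one (by linarith)) (by linarith)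
        h3 (by positivity)
    linarith
  · rw [h]
    refine (H P y Rs B β hP hy hR fun c hc => (hB c hc).2).trans ?_
    gcongr
    linarith

end Crest.Agent.R17.F
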