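import Crest.Agent.R17.F.Lin

/-!
Row 17, block F: the `λ`-class trick: only cusps `α / (3 c₀)` with `3 ∣ c₀` occur.
-/

set_option autoImplicit false

namespace Crest.Agent.R17.F

open scoped Classical ComplexConjugate

/-- Reduce the fraction: `Q = g Q'`, `h = g h'`, `h'`, `Q'` coprime (`extract_gcd` /
`EuclideanDomain`-free: `IsBezout`, `GCDMonoid`).  `Q' = ζ λ^y m` (`exists_decomp`), `m ∣ q₁`; if
`y ≤ 3` then `Q' ∣ λ³ q₁`, contradiction.  So `9 = λ⁴ ∣ Q'`, `h' = ζ' α` with `α` primary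
(`exists_unit_prim`), `3 c₀ = ζ'⁻¹ Q'`, `eQ_mul_cancel`. -/
theorem cusp_of {Q q₁ h : O} (hQ : Q ≠ 0) (hq₁ : ∀ m, Prim m → m ∣ Q → m ∣ q₁)
    (hh : ¬ Q ∣ h * (lam ^ 3 * q₁)) :
    ∃ c₀ α : O, Cusp Q c₀ α ∧ ∀ n, eQ (-(h * n)) Q = eQ (-(n * α)) (3 * c₀) := by
  obtain ⟨x, y, hxy⟩ := IsBezout.gcd_eq_sum Q h
  obtain ⟨Q', hQ'⟩ := IsBezout.gcd_dvd_left Q h
  obtain ⟨h', hh'⟩ := IsBezout.gcd_dvd_right Q h
  generalize IsBezout.gcd Q h = g at hxy hQ' hh'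
  subst hQ' hh'
  have hg : g ≠ 0 := left_ne_zero_of_mul hQ
  have h1 : x * Q' + y * h' = 1 := mul_left_cancel₀ hg (by linear_combination hxy)
  obtain ⟨ζ, i, m, hζ, hm, rfl⟩ := exists_decomp (right_ne_zero_of_mul hQ)
  have hmq : m ∣ q₁ := hq₁ m hm ((dvd_mul_left _ _).trans (dvd_mul_left _ _))
  have hi : 4 ≤ i := by
    by_contra hi
    refine hh ?_
    rw [mul_assoc g h']
    refine mul_dvd_mul_left g (Dvd.dvd.mul_left ?_ h')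
    rw [mul_assoc]
    exact hζ.mul_left_dvd.2 (mul_dvd_mul (pow_dvd_pow _ (by omega)) hmq)
  obtain ⟨j, rfl⟩ := Nat.exists_eq_add_of_le hi
  have h4 : lam ^ 4 = 9 := by
    rw [show 4 = 2 * 2 from rfl, pow_mul, lam_sq]
    norm_num
  have hl : ¬ lam ∣ h' := by
    intro hl
    refine prime_lam.not_isUnit (isUnit_of_dvd_one ?_)
    rw [← h1]
    refine dvd_add (Dvd.dvd.mul_left (Dvd.dvd.mul_right (Dvd.dvd.mul_left ?_ ζ) m) x)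
      (hl.mul_left y)
    exact dvd_pow_self _ (by omega)
  obtain ⟨u, α, hu, hα, rfl⟩ := exists_unit_prim hl
  obtain ⟨v, hv⟩ := hu.exists_right_inv
  have e : ζ * lam ^ (4 + j) * m = u * (3 * (3 * (v * ζ * lam ^ j * m))) := by
    rw [pow_add, h4]
    linear_combination (-9 * ζ * lam ^ j * m) * hv
  rw [e] at h1 ⊢
  refine ⟨3 * (v * ζ * lam ^ j * m), α, ⟨dvd_mul_right _ _, ?_, hα, y * u, x * u * 3, ?_⟩,
    fun n => ?_⟩
  · exact (dvd_mul_left _ u).trans (dvd_mul_left _ g)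
  · linear_combination h1
  · rw [← eQ_mul_cancel (mul_ne_zero hg hu.ne_zero) (-(n * α))]
    congr 1 <;> ring

/-- `u = 1 + λ³ q₁ = 1 + 3 (a + b ω)`, `a + b ω = -λ q₁ ≡ -λ = -1 - 2 ω mod 3`; `cb_lam`, `cb_om`,
`cb_neg_left`, `isUnit_iff`, `zt = -ω²` -/
theorem exists_u {q₁ : O} (h : Prim q₁) :
    (∀ i : ℕ, ¬ 3 ∣ i → cb lam (1 + lam ^ 3 * q₁) ^ i ≠ 1) ∧
    ∀ ζ : O, IsUnit ζ → cb ζ (1 + lam ^ 3 * q₁) = 1 := by
  obtain ⟨a, b, rfl⟩ := prim_iff_coord.1 h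
  have e : 1 + lam ^ 3 * (1 + 3 * ((a : O) + b * om)) =
      1 + 3 * (((-1 - 3 * a + 6 * b : ℤ) : O) + ((-2 - 6 * a + 3 * b : ℤ) : O) * om) := by
    rw [pow_succ, lam_sq, lam]
    push_cast
    linear_combination (-18 * b : O) * om_sq
  rw [e]
  refine ⟨fun i hi => ?_, fun ζ hζ => ?_⟩
  · rw [cb_lam, cub_zpow (n := ((2 : ℕ) : ℤ)) (by omega), zpow_natCast, ← pow_mul]
    intro h1
    have := (isPrimitiveRoot_sg_om.pow_eq_one_iff_dvd _).1 h1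
    omega
  · obtain ⟨j, -, rfl⟩ := isUnit_iff.1 hζ
    rw [cb_pow_left' _ (cub_prim _ _).coprime_three, cub_zt, cub_zpow (n := 0) (by omega), zpow_zero,
      one_pow]

/-- `FT Q G h = rsum (G (u y) e(h u y / Q)) = x * FT Q G h` (`rsum_mul_arg`, `eQ_congr`) -/
theorem FT_eq_zero_of_mul {Q u h : O} {G : O → ℂ} {x : ℂ} (hQ : Q ≠ 0) (hG : Per Q G)
    (hu : IsCoprime u Q) (hx : x ≠ 1) (hmul : ∀ n, G (u * n) = x * G n) (hh : Q ∣ h * (u - 1)) :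
    FT Q G h = 0 := by
  have h1 := FT_mul_arg hQ hu hG h
  simp only [hmul] at h1
  rw [gsb_FT_const, per_FT Q G (u * h) h (by rwa [show u * h - h = h * (u - 1) by ring])] at h1
  have h2 : (x - 1) * FT Q G h = 0 := by linear_combination h1
  exact (mul_eq_zero.1 h2).resolve_left (sub_ne_zero.2 hx)

theorem lamb_cop {ζ u : O} (hζ : IsUnit ζ) (i : ℕ) (hu : Prim u) : IsCoprime (ζ * lam ^ i) u :=
  (isCoprime_mul_unit_left_left hζ _ _).2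
    (hu.coprime_three.of_isCoprime_of_dvd_right lam_dvd_three).symm.pow_left

/-- the function `G` of a class `ζ λ^i · primary` -/
theorem exists_G {q ζ : O} {ψ : O → ℂ} (hq : Lev q) (hψ : IsTw q ψ) (hζ : IsUnit ζ) (i : ℕ) :
    ∃ G : O → ℂ, Per (q * lam ^ i) G ∧ (∀ n, ‖G n‖ ≤ 1) ∧
      (∀ n, Prim n → G (ζ * lam ^ i * n) = conj (cb (ζ * lam ^ (i + 1)) n) * ψ n) ∧
      (∀ x, G x ≠ 0 → ∃ n, Prim n ∧ x = ζ * lam ^ i * n) ∧
      ∀ u x, Prim u → G (u * x) = conj (cb (ζ * lam ^ (i + 1)) u) * ψ u * G x := by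
  have hc : ζ * lam ^ i ≠ 0 := mul_ne_zero hζ.ne_zero (pow_ne_zero _ lam_ne_zero)
  set φ : O → ℂ := fun n => conj (cb (ζ * lam ^ (i + 1)) n) * ψ n with hφ
  set G : O → ℂ := fun x => if h : ∃ n, Prim n ∧ x = ζ * lam ^ i * n then φ h.choose else 0 with hG
  have k1 : ∀ n, Prim n → G (ζ * lam ^ i * n) = φ n := fun n hn => by
    have h : ∃ m, Prim m ∧ ζ * lam ^ i * n = ζ * lam ^ i * m := ⟨n, hn, rfl⟩
    simp only [hG, dif_pos h]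
    rw [← mul_left_cancel₀ hc h.choose_spec.2]
  have k2 : ∀ x, (¬ ∃ n, Prim n ∧ x = ζ * lam ^ i * n) → G x = 0 := fun x h => dif_neg h
  have k3 : ∀ a b, q * lam ^ i ∣ a - b → (∃ n, Prim n ∧ a = ζ * lam ^ i * n) → G a = G b := by
    rintro _ b ⟨k, hk⟩ ⟨n, hn, rfl⟩
    obtain ⟨w, hw⟩ := hζ.exists_right_inv
    have h1 : q ∣ n - (n - q * (w * k)) := ⟨w * k, by ring⟩
    rw [show b = ζ * lam ^ i * (n - q * (w * k)) by linear_combination -hk + q * lam ^ i * k * hw, k1 n hn,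
      k1 _ (hn.congr (hq.three_dvd.trans h1))]
    simp only [hφ]
    rw [hψ.per _ _ h1, cb_unit_lam_congr hζ _ (((Dvd.intro 8 (by norm_num) : (9 : O) ∣ 72).trans hq.2).trans h1)]
  refine ⟨G, fun a b hab => ?_, fun x => ?_, k1, fun x hx => by_contra fun h => hx (k2 x h), fun u x hu => ?_⟩
  · by_cases ha : ∃ n, Prim n ∧ a = ζ * lam ^ i * n
    · exact k3 a b hab ha
    by_cases hb : ∃ n, Prim n ∧ b = ζ * lam ^ i * n
    · exact (k3 b a (dvd_sub_comm.1 hab) hb).symm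
    rw [k2 a ha, k2 b hb]
  · by_cases hx : ∃ n, Prim n ∧ x = ζ * lam ^ i * n
    · obtain ⟨n, hn, rfl⟩ := hx
      rw [k1 n hn, norm_mul, Complex.norm_conj]
      exact mul_le_one₀ (norm_cb_le _ _) (norm_nonneg _) (hψ.norm_le hq.1 _)
    · rw [k2 x hx, norm_zero]
      exact zero_le_one
  · by_cases hx : ∃ n, Prim n ∧ x = ζ * lam ^ i * n
    · obtain ⟨n, hn, rfl⟩ := hx
      rw [mul_left_comm, k1 _ (hu.mul hn), k1 n hn]
      simp only [hφ, cb_mul_right, hψ.mul, map_mul]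
      ring
    · rw [k2 x hx, mul_zero]
      refine k2 _ fun ⟨n, hn, h⟩ => hx ?_
      obtain ⟨y, rfl⟩ := (lamb_cop hζ i hu).dvd_of_dvd_mul_left ⟨n, h⟩
      rw [mul_left_comm] at h
      exact ⟨y, hu.of_mul (mul_left_cancel₀ hc h ▸ hn), rfl⟩

/-- `q = ζ₀ λ^x q₁` (`exists_decomp`), `u = 1 + λ³ q₁` is primary and prime to `q`.  With
`x₀ = conj (cb λ u) ψ u`: if `x₀ ≠ 1` take `(1, 0)`, otherwise `(ζ₁, i₁)` has multiplier
`conj (cb λ u) ^ i₁ ≠ 1`.  `exists_G`, `Per.mono`, `FT_eq_zero_of_mul`, `cusp_of`. -/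
theorem lam_class {q ζ₁ : O} {ψ : O → ℂ} {i₁ : ℕ} (hq : Lev q) (hψ : IsTw q ψ) (hζ : IsUnit ζ₁)
    (hi : ¬ 3 ∣ i₁) :
    ∃ (ζ : O) (i : ℕ), ((ζ = 1 ∧ i = 0) ∨ (ζ = ζ₁ ∧ i = i₁)) ∧ ∃ G : O → ℂ,
      Good (q * lam ^ i₁) G ∧
      (∀ n, Prim n → G (ζ * lam ^ i * n) = conj (cb (ζ * lam ^ (i + 1)) n) * ψ n) ∧
      ∀ x, G x ≠ 0 → ∃ n, Prim n ∧ x = ζ * lam ^ i * n := by
  obtain ⟨ζ₀, x, q₁, hζ₀, hq₁, hqe⟩ := exists_decomp hq.1
  obtain ⟨hu1, hu2⟩ := exists_u hq₁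
  set u := 1 + lam ^ 3 * q₁ with hu
  have hup : Prim u := ⟨-(lam * q₁), by rw [hu]; linear_combination lam * q₁ * lam_sq⟩
  have hQ : q * lam ^ i₁ = ζ₀ * lam ^ (x + i₁) * q₁ := by rw [hqe]; ring
  have hcop : IsCoprime u (q * lam ^ i₁) := by
    rw [hQ]
    exact (lamb_cop hζ₀ _ hup).symm.mul_right ⟨1, -lam ^ 3, by rw [hu]; ring⟩
  have key : ∀ (ζ : O) (i : ℕ), IsUnit ζ → i ≤ i₁ → conj (cb (ζ * lam ^ (i + 1)) u) * ψ u ≠ 1 →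
      ∃ G : O → ℂ, Good (q * lam ^ i₁) G ∧
        (∀ n, Prim n → G (ζ * lam ^ i * n) = conj (cb (ζ * lam ^ (i + 1)) n) * ψ n) ∧
        ∀ x, G x ≠ 0 → ∃ n, Prim n ∧ x = ζ * lam ^ i * n := fun ζ i hζ hi hx => by
    obtain ⟨G, g1, g2, g3, g4, g5⟩ := exists_G hq hψ hζ i
    have hQ0 : q * lam ^ i₁ ≠ 0 := mul_ne_zero hq.1 (pow_ne_zero _ lam_ne_zero)
    have g1' := g1.mono (mul_dvd_mul_left q (pow_dvd_pow lam hi))
    refine ⟨G, ⟨g1', g2, fun h hh => cusp_of (q₁ := q₁) hQ0 (fun m hm hd => ?_) fun hd => hh ?_⟩, g3, g4⟩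
    · exact (lamb_cop hζ₀ _ hm).symm.dvd_of_dvd_mul_left (hQ ▸ hd)
    · exact FT_eq_zero_of_mul hQ0 g1' hcop hx (fun n => g5 u n hup) (by rwa [hu, add_sub_cancel_left])
  by_cases h0 : conj (cb (1 * lam ^ (0 + 1)) u) * ψ u = 1
  · refine ⟨ζ₁, i₁, Or.inr ⟨rfl, rfl⟩, key ζ₁ i₁ hζ le_rfl fun h => hu1 i₁ hi ?_⟩
    rw [one_mul, zero_add, pow_one] at h0
    rw [cb_mul_left, hu2 ζ₁ hζ, one_mul, pow_succ, cb_mul_left, cb_pow_left' _ hup.coprime_three, map_mul,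
      mul_assoc, h0, mul_one] at h
    simpa using congrArg conj h
  · exact ⟨1, 0, Or.inl ⟨rfl, rfl⟩, key 1 0 isUnit_one (Nat.zero_le _) h0⟩

end Crest.Agent.R17.F
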