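import Crest.Agent.R17.F.Basic

/-!
Row 17, block F: characters and their finite Fourier transforms; linearity of `Th`, `TE`.
-/

set_option autoImplicit false

namespace Crest.Agent.R17.F

open scoped Classical ComplexConjugate

theorem gr_of_coef {τ : O → ℂ} {t : O → ℕ → ℂ} (h : Coef τ t) (hb : TB t) : Gr τ := by
  obtain ⟨C, hC⟩ := hb
  have hC0 : 0 ≤ C := by simpa using (norm_nonneg _).trans (hC 1 0 isUnit_one)
  refine ⟨C, hC0, fun n hn => ?_⟩
  obtain ⟨ζ, i, m, hζ, hm, rfl⟩ := exists_decomp hn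
  have h1 := (norm_tau0_le m).trans (Real.rpow_le_rpow_of_exponent_le (one_le_nm hm.ne_zero)
    (show (1 / 6 : ℝ) ≤ 1 / 3 by norm_num))
  rw [h ζ i m hζ hm, norm_mul, norm_mul, nm_mul, nm_mul, nm_unit hζ, one_mul, nm_pow, nm_lam,
    Real.mul_rpow (by positivity) (nm_nonneg _), ← Real.rpow_natCast, ← Real.rpow_mul (by norm_num),
    mul_one_div, ← mul_assoc]
  exact mul_le_mul ((mul_le_of_le_one_right (norm_nonneg _) (norm_cb_le _ _)).trans (hC ζ i hζ)) h1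
    (norm_nonneg _) (by positivity)

theorem isTw_mul_coprime {e₁ e₂ : O} {χ₁ χ₂ : O → ℂ} (h₁ : IsTw e₁ χ₁) (h₂ : IsTw e₂ χ₂) :
    IsTw (e₁ * e₂) fun y => χ₁ y * χ₂ y := by
  refine ⟨by rw [h₁.one, h₂.one, mul_one], fun a b => ?_, fun a b h => ?_, fun a h => ?_⟩
  · rw [h₁.mul, h₂.mul]
    ring
  · rw [h₁.per a b (dvd_of_mul_right_dvd h), h₂.per a b (dvd_of_mul_left_dvd h)]
  · rw [IsCoprime.mul_right_iff, not_and_or] at h
    rcases h with h | h
    · rw [h₁.zero a h, zero_mul]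
    · rw [h₂.zero a h, mul_zero]

/-- Chinese remainder theorem for characters (`FT_crt`) -/
theorem FT_tw_mul {e₁ e₂ : O} {χ₁ χ₂ : O → ℂ} (h₁ : IsTw e₁ χ₁) (h₂ : IsTw e₂ χ₂) (he₁ : e₁ ≠ 0)
    (he₂ : e₂ ≠ 0) (h : IsCoprime e₁ e₂) (x : O) :
    FT (e₁ * e₂) (fun y => χ₁ y * χ₂ y) x = χ₁ e₂ * χ₂ e₁ * (FT e₁ χ₁ x * FT e₂ χ₂ x) := by
  rw [FT_crt he₁ he₂ h h₁.isPer h₂.isPer]
  simp only [h₁.mul, h₂.mul, gsa_FT_const_mul]
  ring

theorem isTw_sx_pow {k : O} (hk : IsCoprime k 6) {j : ℕ} (hj : j ≠ 0) :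
    IsTw k fun y => sx y k ^ j := by
  exact IsTw.pow ⟨(sx_one_left k).trans (if_pos hk), fun a b => sx_mul_left a b k,
    fun _ _ => sx_congr, fun _ => sx_eq_zero_of_not_coprime⟩ hj

theorem isTw_cb_pow {k : O} (hk : IsCoprime k 3) {j : ℕ} (hj : j ≠ 0) :
    IsTw k fun y => cb y k ^ j := by
  exact IsTw.pow ⟨(cb_one_left k).trans (if_pos hk), fun a b => cb_mul_left a b k,
    fun _ _ => cb_congr, fun _ => cb_eq_zero_of_not_coprime⟩ hj

theorem FT_one_eq {r : O} (hr : IsCoprime r 6) (x : O) : FT r (one r) x = gs 6 x r := by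
  rw [gs]
  congr 1
  funext y
  simp only [sx_pow_six, one, hr, true_and]

theorem dl_mul {u r : O} (hr : IsCoprime r 6) (h : IsCoprime u r) (n : O) :
    dl (u * n) r = dl n r := by
  rcases eq_or_ne r 0 with rfl | h0
  · simp [dl]
  rw [dl, dl, gs_mul_arg 6 h0 h, ← map_pow, sx_pow_six, if_pos ⟨hr, h⟩, map_one, one_mul]

theorem norm_dl_le (n r : O) : ‖dl n r‖ ≤ 1 := by
  rcases eq_or_ne r 0 with rfl | h0
  · simp [dl]
  rw [dl, norm_div, Complex.norm_real, Real.norm_of_nonneg (nm_nonneg r), div_le_one (nm_pos h0)]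
  exact norm_gs_le 6 n h0

theorem Fp_bdd {e : O} (he : e ≠ 0) {χ : O → ℂ} (hχ : IsTw e χ) (n : O) : ‖Fp e χ n‖ ≤ nm e := by
  simpa only [mul_one, Fp] using norm_FT_le he (hχ.conj.norm_le he) (-n)

theorem Fd_bdd {e : O} (he : e ≠ 0) {χ : O → ℂ} (hχ : IsTw e χ) (n : O) : ‖Fd e χ n‖ ≤ nm e := by
  rw [← mul_one (nm e)]
  refine norm_FT_le he (fun y => ?_) n
  rw [norm_mul, norm_pow]
  exact mul_le_one₀ (hχ.norm_le he y) (by positivity) (pow_le_one₀ (norm_nonneg _) (norm_cb_le y e))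

/-- `adm_O` with `φ = id`, `θ = 1/3`; the term `n = 0` vanishes because `al 0 = 0` -/
theorem adm_Th {τ G : O → ℂ} (hτ : Gr τ) {B : ℝ} (hG : ∀ n, ‖G n‖ ≤ B) :
    Adm (fun n : O => τ n * al n * G n) (fun n => nm n) 3 ∧
    Adm (fun n : O => τ n * conj (al n) * G n) (fun n => nm n) 3 := by
  obtain ⟨C, hC, hτ⟩ := hτ
  obtain ⟨C', -, H⟩ := adm_O (θ := 1 / 3) (σ := 3) (by norm_num)
  have hB : 0 ≤ B := (norm_nonneg _).trans (hG 0)
  have key : ∀ u : O → ℂ, u 0 = 0 → (∀ n, ‖u n‖ ≤ 1) →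
      Adm (fun n : O => τ n * u n * G n) (fun n => nm n) 3 := fun u h0 hu =>
    (H (ι := O) id (fun n => τ n * u n * G n) (C * B) Function.injective_id
      (fun n hn => by
        obtain rfl : n = 0 := hn
        simp [h0])
      (fun n hn => by
        have h1 := hτ n hn
        have h2 : 0 ≤ nm n ^ (1 / 3 : ℝ) := Real.rpow_nonneg (nm_nonneg n) _
        rw [norm_mul, norm_mul]
        calc ‖τ n‖ * ‖u n‖ * ‖G n‖ ≤ C * nm n ^ (1 / 3 : ℝ) * 1 * B := by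
              gcongr
              · exact hu n
              · exact hG n
          _ = _ := by simp only [id]; ring)
      (mul_nonneg hC hB)).1
  exact ⟨key al al_zero norm_al_le,
    key (fun n => conj (al n)) (by simp) fun n => by simpa using norm_al_le n⟩

theorem summable_Th {τ G : O → ℂ} (hτ : Gr τ) {B : ℝ} (hG : ∀ n, ‖G n‖ ≤ B) {a Y : ℝ} (ha : 0 < a)
    (hY : 0 < Y) (t : ℝ) : Summable fun n : O => τ n * al n * G n * LN a Y t (nm n) := by
  exact ((adm_Th hτ hG).1.summable_SS ha hY t).of_norm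

theorem Th_const_mul (τ G : O → ℂ) (x : ℂ) (a Y t : ℝ) :
    Th τ (fun n => x * G n) a Y t = x * Th τ G a Y t := by
  unfold Th
  rw [← tsum_mul_left]
  exact tsum_congr fun n => by ring

theorem Du_const_mul (τ G : O → ℂ) (x : ℂ) (a t L : ℝ) :
    Du τ (fun n => x * G n) a t L = x * Du τ G a t L := by
  unfold Du
  rw [← tsum_mul_left]
  exact tsum_congr fun n => by ring

theorem Th_sum {τ : O → ℂ} (hτ : Gr τ) {ι : Type*} (S : Finset ι) {G : ι → O → ℂ}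
    (hG : ∀ i ∈ S, ∃ B : ℝ, ∀ n, ‖G i n‖ ≤ B) {a Y : ℝ} (ha : 0 < a) (hY : 0 < Y) (t : ℝ) :
    Th τ (fun n => ∑ i ∈ S, G i n) a Y t = ∑ i ∈ S, Th τ (G i) a Y t := by
  unfold Th
  rw [← Summable.tsum_finsetSum fun i hi => (hG i hi).elim fun B hB => summable_Th hτ hB ha hY t]
  refine tsum_congr fun n => ?_
  rw [Finset.mul_sum, Finset.sum_mul]

theorem TE_const_mul (τ G : O → ℂ) (x : ℂ) (a Y t : ℝ) (Rs : Finset O) (c : O → ℂ) (k : O) :
    TE τ (fun n => x * G n) a Y t Rs c k = x * TE τ G a Y t Rs c k := by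
  unfold TE
  rw [Finset.mul_sum]
  refine Finset.sum_congr rfl fun r _ => ?_
  split_ifs
  · rw [mul_left_comm x, ← Th_const_mul τ _ x]
    simp only [mul_assoc]
  · simp

theorem TE_sum {τ : O → ℂ} (hτ : Gr τ) {ι : Type*} (S : Finset ι) {G : ι → O → ℂ}
    (hG : ∀ i ∈ S, ∃ B : ℝ, ∀ n, ‖G i n‖ ≤ B) {a Y : ℝ} (ha : 0 < a) (hY : 0 < Y) (t : ℝ)
    {Rs : Finset O} (hRs : ∀ r ∈ Rs, r ≠ 0) (c : O → ℂ) (k : O) :
    TE τ (fun n => ∑ i ∈ S, G i n) a Y t Rs c k = ∑ i ∈ S, TE τ (G i) a Y t Rs c k := by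
  unfold TE
  rw [Finset.sum_comm]
  refine Finset.sum_congr rfl fun r hr => ?_
  split_ifs
  · rw [← Finset.mul_sum, ← Th_sum hτ S _ ha (mul_pos hY (nm_pos (hRs r hr))) t]
    · simp only [Finset.sum_mul]
    · intro i hi
      obtain ⟨B, hB⟩ := hG i hi
      refine ⟨B, fun n => ?_⟩
      have hB0 : 0 ≤ B := (norm_nonneg _).trans (hB n)
      rw [norm_mul, norm_mul, Complex.norm_conj]
      calc ‖G i n‖ * ‖sx n k‖ * ‖dl n r‖ ≤ B * 1 * 1 := by
            gcongr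
            · exact hB n
            · exact norm_sx_le _ _
            · exact norm_dl_le _ _
        _ = B := by ring
  · simp

end Crest.Agent.R17.F
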