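import Crest.Agent.R17.F.Basic

/-!
Row 17, block F: removing the smooth part of the rows and turning the symbol.
-/

set_option autoImplicit false

namespace Crest.Agent.R17.F

open scoped Classical ComplexConjugate

/-- `ψ' n = ψ n * conj (sx s n) * eps k₀ n` (`IsTw.rc_smooth`, `IsTw.conj`, `IsTw.mul_eps`,
`sx_recip`, `conj_eps`) -/
theorem tt_eq_t1 {q s k₀ : O} {m : ℕ} {ψ : O → ℂ} (hq : Lev q) (hψ : IsTw q ψ) (hs : s ∣ q ^ m)
    (hk : Prim k₀) (hkq : IsCoprime k₀ q) : ∃ ψ' : O → ℂ, IsTw q ψ' ∧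
    ∀ (a N t : ℝ) (Rs : Finset O) (c : O → ℂ), TT ψ a N t Rs c (s * k₀) = T1 ψ' a N t Rs c k₀ := by
  have hk2 := hq.coprime_two hkq
  refine ⟨_, (hψ.conj.rc_smooth hq hs).conj.mul_eps hq.four_dvd hk2, fun a N t Rs c => ?_⟩
  unfold TT T1
  refine Finset.sum_congr rfl fun r _ => ?_
  congr 1
  refine tsum_congr fun n => ?_
  split_ifs
  · by_cases hn : IsCoprime (n : O) q
    · have hn2 := hq.coprime_two hn
      rw [sx_mul_left, sx_recip hk (Pr_prim n) hk2 hn2]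
      simp only [rc, map_mul, Complex.conj_conj, conj_eps hk2 hn2]
      ring
    · simp only [rc, hψ.zero _ hn, map_zero, zero_mul, mul_zero]
  · rfl

/-- `exists_smooth_prim`; bound the sum over the rows by the sum over triples `(s, ψ', k₀)`
(`card_smooth_le`, `card_Tw_le`, `mem_Tw`); `bd_final`; enlarge `C` to `max C 12` -/
theorem stF_of_s1 (h : S1) : StF := by
  intro q a ε hq ha hε
  obtain ⟨C, hC, H⟩ := h q a (ε / 2) hq ha (by positivity)
  obtain ⟨C', hC', HS⟩ := card_smooth_le (ε := ε / 2) (by positivity)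
  have hq0 := nm_pos hq.1
  refine ⟨max (C' * nm q ^ (ε / 2) * nm q * C * 2) 12, ?_⟩
  intro ψ Z K N P t Rs A c hψ hK hKZ hP hPZ hN hNZ hRs hc hA
  have hZ : 0 < Z := by linarith
  have hN0 : 0 < N := (inv_pos.2 hZ).trans_le hN
  have h3 : (3 : O) ∣ q := (Dvd.intro 24 (by norm_num)).trans hq.2
  have hex : ∀ k : O, ∃ (s k₀ : O) (ψ' : O → ℂ), k ≠ 0 → (∃ m, s ∣ q ^ m) ∧ Prim k₀ ∧
      IsCoprime k₀ q ∧ k = s * k₀ ∧ IsTw q ψ' ∧ TT ψ a N t Rs c k = T1 ψ' a N t Rs c k₀ := by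
    intro k
    by_cases hk : k = 0
    · exact ⟨0, 0, 0, fun h => absurd hk h⟩
    · obtain ⟨s, k₀, m, h1, h2, h4, h5⟩ := exists_smooth_prim h3 hk
      obtain ⟨ψ', h6, h7⟩ := tt_eq_t1 hq hψ h1 h2 h4
      exact ⟨s, k₀, ψ', fun _ => ⟨⟨m, h1⟩, h2, h4, h5, h6, h5 ▸ h7 a N t Rs c⟩⟩
  choose s k₀ ψ' hx using hex
  have hinj : Set.InjOn (fun k => (s k, ψ' k, k₀ k)) A := by
    intro k hk k' hk' he
    simp only [Prod.mk.injEq] at he
    rw [(hx k (hA k hk).1).2.2.2.1, (hx k' (hA k' hk').1).2.2.2.1, he.1, he.2.2]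
  have hRw : Rw q K (A.image k₀) := by
    intro x hx'
    obtain ⟨k, hk, rfl⟩ := Finset.mem_image.1 hx'
    obtain ⟨-, h2, h4, h5, -⟩ := hx k (hA k hk).1
    exact ⟨h2, h4, (nm_le_of_dvd (Dvd.intro_left _ h5.symm) (hA k hk).1).trans (hA k hk).2⟩
  have hcard : ((A.image s).card : ℝ) ≤ C' * nm q ^ (ε / 2) * Z ^ (ε / 2) := by
    refine (HS q K (A.image s) hq.1 hK fun x hx' => ?_).trans ?_
    · obtain ⟨k, hk, rfl⟩ := Finset.mem_image.1 hx'
      obtain ⟨h1, -, -, h5, -⟩ := hx k (hA k hk).1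
      exact ⟨h1, (nm_le_of_dvd (Dvd.intro _ h5.symm) (hA k hk).1).trans (hA k hk).2⟩
    · rw [mul_assoc, ← Real.mul_rpow hq0.le hZ.le, mul_comm (nm q)]
      gcongr
  set W := N * P * K + K ^ 2 * P ^ 2 + (N * P) ^ (1 / 2 : ℝ) * K * P ^ (5 / 2 : ℝ) +
    (N * P) ^ (4 / 3 : ℝ) * K ^ (1 / 3 : ℝ) * P with hW
  have hW0 : 0 ≤ W := by positivity
  have hbd : bd (N * P) K P 1 ≤ 2 * W := bd_final (by positivity) (by positivity) (by positivity)
  have ht : 1 ≤ 1 + |t| := le_add_of_nonneg_right (abs_nonneg t)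
  set M := C * Z ^ (ε / 2) * (1 + |t|) ^ 12 * (2 * W) with hM
  have hM0 : 0 ≤ M := by positivity
  calc ∑ k ∈ A, ‖TT ψ a N t Rs c k‖ ^ 2
      = ∑ x ∈ A.image (fun k => (s k, ψ' k, k₀ k)), ‖T1 x.2.1 a N t Rs c x.2.2‖ ^ 2 := by
        rw [Finset.sum_image hinj]
        exact Finset.sum_congr rfl fun k hk => by rw [(hx k (hA k hk).1).2.2.2.2.2]
    _ ≤ ∑ x ∈ A.image s ×ˢ Tw q ×ˢ A.image k₀, ‖T1 x.2.1 a N t Rs c x.2.2‖ ^ 2 := by
        refine Finset.sum_le_sum_of_subset_of_nonneg (fun x hx' => ?_) fun _ _ _ => sq_nonneg _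
        obtain ⟨k, hk, rfl⟩ := Finset.mem_image.1 hx'
        simp only [Finset.mem_product]
        exact ⟨Finset.mem_image_of_mem _ hk, (mem_Tw hq.1).2 (hx k (hA k hk).1).2.2.2.2.1,
          Finset.mem_image_of_mem _ hk⟩
    _ = ∑ _x ∈ A.image s, ∑ χ ∈ Tw q, ∑ k ∈ A.image k₀, ‖T1 χ a N t Rs c k‖ ^ 2 := by
        rw [Finset.sum_product]
        exact Finset.sum_congr rfl fun _ _ => Finset.sum_product _ _ _
    _ ≤ ∑ _x ∈ A.image s, ∑ _χ ∈ Tw q, M := by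
        refine Finset.sum_le_sum fun _ _ => Finset.sum_le_sum fun χ hχ => ?_
        refine (H χ Z K N P t Rs _ c ((mem_Tw hq.1).1 hχ) ⟨hK, hKZ, hP, hPZ, hN, hNZ⟩ hRs hc
          hRw).trans ?_
        rw [hM]
        gcongr
    _ = (A.image s).card * ((Tw q).card * M) := by
        simp only [Finset.sum_const, nsmul_eq_mul]
    _ ≤ C' * nm q ^ (ε / 2) * Z ^ (ε / 2) * (nm q * M) := by
        gcongr
        exact card_Tw_le hq.1
    _ = C' * nm q ^ (ε / 2) * nm q * C * 2 * (Z ^ (ε / 2) * Z ^ (ε / 2)) *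
          (1 + |t|) ^ ((12 : ℕ) : ℝ) * W := by
        rw [hM, Real.rpow_natCast]; ring
    _ ≤ _ := by
        rw [← Real.rpow_add hZ, add_halves]
        gcongr
        · exact le_max_left _ _
        · exact_mod_cast le_max_right _ _

end Crest.Agent.R17.F
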