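import Crest.Agent.R17.F.Lin

/-!
Row 17, block F: centring the marks.
-/

set_option autoImplicit false

namespace Crest.Agent.R17.F

open scoped Classical ComplexConjugate

theorem fr2_anti {r : O} (hr : Prim r) (F : O → ℂ) :
    ∑ p ∈ anti r, F p.1 = ∑ d ∈ pdiv r, F d := by
  refine Finset.sum_bij (fun p _ => p.1) (fun p hp => ?_) (fun p hp p' hp' e => ?_)
    (fun d hd => ?_) fun _ _ => rfl
  · obtain ⟨h1, -, h3⟩ := mem_anti.1 hp
    exact (mem_pdiv hr.ne_zero).2 ⟨h1, Dvd.intro _ h3⟩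
  · obtain ⟨h1, -, h3⟩ := mem_anti.1 hp
    obtain ⟨-, -, h3'⟩ := mem_anti.1 hp'
    refine Prod.ext e (mul_left_cancel₀ h1.ne_zero ?_)
    rw [h3, ← h3', e]
  · obtain ⟨h1, h2⟩ := (mem_pdiv hr.ne_zero).1 hd
    obtain ⟨m, hm, e⟩ := h1.exists_mul hr h2
    exact ⟨(d, m), mem_anti.2 ⟨h1, hm, e.symm⟩, rfl⟩

theorem fr2_prime {p : O} (hp : Prime p) (hp' : Prim p) (F : O → ℂ) :
    ∑ d ∈ pdiv p, F d = F 1 + F p := by
  rw [sum_pdiv_sqfree hp.squarefree, pfs_prime hp hp',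
    show ({p} : Finset O).powerset = {∅, {p}} by
      ext S; simp [Finset.subset_singleton_iff],
    Finset.sum_pair (Finset.singleton_ne_empty p).symm]
  simp

theorem fr2_ram {r : O} (hr : Prim r) (hs : Squarefree r) (n : O) : IsCoprime r 2 →
    ∑ d ∈ pdiv r, gs 6 n d = if r ∣ n then (nm r : ℂ) else 0 := by
  refine hr.induction_sqfree (P := fun r => IsCoprime r 2 →
    ∑ d ∈ pdiv r, gs 6 n d = if r ∣ n then (nm r : ℂ) else 0) hs (fun _ => ?_) ?_
  · have : pdiv 1 = {1} := by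
      ext d
      rw [mem_pdiv one_ne_zero, Finset.mem_singleton]
      exact ⟨fun h => h.1.eq_one_of_isUnit (isUnit_of_dvd_one h.2), fun h => by rw [h]; exact ⟨prim_one, dvd_rfl⟩⟩
    rw [this, Finset.sum_singleton, gs_unit _ _ isUnit_one, if_pos (one_dvd n), nm_one]
    simp
  · intro p m hp hp' hm _ hpm ih h2
    have hc : IsCoprime p m := hp.irreducible.coprime_iff_not_dvd.2 hpm
    have h6 := (hp'.mul hm).coprime_six h2
    have e : ∀ d₁ ∈ pdiv p, ∀ d₂ ∈ pdiv m, gs 6 n (d₁ * d₂) = gs 6 n d₁ * gs 6 n d₂ := by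
      intro d₁ h₁ d₂ h₂
      obtain ⟨a₁, b₁⟩ := (mem_pdiv hp.ne_zero).1 h₁
      obtain ⟨a₂, b₂⟩ := (mem_pdiv hm.ne_zero).1 h₂
      have hc' : IsCoprime d₁ d₂ :=
        (hc.of_isCoprime_of_dvd_left b₁).of_isCoprime_of_dvd_right b₂
      rw [gs_mul 6 a₁.ne_zero a₂.ne_zero hc', sx_pow_six, sx_pow_six,
        if_pos ⟨h6.of_isCoprime_of_dvd_left (b₁.mul_right m), hc'.symm⟩,
        if_pos ⟨h6.of_isCoprime_of_dvd_left (b₂.mul_left p), hc'⟩, one_mul, one_mul]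
    rw [sum_pdiv_mul hp.ne_zero hm.ne_zero hc,
      Finset.sum_congr rfl fun d₁ h₁ => Finset.sum_congr rfl fun d₂ h₂ => e d₁ h₁ d₂ h₂,
      ← Finset.sum_mul_sum, ih h2.of_mul_left_right, fr2_prime hp hp', gs_unit _ _ isUnit_one,
      gs_prime_six hp h6.of_mul_left_left (by norm_num) dvd_rfl, nm_mul]
    by_cases h₁ : p ∣ n
    · by_cases h₂ : m ∣ n
      · rw [if_pos h₁, if_pos h₂, if_pos (hc.mul_dvd h₁ h₂)]
        push_cast
        ring
      · rw [if_neg h₂, if_neg fun h => h₂ ((dvd_mul_left m p).trans h), mul_zero]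
    · rw [if_neg h₁, if_neg (c := p * m ∣ n) fun h => h₁ ((dvd_mul_right p m).trans h)]
      ring

/-- `∑_{r₁ ∣ r} c_{r₁}(n) = N r · 1_{r ∣ n}`; `Prim.induction_sqfree`, `sum_pdiv_mul` (or a
product formula over `pfs r`), `gs_mul`, `gs_prime_six` -/
theorem ite_dvd_eq {r : O} (hr : Prim r) (hs : Squarefree r) (h2 : IsCoprime r 2) (n : O) :
    (if r ∣ n then (1 : ℂ) else 0) = ∑ p ∈ anti r, dl n p.1 / (nm p.2 : ℂ) := by
  have h0 : (nm r : ℂ) ≠ 0 := by exact_mod_cast (nm_pos hr.ne_zero).ne'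
  have e : ∀ p ∈ anti r, dl n p.1 / (nm p.2 : ℂ) = gs 6 n p.1 / nm r := by
    intro p hp
    rw [← (mem_anti.1 hp).2.2, nm_mul, dl, div_div]
    push_cast
    rfl
  rw [Finset.sum_congr rfl e, fr2_anti hr fun d => gs 6 n d / nm r, ← Finset.sum_div,
    fr2_ram hr hs n h2]
  split_ifs
  · rw [div_self h0]
  · rw [zero_div]

/-- the marks `r₁` with `r₁ r₂ ∈ Rs` -/
noncomputable def Rq (P : ℝ) (Rs : Finset O) (r₂ : O) : Finset O :=
  (ball P).filter fun r₁ => Prim r₁ ∧ r₁ * r₂ ∈ Rs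

theorem fr2_summable {q : O} {ψ : O → ℂ} (hq : Lev q) (hψ : IsTw q ψ) {a Y : ℝ} (ha : 0 < a)
    (hY : 0 < Y) (t : ℝ) (k r : O) : Summable fun n : Pr =>
      tau0 n * al n * ψ n * conj (sx n k) * dl n r * LN a Y t (nm n) := by
  obtain ⟨C, -, hC⟩ := sum_LN_O ha (1 / 6)
  refine (hC (Subtype.val : Pr → O) (fun n => tau0 n * al n * ψ n * conj (sx n k) * dl n r) 1 Y t
    Subtype.val_injective (fun n hn => absurd hn (Pr_prim n).ne_zero) (fun n _ => ?_) zero_le_one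
    hY).1.of_norm
  simp only [norm_mul, RCLike.norm_conj, one_mul, mul_assoc]
  refine (mul_le_of_le_one_right (norm_nonneg _) ?_).trans (norm_tau0_le _)
  exact mul_le_one₀ (norm_al_le _) (by positivity) (mul_le_one₀ (hψ.norm_le hq.1 _) (by positivity)
    (mul_le_one₀ (norm_sx_le _ _) (norm_nonneg _) (norm_dl_le _ _)))

/-- marks not prime to `k` contribute zero; `ite_dvd_eq`, `Summable.tsum_finsetSum`
(`sum_LN_O`, `norm_tau0_le`), reindex the pairs `(r, (r₁, r₂))` -/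
theorem t1_eq {q : O} {ψ : O → ℂ} (hq : Lev q) (hψ : IsTw q ψ) {P a N : ℝ} {Rs : Finset O}
    (hRs : Mk q P Rs) (ha : 0 < a) (hN : 0 < N) (t : ℝ) (c : O → ℂ) (k : O) :
    T1 ψ a N t Rs c k = ∑ r₂ ∈ (ball P).filter Prim, if IsCoprime r₂ k then
      (nm r₂ : ℂ)⁻¹ * T2 ψ a (N * nm r₂) t (Rq P Rs r₂) (fun r₁ => c (r₁ * r₂)) k else 0 := by
  set G : O → O → ℂ := fun r₁ r₂ => if IsCoprime r₂ k then (nm r₂ : ℂ)⁻¹ *
    (if IsCoprime r₁ k then c (r₁ * r₂) * ∑' n : Pr, tau0 n * al n * ψ n * conj (sx n k) * dl n r₁ *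
      LN a (N * nm r₂ * nm r₁) t (nm n) else 0) else 0 with hG
  have e1 : T1 ψ a N t Rs c k = ∑ r ∈ Rs, ∑ p ∈ anti r, G p.1 p.2 := by
    refine Finset.sum_congr rfl fun r hr => ?_
    obtain ⟨h1, h2, h3, -⟩ := hRs r hr
    by_cases hk : IsCoprime r k
    · have hY : 0 < N * nm r := mul_pos hN (nm_pos h1.ne_zero)
      have e : ∀ n : Pr, (if r ∣ (n : O) then
          tau0 n * al n * ψ n * conj (sx n k) * LN a (N * nm r) t (nm n) else 0) =
          ∑ p ∈ anti r, (nm p.2 : ℂ)⁻¹ *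
            (tau0 n * al n * ψ n * conj (sx n k) * dl n p.1 * LN a (N * nm r) t (nm n)) := by
        intro n
        rw [← boole_mul, ite_dvd_eq h1 h2 (hq.coprime_two h3), Finset.sum_mul]
        exact Finset.sum_congr rfl fun p _ => by ring
      simp only [e]
      rw [Summable.tsum_finsetSum fun p _ => (fr2_summable hq hψ ha hY t k p.1).mul_left _,
        Finset.mul_sum]
      refine Finset.sum_congr rfl fun p hp => ?_
      obtain ⟨-, -, hp⟩ := mem_anti.1 hp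
      rw [← hp] at hk
      simp only [hG, if_pos hk.of_mul_left_left, if_pos hk.of_mul_left_right, tsum_mul_left]
      rw [mul_assoc N, mul_comm (nm p.2), ← nm_mul, hp]
      ring
    · rw [Finset.sum_eq_zero fun p hp => ?_, tsum_congr (g := fun _ => 0) fun n => ?_, tsum_zero,
        mul_zero]
      · split_ifs with hn
        · rw [sx_eq_zero_of_not_coprime fun h => hk (h.of_isCoprime_of_dvd_left hn)]
          simp
        · rfl
      · rw [← (mem_anti.1 hp).2.2] at hk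
        simp only [hG]
        split_ifs with a1 a2
        · exact absurd (a2.mul_left a1) hk
        · rw [mul_zero]
        · rfl
  have e2 : (∑ r₂ ∈ (ball P).filter Prim, if IsCoprime r₂ k then
      (nm r₂ : ℂ)⁻¹ * T2 ψ a (N * nm r₂) t (Rq P Rs r₂) (fun r₁ => c (r₁ * r₂)) k else 0) =
      ∑ r₂ ∈ (ball P).filter Prim, ∑ r₁ ∈ Rq P Rs r₂, G r₁ r₂ := by
    refine Finset.sum_congr rfl fun r₂ _ => ?_
    simp only [hG, T2]
    split_ifs
    · rw [Finset.mul_sum]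
    · simp
  rw [e1, e2, Finset.sum_sigma', Finset.sum_sigma']
  refine Finset.sum_bij' (fun x _ => ⟨x.2.2, x.2.1⟩) (fun y _ => ⟨y.2 * y.1, (y.2, y.1)⟩)
    (fun x hx => ?_) (fun y hy => ?_) (fun x hx => ?_) (fun y _ => rfl) fun _ _ => rfl
  · obtain ⟨hr, hp⟩ := Finset.mem_sigma.1 hx
    obtain ⟨h1, h2, h3⟩ := mem_anti.1 hp
    obtain ⟨a1, -, -, a4⟩ := hRs _ hr
    simp only [Finset.mem_sigma, Finset.mem_filter, mem_ball, Rq]
    exact ⟨⟨(nm_le_of_dvd (Dvd.intro_left _ h3) a1.ne_zero).trans a4, h2⟩,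
      (nm_le_of_dvd (Dvd.intro _ h3) a1.ne_zero).trans a4, h1, h3 ▸ hr⟩
  · simp only [Finset.mem_sigma, Finset.mem_filter, mem_ball, Rq] at hy
    exact Finset.mem_sigma.2 ⟨hy.2.2.2, mem_anti.2 ⟨hy.2.2.1, hy.1.2, rfl⟩⟩
  · obtain ⟨r, r₁, r₂⟩ := x
    obtain ⟨-, hp⟩ := Finset.mem_sigma.1 hx
    obtain rfl : r₁ * r₂ = r := (mem_anti.1 hp).2.2
    rfl

/-- `sq_sum_le_weight` with weights `nm r₂`, `S2` with `Z²`, `N * nm r₂`, `P / nm r₂`, `bd_mono`,
`sum_inv_nm_le` -/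
theorem s1_of_s2 (h : S2) : S1 := by
  intro q a ε hq ha hε
  obtain ⟨C, hC, h⟩ := h q a (ε / 4) hq ha (by positivity)
  obtain ⟨C', hC', h'⟩ := one_add_log_rpow_le 2 (ε := ε / 2) (by positivity)
  refine ⟨44 ^ 2 * C' * C, by positivity, fun ψ Z K N P t Rs A c hψ hR hRs hc hA => ?_⟩
  obtain ⟨r1, r2, r3, r4, r5, r6⟩ := hR
  have hZ : 1 ≤ Z := r1.trans r2
  have hN : 0 < N := lt_of_lt_of_le (by positivity) r5
  have hZ2 : Z ≤ Z ^ 2 := le_self_pow₀ hZ two_ne_zero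
  set S := (ball P).filter Prim with hS
  have hS' : ∀ r ∈ S, Prim r ∧ nm r ≤ P := fun r hr => by
    rw [hS, Finset.mem_filter, mem_ball] at hr
    exact hr.symm
  set L : ℝ := ∑ r ∈ S, (nm r)⁻¹ with hL
  have hL0 : 0 ≤ L := Finset.sum_nonneg fun r _ => inv_nonneg.2 (nm_nonneg r)
  have hL1 : L ≤ 44 * (1 + Real.log Z) := sum_inv_nm_le hZ fun r hr => (hS' r hr).2.trans r4
  set B : ℝ := C * Z ^ (ε / 2) * (1 + |t|) ^ 12 * bd (N * P) K P 1 with hB
  have hbd := bd_nonneg (X := N * P) (K := K) (P := P) (B := 1) (by positivity) (by linarith)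
    (by linarith) zero_le_one
  have hB0 : 0 ≤ B := by positivity
  have key : ∀ r₂ ∈ S,
      ∑ k ∈ A, ‖T2 ψ a (N * nm r₂) t (Rq P Rs r₂) (fun r₁ => c (r₁ * r₂)) k‖ ^ 2 ≤ B := by
    intro r₂ hr
    obtain ⟨a1, a2⟩ := hS' r₂ hr
    have a3 := one_le_nm a1.ne_zero
    have a4 : 0 < nm r₂ := by linarith
    have a5 : P / nm r₂ ≤ P := div_le_self (by linarith) a3
    refine (h ψ (Z ^ 2) K (N * nm r₂) (P / nm r₂) t (Rq P Rs r₂) A _ hψ
      ⟨r1, r2.trans hZ2, (one_le_div a4).2 a2, (a5.trans r4).trans hZ2, ?_, ?_⟩ (fun r₁ h₁ => ?_)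
      (fun _ => hc _) hA).trans ?_
    · exact ((inv_anti₀ (by linarith) hZ2).trans r5).trans (le_mul_of_one_le_right hN.le a3)
    · rw [sq]
      exact mul_le_mul r6 (a2.trans r4) a4.le (by linarith)
    · simp only [Rq, Finset.mem_filter] at h₁
      obtain ⟨-, b2, b3, b4⟩ := hRs _ h₁.2.2
      refine ⟨h₁.2.1, b2.of_mul_left, b3.of_mul_left_left, ?_⟩
      rwa [le_div_iff₀ a4, ← nm_mul]
    · have e : (Z ^ 2) ^ (ε / 4) = Z ^ (ε / 2) := by
        rw [← Real.rpow_natCast, ← Real.rpow_mul (by linarith)]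
        congr 1
        push_cast
        ring
      rw [e, mul_assoc N, mul_div_cancel₀ _ a4.ne']
      exact mul_le_mul_of_nonneg_left (bd_mono (by positivity) (by linarith) (by positivity)
        zero_le_one le_rfl a5 le_rfl) (by positivity)
  have step : ∀ k ∈ A, ‖T1 ψ a N t Rs c k‖ ^ 2 ≤ L * ∑ r₂ ∈ S, (nm r₂)⁻¹ *
      ‖T2 ψ a (N * nm r₂) t (Rq P Rs r₂) (fun r₁ => c (r₁ * r₂)) k‖ ^ 2 := by
    intro k _
    rw [t1_eq hq hψ hRs ha hN]
    refine (sq_sum_le_weight S nm _ fun r hr => nm_pos (hS' r hr).1.ne_zero).trans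
      (mul_le_mul_of_nonneg_left (Finset.sum_le_sum fun r hr => ?_) hL0)
    have a4 := nm_pos (hS' r hr).1.ne_zero
    split_ifs
    · rw [norm_mul, norm_inv, Complex.norm_real, Real.norm_of_nonneg a4.le]
      refine le_of_eq ?_
      field_simp
    · simp only [norm_zero, ne_eq, OfNat.ofNat_ne_zero, not_false_eq_true, zero_pow, mul_zero]
      positivity
  refine (Finset.sum_le_sum step).trans ?_
  rw [← Finset.mul_sum, Finset.sum_comm]
  have fin : ∑ r₂ ∈ S, ∑ k ∈ A, (nm r₂)⁻¹ *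
      ‖T2 ψ a (N * nm r₂) t (Rq P Rs r₂) (fun r₁ => c (r₁ * r₂)) k‖ ^ 2 ≤ L * B := by
    rw [hL, Finset.sum_mul]
    refine Finset.sum_le_sum fun r hr => ?_
    rw [← Finset.mul_sum]
    exact mul_le_mul_of_nonneg_left (key r hr) (inv_nonneg.2 (nm_nonneg r))
  have hl := h' Z hZ
  rw [Real.rpow_two] at hl
  have hz : Z ^ ε = Z ^ (ε / 2) * Z ^ (ε / 2) := by
    rw [← Real.rpow_add (by linarith)]
    congr 1
    ring
  calc _ ≤ L * (L * B) := mul_le_mul_of_nonneg_left fin hL0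
    _ = L ^ 2 * B := by ring
    _ ≤ (44 * (1 + Real.log Z)) ^ 2 * B := by gcongr
    _ = 44 ^ 2 * (1 + Real.log Z) ^ 2 * B := by ring
    _ ≤ 44 ^ 2 * (C' * Z ^ (ε / 2)) * B := by gcongr
    _ = _ := by rw [hB, hz]; ring

end Crest.Agent.R17.F
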