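import Crest.Agent.R17.F.Lam

/-!
Row 17, block F: from `tau0` on primary elements to `τ` on all elements.
-/

set_option autoImplicit false

namespace Crest.Agent.R17.F

open scoped Classical ComplexConjugate

/-- `Function.Injective.tsum_eq` along `n ↦ ζ λ^i n`; `Coef`, `cb_mul_conj`, `al_mul`, `dl_mul`,
`LN_mul_mul` -/
theorem te_eq_t2 {τ : O → ℂ} {t : O → ℕ → ℂ} (hc : Coef τ t) {q ζ : O} {i : ℕ} {ψ G : O → ℂ}
    (hq : Lev q) (hζ : IsUnit ζ)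
    (hG : ∀ n, Prim n → G (ζ * lam ^ i * n) = conj (cb (ζ * lam ^ (i + 1)) n) * ψ n)
    (hG0 : ∀ x, G x ≠ 0 → ∃ n, Prim n ∧ x = ζ * lam ^ i * n) {P : ℝ} {Rs : Finset O}
    (hRs : Mk q P Rs) (a N s : ℝ) (c : O → ℂ) (k : O) :
    TE τ G a (3 ^ i * N) s Rs c k =
      t ζ i * al (ζ * lam ^ i) * conj (sx (ζ * lam ^ i) k) * T2 ψ a N s Rs c k := by
  have hu0 : ζ * lam ^ i ≠ 0 := mul_ne_zero hζ.ne_zero (pow_ne_zero _ lam_ne_zero)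
  have hinj : Function.Injective fun n : Pr => ζ * lam ^ i * (n : O) := fun n m h =>
    Subtype.ext (mul_left_cancel₀ hu0 h)
  unfold TE T2
  rw [Finset.mul_sum]
  refine Finset.sum_congr rfl fun r hr => ?_
  obtain ⟨hr1, -, hr3, -⟩ := hRs r hr
  split_ifs with hk
  · rw [mul_left_comm]
    congr 1
    rw [Th, ← tsum_mul_left, ← hinj.tsum_eq]
    · refine tsum_congr fun n => ?_
      have hn : Prim (n : O) := n.2
      have h1 : cb (ζ * lam ^ (i + 1)) n * conj (cb (ζ * lam ^ (i + 1)) n) = 1 := by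
        rw [cb_mul_conj, if_pos ⟨hn.coprime_three, lamb_cop hζ _ hn⟩]
      have h2 : nm (ζ * lam ^ i * (n : O)) = 3 ^ i * nm (n : O) := by
        rw [nm_mul, nm_mul, nm_unit hζ, nm_pow, nm_lam, one_mul]
      have h3 : LN a (3 ^ i * N * nm r) s (nm (ζ * lam ^ i * (n : O))) =
          LN a (N * nm r) s (nm (n : O)) := by
        rw [h2, mul_assoc, LN_mul_mul _ _ _ _ (by positivity)]
      rw [h3, hc ζ i n hζ hn, hG n hn, al_mul (ζ * lam ^ i), sx_mul_left (ζ * lam ^ i), map_mul,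
        dl_mul (hq.coprime_six hr3) (lamb_cop hζ i hr1)]
      linear_combination (t ζ i * al (ζ * lam ^ i) * conj (sx (ζ * lam ^ i) k) *
        (tau0 n * al n * ψ n * conj (sx n k) * dl n r * LN a (N * nm r) s (nm (n : O)))) * h1
    · intro x hx
      have hGx : G x ≠ 0 := by
        intro h0
        apply hx
        simp [h0]
      obtain ⟨n, hn, rfl⟩ := hG0 x hGx
      exact ⟨⟨n, hn⟩, rfl⟩
  · simp

/-- `lam_class`, `te_eq_t2` (`‖al u‖ = ‖sx u k‖ = 1`), `S3` at level `q λ^i₁` with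
`Z' = 3 ^ i₁ * Z`, `bd_scale_X` -/
theorem s2_of_s3 {τ : O → ℂ} {t : O → ℕ → ℂ} (hc : Coef τ t) (h0 : t 1 0 ≠ 0)
    (h1 : ∃ (ζ : O) (i : ℕ), IsUnit ζ ∧ ¬ 3 ∣ i ∧ t ζ i ≠ 0) (h : S3 τ) : S2 := by
  obtain ⟨ζ₁, i₁, hζ₁, hi₁, ht₁⟩ := h1
  intro q a ε hq ha hε
  obtain ⟨C, hC, H⟩ := h (q * lam ^ i₁) a ε (hq.mul (pow_ne_zero _ lam_ne_zero)) ha hε
  set M : ℝ := (‖t 1 0‖ ^ 2)⁻¹ + (‖t ζ₁ i₁‖ ^ 2)⁻¹ with hM
  have hD : (1 : ℝ) ≤ 3 ^ i₁ := one_le_pow₀ (by norm_num)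
  refine ⟨M * (C * ((3 : ℝ) ^ i₁) ^ ε * (3 ^ i₁) ^ 2), by positivity, ?_⟩
  intro ψ Z K N P s Rs A c hψ hR hRs hcb hA
  obtain ⟨ζ, i, hζi, G, hG, hG1, hG0⟩ := lam_class hq hψ hζ₁ hi₁
  obtain ⟨hK1, hKZ, hP1, hPZ, hN1, hNZ⟩ := hR
  have hZ : 0 < Z := by linarith
  have hN : 0 < N := lt_of_lt_of_le (inv_pos.2 hZ) hN1
  have hζ : IsUnit ζ := by
    rcases hζi with ⟨rfl, -⟩ | ⟨rfl, -⟩
    · exact isUnit_one
    · exact hζ₁
  have hii : i ≤ i₁ := by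
    rcases hζi with ⟨-, rfl⟩ | ⟨-, rfl⟩
    · exact Nat.zero_le _
    · exact le_rfl
  have ht : t ζ i ≠ 0 := by
    rcases hζi with ⟨rfl, rfl⟩ | ⟨rfl, rfl⟩
    · exact h0
    · exact ht₁
  have htM : (‖t ζ i‖ ^ 2)⁻¹ ≤ M := by
    rcases hζi with ⟨rfl, rfl⟩ | ⟨rfl, rfl⟩
    · exact le_add_of_nonneg_right (by positivity)
    · exact le_add_of_nonneg_left (by positivity)
  have hE : (1 : ℝ) ≤ 3 ^ i := one_le_pow₀ (by norm_num)
  have hED : (3 : ℝ) ^ i ≤ 3 ^ i₁ := pow_le_pow_right₀ (by norm_num) hii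
  have hZZ : Z ≤ 3 ^ i₁ * Z := le_mul_of_one_le_left hZ.le hD
  have hcop : ∀ r : O, Prim r → IsCoprime r q → IsCoprime r (q * lam ^ i₁) := fun r h1 h2 =>
    h2.mul_right (by simpa using (lamb_cop isUnit_one i₁ h1).symm)
  have hR' : Rng (3 ^ i₁ * Z) K P (3 ^ i * N) := by
    refine ⟨hK1, hKZ.trans hZZ, hP1, hPZ.trans hZZ, ?_, ?_⟩
    · exact ((inv_anti₀ hZ hZZ).trans hN1).trans (le_mul_of_one_le_left hN.le hE)
    · gcongr
  have hRs' : Mk (q * lam ^ i₁) P Rs := fun r hr =>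
    ⟨(hRs r hr).1, (hRs r hr).2.1, hcop r (hRs r hr).1 (hRs r hr).2.2.1, (hRs r hr).2.2.2⟩
  have hA' : Rw (q * lam ^ i₁) K A := fun k hk =>
    ⟨(hA k hk).1, hcop k (hA k hk).1 (hA k hk).2.1, (hA k hk).2.2⟩
  have H1 := H G (3 ^ i₁ * Z) K (3 ^ i * N) P s Rs A c hG hR' hRs' hcb hA'
  have hu0 : ζ * lam ^ i ≠ 0 := mul_ne_zero hζ.ne_zero (pow_ne_zero _ lam_ne_zero)
  have htp : 0 < ‖t ζ i‖ ^ 2 := by positivity
  have hT : ∀ k ∈ A, ‖T2 ψ a N s Rs c k‖ ^ 2 =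
      (‖t ζ i‖ ^ 2)⁻¹ * ‖TE τ G a (3 ^ i * N) s Rs c k‖ ^ 2 := by
    intro k hk
    rw [te_eq_t2 hc hq hζ hG1 hG0 hRs, norm_mul, norm_mul, norm_mul, norm_al hu0,
      Complex.norm_conj, norm_sx (hq.coprime_six (hA k hk).2.1) (lamb_cop hζ i (hA k hk).1)]
    field_simp
  rw [Finset.sum_congr rfl hT, ← Finset.mul_sum]
  have hNP : 0 ≤ N * P := by positivity
  have hb0 : 0 ≤ bd (N * P) K P 1 := bd_nonneg hNP (by linarith) (by linarith) zero_le_one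
  have hb : bd (3 ^ i * N * P) K P 1 ≤ (3 ^ i₁) ^ 2 * bd (N * P) K P 1 := by
    rw [mul_assoc]
    refine (bd_scale_X hNP (by linarith) (by linarith) zero_le_one hE).trans ?_
    gcongr
  rw [Real.mul_rpow (by positivity) hZ.le] at H1
  calc (‖t ζ i‖ ^ 2)⁻¹ * ∑ k ∈ A, ‖TE τ G a (3 ^ i * N) s Rs c k‖ ^ 2
      ≤ M * (C * (((3 : ℝ) ^ i₁) ^ ε * Z ^ ε) * (1 + |s|) ^ 12 *
          ((3 ^ i₁) ^ 2 * bd (N * P) K P 1)) := by
        refine mul_le_mul htM (H1.trans ?_) (by positivity) (by positivity)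
        gcongr
    _ = _ := by ring

end Crest.Agent.R17.F
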