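import Crest.Agent.R17.F.Fx

/-!
Row 17, block F: removing the squarefull part of the rows.
-/

set_option autoImplicit false

namespace Crest.Agent.R17.F

open scoped Classical ComplexConjugate

theorem r5_TE_mul (τ G : O → ℂ) (a Y t : ℝ) (Rs : Finset O) (c : O → ℂ) (f k : O) :
    TE τ G a Y t Rs c (f * k) =
      TE τ (fun n => G n * conj (sx n f)) a Y t (Rs.filter (IsCoprime · f)) c k := by
  unfold TE
  rw [Finset.sum_filter]
  refine Finset.sum_congr rfl fun r _ => ?_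
  by_cases h : IsCoprime r f
  · simp only [IsCoprime.mul_right_iff, h, true_and, if_true, sx_mul_right, map_mul, mul_assoc]
  · rw [if_neg h, if_neg fun h' => h h'.of_mul_right_left]

/-- one squarefull part `f`: expand (`TE_sum`), marks not prime to `f` drop out,
`sq_sum_le_card`, `pow_card_pfs_le`, `S5` with `K / nm f`, `M = nm g`, `bd_div` -/
theorem s4_fixed {τ : O → ℂ} (hτ : Gr τ) (h : S5 τ) {Q : O} {a ε : ℝ} (hQ : Lev Q) (ha : 0 < a)
    (hε : 0 < ε) : ∃ C : ℝ, 0 ≤ C ∧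
    ∀ (c₀ α f g : O) (Z K Y P t : ℝ) (Rs A : Finset O) (c : O → ℂ), Cusp Q c₀ α → Rng Z K P Y →
      Mk Q P Rs → (∀ r, ‖c r‖ ≤ 1) → Prim f → IsCoprime f Q → Exp f g →
      (∀ k ∈ A, Prim k ∧ Squarefree k ∧ IsCoprime k Q ∧ IsCoprime f k ∧ nm (f * k) ≤ K) →
      ∑ k ∈ A, ‖TE τ (fun n => eQ (-(n * α)) (3 * c₀)) a Y t Rs c (f * k)‖ ^ 2 ≤
        C * Z ^ ε * (1 + |t|) ^ 12 * (nm g * nm f ^ (-(1 / 2) : ℝ) * bd (Y * P) K P 1) := by
  obtain ⟨C₁, hC₁, h1⟩ := h Q a (ε / 2) hQ ha (half_pos hε)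
  obtain ⟨C₂, hC₂, h2⟩ := pow_card_pfs_le 4 (half_pos hε)
  refine ⟨C₂ * C₁, by positivity, ?_⟩
  rintro c₀ α f g Z K Y P t Rs A c hcu hr hm hc hf hfQ ⟨ι, I, e, χ, w, hI, he, hex⟩ hA
  obtain ⟨hK, hKZ, hP, hPZ, hY, hYZ⟩ := hr
  have hZ : 0 < Z := by linarith
  have hY0 : 0 < Y := (inv_pos.2 hZ).trans_le hY
  have hbd : 0 ≤ bd (Y * P) K P 1 :=
    bd_nonneg (by positivity) (by linarith) (by linarith) zero_le_one
  have hf0 := nm_pos hf.ne_zero
  have hg0 := nm_nonneg g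
  rcases A.eq_empty_or_nonempty with rfl | ⟨k₀, hk₀⟩
  · rw [Finset.sum_empty]
    positivity
  have hfK : nm f ≤ K := by
    obtain ⟨h3, -, -, -, h4⟩ := hA k₀ hk₀
    exact (nm_le_of_dvd (dvd_mul_right f k₀) (hf.mul h3).ne_zero).trans h4
  have hf1 := one_le_nm hf.ne_zero
  set Rs' := Rs.filter (IsCoprime · f) with hRs'
  set B : ℝ := C₁ * Z ^ (ε / 2) * (1 + |t|) ^ 12 *
    (nm g * nm f ^ (-(1 / 2) : ℝ) * bd (Y * P) K P 1) with hB
  have hB0 : 0 ≤ B := by positivity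
  have key : ∀ i ∈ I, ∑ k ∈ A, ‖TE τ (fun n => eQ (-(n * α)) (3 * c₀) * (w i * Fp (e i) (χ i) n))
      a Y t Rs' c k‖ ^ 2 ≤ B := by
    intro i hi
    obtain ⟨h3, h4, h5, h6⟩ := he i hi
    have h7 : e i ∣ f := (dvd_pow_self _ two_ne_zero).trans h4
    refine (h1 c₀ α (e i) (χ i) (w i) (nm g) Z (K / nm f) Y P t Rs' A c hcu h3
      (hfQ.of_isCoprime_of_dvd_left h7) h5
      ((nm_le_of_dvd h7 hf.ne_zero).trans (hfK.trans hKZ)) h6
      ⟨(one_le_div hf0).2 hfK, (div_le_self (by linarith) hf1).trans hKZ, hP, hPZ, hY, hYZ⟩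
      (fun r hr => ?_) hc (fun k hk => ?_) fun k hk => (hA k hk).2.1).trans ?_
    · obtain ⟨h8, h9⟩ := Finset.mem_filter.1 hr
      obtain ⟨r1, r2, r3, r4⟩ := hm r h8
      exact ⟨r1, r2, r3.mul_right (h9.of_isCoprime_of_dvd_right h7), r4⟩
    · obtain ⟨k1, -, k3, k4, k5⟩ := hA k hk
      refine ⟨k1, k3.mul_right (k4.symm.of_isCoprime_of_dvd_right h7), ?_⟩
      rw [le_div_iff₀ hf0, mul_comm, ← nm_mul]
      exact k5
    · rw [hB, mul_assoc (nm g)]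
      refine mul_le_mul_of_nonneg_left (mul_le_mul_of_nonneg_left ?_ hg0) (by positivity)
      refine bd_div (by positivity) (by linarith) (by linarith) hf1 (nm_nonneg _) ?_
      rw [← nm_pow]
      exact nm_le_of_dvd h4 hf.ne_zero
  have hexp : ∀ k, TE τ (fun n => eQ (-(n * α)) (3 * c₀)) a Y t Rs c (f * k) =
      ∑ i ∈ I, TE τ (fun n => eQ (-(n * α)) (3 * c₀) * (w i * Fp (e i) (χ i) n)) a Y t Rs' c k := by
    intro k
    rw [r5_TE_mul, ← TE_sum hτ I (fun i hi => ⟨‖w i‖ * nm (e i), fun n => ?_⟩) ha hY0 t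
      fun r hr => (hm r (Finset.mem_filter.1 hr).1).1.ne_zero]
    · simp only [hex, Finset.mul_sum]
    · rw [norm_mul, norm_eQ, one_mul, norm_mul]
      exact mul_le_mul_of_nonneg_left (Fp_bdd (he i hi).1.ne_zero (he i hi).2.2.1 n)
        (norm_nonneg _)
  have hcard : (I.card : ℝ) * I.card ≤ C₂ * Z ^ (ε / 2) := by
    have h3 := h2 f hf.ne_zero
    rw [abs_of_pos (by norm_num : (0 : ℝ) < 4)] at h3
    calc (I.card : ℝ) * I.card ≤ 2 ^ (pfs f).card * 2 ^ (pfs f).card :=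
          mul_le_mul hI hI (by positivity) (by positivity)
      _ = 4 ^ (pfs f).card := by rw [← mul_pow]; norm_num
      _ ≤ C₂ * nm f ^ (ε / 2) := h3
      _ ≤ _ := mul_le_mul_of_nonneg_left
          (Real.rpow_le_rpow hf0.le (hfK.trans hKZ) (by positivity)) hC₂.le
  simp only [hexp]
  calc _ ≤ ∑ k ∈ A, (I.card : ℝ) * ∑ i ∈ I, ‖TE τ (fun n => eQ (-(n * α)) (3 * c₀) *
          (w i * Fp (e i) (χ i) n)) a Y t Rs' c k‖ ^ 2 :=
        Finset.sum_le_sum fun k _ => sq_sum_le_card _ _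
    _ ≤ (I.card : ℝ) * (I.card * B) := by
        rw [← Finset.mul_sum, Finset.sum_comm]
        refine mul_le_mul_of_nonneg_left ?_ (by positivity)
        rw [← nsmul_eq_mul]
        exact Finset.sum_le_card_nsmul _ _ _ key
    _ ≤ C₂ * Z ^ (ε / 2) * B := by
        rw [← mul_assoc]
        exact mul_le_mul_of_nonneg_right hcard hB0
    _ = _ := by
        have : Z ^ ε = Z ^ (ε / 2) * Z ^ (ε / 2) := by rw [← Real.rpow_add hZ, add_halves]
        rw [hB, this]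
        ring

/-- `k = f k₁` (`Prim.exists_sqfull`), group the rows by `f`, `fx`, `s4_fixed`, `sum_f` -/
theorem s4_of_s5 {τ : O → ℂ} (hτ : Gr τ) (h : S5 τ) : S4 τ := by
  intro Q a ε hQ ha hε
  obtain ⟨C₁, hC₁, h1⟩ := s4_fixed hτ h hQ ha (half_pos hε)
  obtain ⟨C₂, hC₂, h2⟩ := sum_f (half_pos hε)
  refine ⟨C₁ * C₂, by positivity, fun c₀ α Z K Y P t Rs A c hcu hr hm hc hA => ?_⟩
  choose! F m hF using fun k (hk : Prim k) => hk.exists_sqfull
  choose! g f' hg using fun f (hf : Prim f ∧ IsCoprime f 2 ∧ Sqfull f) => fx hf.1 hf.2.1 hf.2.2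
  have hZ : 0 < Z := by linarith [hr.1, hr.2.1]
  have hY0 : 0 < Y := (inv_pos.2 hZ).trans_le hr.2.2.2.2.1
  have hP0 : 0 ≤ P := by linarith [hr.2.2.1]
  have hbd : 0 ≤ bd (Y * P) K P 1 :=
    bd_nonneg (by positivity) (by linarith [hr.1]) hP0 zero_le_one
  have hS : ∀ f ∈ A.image F, Prim f ∧ IsCoprime f Q ∧ Sqfull f ∧ nm f ≤ K := by
    intro f hf
    obtain ⟨k, hk, rfl⟩ := Finset.mem_image.1 hf
    obtain ⟨k1, k2, k3⟩ := hA k hk
    obtain ⟨f1, -, f3, -, -, f6⟩ := hF k k1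
    have hd : F k ∣ k := ⟨m k, f6⟩
    exact ⟨f1, k2.of_isCoprime_of_dvd_left hd, f3, (nm_le_of_dvd hd k1.ne_zero).trans k3⟩
  have hg' : ∀ f ∈ A.image F, Sqfull (f' f) ∧ f = g f ^ 4 * f' f ∧ Exp f (g f) := fun f hf =>
    hg f ⟨(hS f hf).1, hQ.coprime_two (hS f hf).2.1, (hS f hf).2.2.1⟩
  have key : ∀ f ∈ A.image F, ∑ k ∈ A.filter (F · = f),
      ‖TE τ (fun n => eQ (-(n * α)) (3 * c₀)) a Y t Rs c k‖ ^ 2 ≤
      C₁ * Z ^ (ε / 2) * (1 + |t|) ^ 12 * bd (Y * P) K P 1 * (nm (g f) * nm f ^ (-(1 / 2) : ℝ)) := by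
    intro f hf
    have hk : ∀ k ∈ A.filter (F · = f), k = f * m k := fun k hk => by
      obtain ⟨k1, rfl⟩ := Finset.mem_filter.1 hk
      exact (hF k (hA k k1).1).2.2.2.2.2
    have h3 := h1 c₀ α f (g f) Z K Y P t Rs ((A.filter (F · = f)).image m) c hcu hr hm hc
      (hS f hf).1 (hS f hf).2.1 (hg' f hf).2.2 fun k₁ hk₁ => by
        obtain ⟨k, hk', rfl⟩ := Finset.mem_image.1 hk₁
        rw [← hk k hk']
        obtain ⟨k1, rfl⟩ := Finset.mem_filter.1 hk'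
        obtain ⟨k2, k3, k4⟩ := hA k k1
        obtain ⟨-, f2, -, f4, f5, f6⟩ := hF k k2
        exact ⟨f2, f4, k3.of_isCoprime_of_dvd_left ⟨F k, by rw [mul_comm]; exact f6⟩, f5, k4⟩
    rw [Finset.sum_image fun x hx y hy hxy => by rw [hk x hx, hk y hy, hxy]] at h3
    rw [Finset.sum_congr rfl fun k hk' => by rw [← hk k hk']] at h3
    exact h3.trans (le_of_eq (by ring))
  rw [← Finset.sum_fiberwise_of_maps_to (fun k hk => Finset.mem_image_of_mem F hk)]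
  refine (Finset.sum_le_sum key).trans ?_
  rw [← Finset.mul_sum]
  have h4 := h2 K (A.image F) g f' hr.1 fun f hf =>
    ⟨(hS f hf).1.ne_zero, (hS f hf).2.2.2, (hg' f hf).1, (hg' f hf).2.1⟩
  have h5 : K ^ (ε / 2) ≤ Z ^ (ε / 2) :=
    Real.rpow_le_rpow (by linarith [hr.1]) hr.2.1 (by positivity)
  refine (mul_le_mul_of_nonneg_left (h4.trans (mul_le_mul_of_nonneg_left h5 hC₂))
    (by positivity)).trans (le_of_eq ?_)
  have : Z ^ ε = Z ^ (ε / 2) * Z ^ (ε / 2) := by rw [← Real.rpow_add hZ, add_halves]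
  rw [this]
  ring

end Crest.Agent.R17.F
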