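import Crest.Agent.R17.F.DE0
import Crest.Agent.R17.F.DE
import Crest.Agent.R17.F.Dual
import Crest.Agent.R17.F.Core
import Crest.Agent.R17.F.Cls
import Crest.Agent.R17.F.R5
import Crest.Agent.R17.F.R3
import Crest.Agent.R17.F.R2
import Crest.Agent.R17.F.R1

/-!
Row 17, block F: assembly.
-/

set_option autoImplicit false

namespace Crest.Agent.R17.F

open scoped Classical ComplexConjugate

theorem stF_aux (hD : StD) (hE : StE) : StF := by
  obtain ⟨τ, t, e₀, he₀, hc, hb, h0, h1, hR⟩ := hD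
  have hτ : Gr τ := gr_of_coef hc hb
  exact stF_of_s1 (s1_of_s2 (s2_of_s3 hc h0 h1 (s3_of_s4 hτ (s4_of_s5 hτ (s5_of_s6
    (s6 hτ hR he₀ (sd hτ (de2 (de1 hc hb (de0 hE))))))))))

end Crest.Agent.R17.F

theorem Crest.Agent.R17.stF (hD : Crest.Agent.R17.StD) (hE : Crest.Agent.R17.StE) :
    Crest.Agent.R17.StF := Crest.Agent.R17.F.stF_aux hD hE
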