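import Crest.Agent.R17.F.Ker

/-!
Row 17, block F: reflection for an additive character modulo `3 c₀` times a Gauss sum modulo `m`.
-/

set_option autoImplicit false

namespace Crest.Agent.R17.F

open scoped Classical ComplexConjugate

theorem rfl_key {m u : O} (hm : m ≠ 0) {inv : O → O}
    (hinv : ∀ β, IsCoprime β m → m ∣ β * inv β * u - 1) {G : O → ℂ} (hG : Per m G) (β : O) :
    (if IsCoprime β m then G (inv β) else 0) =
      rsum m fun γ => if m ∣ β * γ * u - 1 then G γ else 0 := by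
  split_ifs with h
  · rw [← rsum_ite hm hG (inv β)]
    congr 1
    funext γ
    have h0 := hinv β h
    have : m ∣ γ - inv β ↔ m ∣ β * γ * u - 1 := by
      constructor
      · intro h1
        have e : β * γ * u - 1 = β * u * (γ - inv β) + (β * inv β * u - 1) := by ring
        rw [e]
        exact dvd_add (h1.mul_left _) h0
      · intro h1
        have e : γ - inv β = inv β * (β * γ * u - 1) - γ * (β * inv β * u - 1) := by ring
        rw [e]
        exact dvd_sub (h1.mul_left _) (h0.mul_left _)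
    simp only [this]
  · have : (fun γ => if m ∣ β * γ * u - 1 then G γ else 0) = fun _ => 0 := by
      funext γ
      rw [if_neg]
      rintro ⟨k, hk⟩
      exact h ⟨γ * u, -k, by linear_combination hk⟩
    rw [this, rsum_const hm, mul_zero]

/-- the substitution `β ↦ γ`, `β γ u ≡ 1 mod m` (write both sides as a double sum with the
indicator of `m ∣ β γ u - 1`, `rsum_ite`, `rsum_comm`) -/
theorem rsum_inv {m u : O} (hm : m ≠ 0) {inv : O → O}
    (hinv : ∀ β, IsCoprime β m → m ∣ β * inv β * u - 1) {H : O → O → ℂ}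
    (h₁ : ∀ γ, Per m fun β => H β γ) (h₂ : ∀ β, Per m fun γ => H β γ) :
    rsum m (fun β => if IsCoprime β m then H β (inv β) else 0) =
      rsum m fun γ => if IsCoprime γ m then H (inv γ) γ else 0 := by
  have e1 : (fun β => if IsCoprime β m then H β (inv β) else 0) =
      fun β => rsum m fun γ => if m ∣ β * γ * u - 1 then H β γ else 0 :=
    funext fun β => rfl_key hm hinv (h₂ β) β
  have e2 : (fun γ => if IsCoprime γ m then H (inv γ) γ else 0) =
      fun γ => rsum m fun β => if m ∣ β * γ * u - 1 then H β γ else 0 := by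
    funext γ
    rw [rfl_key hm hinv (h₁ γ) γ]
    simp only [mul_comm γ]
  rw [e1, e2, rsum_comm hm hm]

/-- Put `Q = 3 c₀`.  `Fp m χ n = ∑_{β ∈ res m} conj (χ β) eQ (-n β) m` (`rsum_eq_sum`), `Th_sum`.
For `β` prime to `m`, `β γ Q² ≡ 1 mod m`: `a' = α m + β Q`, `d = α' m + γ Q`, `c = c₀ m`;
`a'` is primary, `Q m ∣ a' d - 1`, `eQ_split`, `refl1`;
`cb (c₀ m) a' = cb c₀ (α m) · cb (β Q) m` (`cb_per` with `D = Q`, `cb_recip`, `cb_congr`).
`Du_sum` backwards, `rsum_inv`; `conj (χ β) = χ (γ Q²)`, `cb β m = cb (γ Q²) m ^ 2`. -/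
theorem refl2 {τ : O → ℂ} {e₀ : ℂ} (hτ : Gr τ) (hR : Refl τ e₀) {c₀ α α' m : O} {χ : O → ℂ}
    (hc : c₀ ≠ 0) (h3 : (3 : O) ∣ c₀) (hα : Prim α) (hm : Prim m) (hmc : IsCoprime m c₀)
    (hχ : IsTw m χ) (hinv : 3 * c₀ ∣ α * α' * m ^ 2 - 1) {a Y : ℝ} (ha : 0 < a) (hY : 0 < Y)
    (t : ℝ) :
    Th τ (fun n => eQ (-(n * α)) (3 * c₀) * Fp m χ n) a Y t =
      e₀ * cb c₀ α * (cb c₀ m * cb (3 * c₀) m * (χ (3 * c₀) * cb (3 * c₀) m ^ 2) ^ 2 *
          al (c₀ * m) ^ 2) * ((Y / nm (c₀ * m) : ℝ) : ℂ) *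
        Du τ (fun l => eQ (l * α') (3 * c₀) * Fd m χ l) a t (nm (c₀ * m) ^ 2 / Y) := by
  have hm0 := hm.ne_zero
  have h30 : (3 : O) ≠ 0 := fun h => lam_ne_zero (by
    have := lam_sq
    rw [h, neg_zero] at this
    exact pow_eq_zero_iff (two_ne_zero) |>.1 this)
  have hQ0 : 3 * c₀ ≠ 0 := mul_ne_zero h30 hc
  have hQm : IsCoprime (3 * c₀) m := (hm.coprime_three.mul_right hmc).symm
  have hex : ∀ β, ∃ γ, IsCoprime β m → m ∣ β * γ * (3 * c₀) ^ 2 - 1 := by
    intro β
    by_cases h : IsCoprime β m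
    · obtain ⟨x, y, hxy⟩ := h.mul_left (hQm.pow_left (m := 2))
      exact ⟨x, fun _ => ⟨-y, by linear_combination hxy⟩⟩
    · exact ⟨0, fun h' => absurd h' h⟩
  choose inv hinv' using hex
  have hL : 0 < nm (c₀ * m) ^ 2 / Y := div_pos (pow_pos (nm_pos (mul_ne_zero hc hm0)) 2) hY
  set L := nm (c₀ * m) ^ 2 / Y with hLd
  let D : O → ℂ := fun γ => Du τ (fun l => eQ (l * α') (3 * c₀) * eQ (l * γ) m) a t L
  let K : ℂ := e₀ * cb c₀ α * (cb c₀ m * cb (3 * c₀) m * al (c₀ * m) ^ 2) *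
    ((Y / nm (c₀ * m) : ℝ) : ℂ)
  let H : O → O → ℂ := fun β γ => conj (χ β) * cb β m * D γ
  have hH₁ : ∀ γ, Per m fun β => H β γ := fun γ x y h => by
    simp only [H, hχ.per x y h, cb_congr h]
  have hH₂ : ∀ β, Per m fun γ => H β γ := fun β x y h => by
    have : D x = D y := by
      simp only [D]
      congr 1
      funext l
      rw [eQ_congr (y := l * x) (y' := l * y) (by rw [← mul_sub]; exact h.mul_left _)]
    simp only [H, this]
  -- the left side
  have l1 : Th τ (fun n => eQ (-(n * α)) (3 * c₀) * Fp m χ n) a Y t =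
      ∑ β ∈ res m, conj (χ β) *
        Th τ (fun n => eQ (-(n * (α * m + β * (3 * c₀)))) (3 * (c₀ * m))) a Y t := by
    have e : (fun n => eQ (-(n * α)) (3 * c₀) * Fp m χ n) = fun n => ∑ β ∈ res m,
        conj (χ β) * eQ (-(n * (α * m + β * (3 * c₀)))) (3 * (c₀ * m)) := by
      funext n
      rw [Fp, FT, rsum_eq_sum hm0, Finset.mul_sum]
      refine Finset.sum_congr rfl fun β _ => ?_
      have e1 : -(n * (α * m + β * (3 * c₀))) = -(n * α) * m + -n * β * (3 * c₀) := by ring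
      rw [e1, ← mul_assoc 3 c₀ m, eQ_split hQ0 hm0]
      ring
    rw [e, Th_sum hτ _ (fun β _ => ⟨‖conj (χ β)‖, fun n => by rw [norm_mul, norm_eQ, mul_one]⟩)
      ha hY]
    exact Finset.sum_congr rfl fun β _ => Th_const_mul _ _ _ _ _ _
  have l2 : ∀ β, conj (χ β) *
      Th τ (fun n => eQ (-(n * (α * m + β * (3 * c₀)))) (3 * (c₀ * m))) a Y t =
      K * if IsCoprime β m then H β (inv β) else 0 := by
    intro β
    split_ifs with h
    · have hp : Prim (α * m + β * (3 * c₀)) :=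
        (hα.mul hm).congr ⟨-(β * c₀), by ring⟩
      have hd : 3 * (c₀ * m) ∣ (α * m + β * (3 * c₀)) * (α' * m + inv β * (3 * c₀)) - 1 := by
        rw [← mul_assoc]
        refine hQm.mul_dvd ?_ ?_
        · have e : (α * m + β * (3 * c₀)) * (α' * m + inv β * (3 * c₀)) - 1 =
              (α * α' * m ^ 2 - 1) + 3 * c₀ * (α * m * inv β + β * α' * m + β * inv β * (3 * c₀)) := by
            ring
          rw [e]
          exact dvd_add hinv (dvd_mul_right _ _)
        · have e : (α * m + β * (3 * c₀)) * (α' * m + inv β * (3 * c₀)) - 1 =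
              (β * inv β * (3 * c₀) ^ 2 - 1) +
                m * (α * α' * m + α * inv β * (3 * c₀) + β * (3 * c₀) * α') := by
            ring
          rw [e]
          exact dvd_add (hinv' β h) (dvd_mul_right _ _)
      rw [refl1 hτ hR (mul_ne_zero hc hm0) (h3.mul_right m) hp hd ha hY t]
      have c1 : cb c₀ (α * m + β * (3 * c₀)) = cb c₀ α * cb c₀ m := by
        rw [← cb_mul_right]
        refine cb_per (D := 3 * c₀) (k := 1) (by rw [pow_one]; exact dvd_mul_left _ _) ?_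
          ⟨β, by ring⟩
        obtain ⟨c, rfl⟩ := h3
        exact ⟨β * c, by ring⟩
      have c2 : cb m (α * m + β * (3 * c₀)) = cb β m * cb (3 * c₀) m := by
        rw [cb_recip hm hp, ← cb_mul_left]
        exact cb_congr ⟨α, by ring⟩
      have c3 : (fun l => eQ (l * (α' * m + inv β * (3 * c₀))) (3 * (c₀ * m))) =
          fun l => eQ (l * α') (3 * c₀) * eQ (l * inv β) m := by
        funext l
        have e1 : l * (α' * m + inv β * (3 * c₀)) = l * α' * m + l * inv β * (3 * c₀) := by ring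
        rw [e1, ← mul_assoc 3 c₀ m, eQ_split hQ0 hm0]
      rw [cb_mul_left, c1, c2, c3]
      simp only [K, H, D]
      ring
    · rw [hχ.zero β h, map_zero, zero_mul, mul_zero]
  have l3 : ∀ γ, (if IsCoprime γ m then H (inv γ) γ else 0) =
      (χ (3 * c₀) * cb (3 * c₀) m ^ 2) ^ 2 * (χ γ * cb γ m ^ 2 * D γ) := by
    intro γ
    split_ifs with h
    · have h0 := hinv' γ h
      have h1 : m ∣ inv γ * (γ * (3 * c₀) ^ 2) - 1 := by
        rwa [← mul_assoc, mul_comm (inv γ)]
      have hci : IsCoprime (inv γ) m := by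
        obtain ⟨k, hk⟩ := h1
        exact ⟨γ * (3 * c₀) ^ 2, -k, by linear_combination hk⟩
      have x1 : χ (inv γ) * χ (γ * (3 * c₀) ^ 2) = 1 := by
        rw [← hχ.mul, hχ.per _ 1 h1, hχ.one]
      have x2 : χ (inv γ) * conj (χ (inv γ)) = 1 := by
        rw [hχ.mul_conj hm0, one, if_pos hci]
      have x3 : conj (χ (inv γ)) = χ γ * χ (3 * c₀) ^ 2 := by
        rw [← hχ.map_pow, ← hχ.mul]
        exact mul_left_cancel₀ (hχ.ne_zero.2 hci) (x2.trans x1.symm)
      have y1 : cb (inv γ) m * cb (γ * (3 * c₀) ^ 2) m = 1 := by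
        rw [← cb_mul_left, cb_congr h1, cub_one hm]
      have y2 : cb (γ * (3 * c₀) ^ 2) m ^ 3 = 1 := cub_cube hm (h.mul_left (hQm.pow_left (m := 2)))
      have y3 : cb (inv γ) m = (cb γ m * cb (3 * c₀) m ^ 2) ^ 2 := by
        rw [← cb_pow_left _ _ two_ne_zero, ← cb_mul_left]
        linear_combination (cb (γ * (3 * c₀) ^ 2) m ^ 2) * y1 - cb (inv γ) m * y2
      simp only [H, x3, y3]
      ring
    · rw [hχ.zero γ h]
      ring
  have l4 : Du τ (fun l => eQ (l * α') (3 * c₀) * Fd m χ l) a t L =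
      ∑ γ ∈ res m, χ γ * cb γ m ^ 2 * D γ := by
    have e : (fun l => eQ (l * α') (3 * c₀) * Fd m χ l) = fun l => ∑ γ ∈ res m,
        χ γ * cb γ m ^ 2 * (eQ (l * α') (3 * c₀) * eQ (l * γ) m) := by
      funext l
      rw [Fd, FT, rsum_eq_sum hm0, Finset.mul_sum]
      exact Finset.sum_congr rfl fun γ _ => by ring
    rw [e, Du_sum hτ _ (fun γ _ => ⟨‖χ γ * cb γ m ^ 2‖, fun n => by
      rw [norm_mul (χ γ * cb γ m ^ 2), norm_mul (eQ _ _), norm_eQ, norm_eQ, mul_one, mul_one]⟩) ha hL]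
    exact Finset.sum_congr rfl fun γ _ => Du_const_mul _ _ _ _ _ _
  rw [l1, Finset.sum_congr rfl fun β _ => l2 β, ← Finset.mul_sum, ← rsum_eq_sum hm0,
    rsum_inv hm0 hinv' hH₁ hH₂, rsum_eq_sum hm0, Finset.sum_congr rfl fun γ _ => l3 γ,
    ← Finset.mul_sum, l4]
  simp only [K]
  ring

end Crest.Agent.R17.F
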