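import Crest.Agent.R17.F.Basic

/-!
Row 17, block F: the quadratic large sieve with square factors; the trivial cubic large sieve.
-/

set_option autoImplicit false

namespace Crest.Agent.R17.F

open scoped Classical ComplexConjugate

theorem fsv_pull {ι : Type*} (T : Finset ι) (y k : O) (m : ι → O) (x : ι → ℂ) :
    ‖∑ j ∈ T, x j * sx (y * m j) k ^ 3‖ ^ 2 ≤ ‖∑ j ∈ T, x j * sx (m j) k ^ 3‖ ^ 2 := by
  have e : ∑ j ∈ T, x j * sx (y * m j) k ^ 3 = sx y k ^ 3 * ∑ j ∈ T, x j * sx (m j) k ^ 3 := by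
    rw [Finset.mul_sum]
    exact Finset.sum_congr rfl fun j _ => by rw [sx_mul_left]; ring
  rw [e, norm_mul, norm_pow]
  exact pow_le_pow_left₀ (by positivity) (mul_le_of_le_one_left (norm_nonneg _)
    (pow_le_one₀ (norm_nonneg _) (norm_sx_le y k))) 2

/-- `StE` for squarefree primary columns that may be even: `z = (-2) z'` (`prim_neg_two`,
`Prim.exists_mul`), two classes -/
theorem sieve_even (hE : StE) {ε : ℝ} (hε : 0 < ε) : ∃ C : ℝ, 0 ≤ C ∧
    ∀ (K M : ℝ) (A B : Finset O) (x : O → ℂ), 1 ≤ K → 1 ≤ M → (∀ k ∈ A, Sq K k) →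
      (∀ z ∈ B, Prim z ∧ Squarefree z ∧ nm z ≤ M) →
      ∑ k ∈ A, ‖∑ z ∈ B, x z * sx z k ^ 3‖ ^ 2 ≤
        C * (K * M) ^ ε * (K + M) * ∑ z ∈ B, ‖x z‖ ^ 2 := by
  obtain ⟨C, hC⟩ := hE ε hε
  refine ⟨2 * max C 0, by positivity, fun K M A B x hK hM hA hB => ?_⟩
  have hinj : Set.InjOn (fun z : O => -2 * z) ((fun z : O => -2 * z) ⁻¹' B) :=
    (mul_right_injective₀ prim_neg_two.ne_zero).injOn
  have key : ∀ (B' : Finset O) (x' : O → ℂ), (∀ l ∈ B', Sq M l) →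
      ∑ k ∈ A, ‖∑ l ∈ B', x' l * sx l k ^ 3‖ ^ 2 ≤
        max C 0 * (K * M) ^ ε * (K + M) * ∑ l ∈ B', ‖x' l‖ ^ 2 := fun B' x' h =>
    (hC K M A B' x' hK hM hA h).trans (by gcongr; exact le_max_left _ _)
  have h1 := key (B.filter fun z => z ∉ Set.range fun z : O => -2 * z) x fun l hl => by
    obtain ⟨a1, a2⟩ := Finset.mem_filter.1 hl
    refine ⟨(hB l a1).1, (hB l a1).2.1, (prime_two.irreducible.coprime_iff_not_dvd.2 ?_).symm,
      (hB l a1).2.2⟩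
    rintro ⟨w, rfl⟩
    exact a2 ⟨-w, by ring⟩
  have h2 := key (B.preimage _ hinj) (fun z => x (-2 * z)) fun l hl => by
    obtain ⟨a1, a2, a3⟩ := hB _ (Finset.mem_preimage.1 hl)
    refine ⟨prim_neg_two.of_mul a1, a2.of_mul_right,
      (prime_two.irreducible.coprime_iff_not_dvd.2 ?_).symm, le_trans ?_ a3⟩
    · rintro ⟨w, rfl⟩
      exact prime_two.not_isUnit (a2 2 ⟨-w, by ring⟩)
    · rw [nm_mul]
      exact le_mul_of_one_le_left (nm_nonneg l) (one_le_nm prim_neg_two.ne_zero)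
  rw [Finset.sum_preimage' (fun z : O => -2 * z) B hinj fun z => ‖x z‖ ^ 2] at h2
  rw [← Finset.sum_filter_add_sum_filter_not B (fun z => z ∈ Set.range fun z : O => -2 * z)
    fun z => ‖x z‖ ^ 2]
  refine le_trans (Finset.sum_le_sum (g := fun k =>
    2 * (‖∑ l ∈ B.preimage _ hinj, x (-2 * l) * sx l k ^ 3‖ ^ 2 +
      ‖∑ l ∈ B.filter fun z => z ∉ Set.range fun z : O => -2 * z, x l * sx l k ^ 3‖ ^ 2))
    fun k _ => ?_) ?_
  · rw [← Finset.sum_filter_add_sum_filter_not B (fun z => z ∈ Set.range fun z : O => -2 * z),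
      ← Finset.sum_preimage' (fun z : O => -2 * z) B hinj fun z => x z * sx z k ^ 3]
    have a1 := fsv_pull (B.preimage _ hinj) (-2) k (fun z => z) fun z => x (-2 * z)
    refine (pow_le_pow_left₀ (norm_nonneg _) (norm_add_le _ _) 2).trans ?_
    refine (add_sq_le).trans ?_
    linarith
  · rw [← Finset.mul_sum, Finset.sum_add_distrib]
    linarith

/-- Group by `y = g j` (`Finset.sum_fiberwise_of_maps_to`); `‖sx (y ^ 2) k ^ 3‖ ≤ 1`;
`sq_sum_le_weight` with weights `nm y` (`sum_inv_nm_le`); for fixed `y` group by `z = m j`,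
`sieve_even` with length `M / nm y ^ 2 ≥ 1`, `sq_sum_le_card` on the fibres;
`nm y * (K + M / nm y ^ 2) ≤ K * nm y + M`. -/
theorem sieve_sq (hE : StE) {ε : ℝ} (hε : 0 < ε) : ∃ C : ℝ, 0 ≤ C ∧
    ∀ {ι : Type} (T : Finset ι) (g m : ι → O) (x : ι → ℂ) (Z K M μ : ℝ) (A : Finset O),
      1 ≤ K → K ≤ Z → M ≤ Z → (∀ k ∈ A, Sq K k) →
      (∀ j ∈ T, Prim (g j) ∧ Prim (m j) ∧ Squarefree (m j) ∧ nm (g j) ^ 2 * nm (m j) ≤ M) →
      (∀ y z : O, ((T.filter fun j => g j = y ∧ m j = z).card : ℝ) ≤ μ) →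
      ∑ k ∈ A, ‖∑ j ∈ T, x j * sx (g j ^ 2 * m j) k ^ 3‖ ^ 2 ≤
        C * Z ^ ε * μ * ∑ j ∈ T, (K * nm (g j) + M) * ‖x j‖ ^ 2 := by
  obtain ⟨C₁, hC₁, h₁⟩ := sieve_even hE (ε := ε / 4) (by positivity)
  obtain ⟨C₂, hC₂, h₂⟩ := one_add_log_rpow_le 1 (half_pos hε)
  refine ⟨44 * C₂ * C₁, by positivity, fun T g m x Z K M μ A hK hKZ hMZ hA hT hμ => ?_⟩
  have hZ : 1 ≤ Z := hK.trans hKZ
  have hμ0 : 0 ≤ μ := (Nat.cast_nonneg _).trans (hμ 0 0)
  have hS : ∀ y ∈ T.image g, 1 ≤ nm y ∧ nm y ^ 2 ≤ M := by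
    intro y hy
    obtain ⟨j, hj, rfl⟩ := Finset.mem_image.1 hy
    obtain ⟨a1, a2, -, a4⟩ := hT j hj
    exact ⟨one_le_nm a1.ne_zero,
      (le_mul_of_one_le_right (by positivity) (one_le_nm a2.ne_zero)).trans a4⟩
  have hlog : ∑ y ∈ T.image g, (nm y)⁻¹ ≤ 44 * (C₂ * Z ^ (ε / 2)) := by
    refine (sum_inv_nm_le hZ fun y hy => ?_).trans ?_
    · nlinarith [hS y hy]
    · have := h₂ Z hZ
      rw [Real.rpow_one] at this
      linarith
  have hy : ∀ y ∈ T.image g,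
      nm y * ∑ k ∈ A, ‖∑ j ∈ T with g j = y, x j * sx (g j ^ 2 * m j) k ^ 3‖ ^ 2 ≤
        C₁ * Z ^ (ε / 2) * μ * ∑ j ∈ T with g j = y, (K * nm (g j) + M) * ‖x j‖ ^ 2 := by
    intro y hy
    obtain ⟨b1, b2⟩ := hS y hy
    have b0 : 0 < nm y ^ 2 := by positivity
    have hM : 0 ≤ M := b0.le.trans b2
    set T' := T.filter fun j => g j = y with hT'
    have hmap : ∀ j ∈ T', m j ∈ T'.image m := fun j hj => Finset.mem_image_of_mem m hj
    have a1 := h₁ K (M / nm y ^ 2) A (T'.image m) (fun z => ∑ j ∈ T' with m j = z, x j) hK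
      ((one_le_div b0).2 b2) hA fun z hz => by
        obtain ⟨j, hj, rfl⟩ := Finset.mem_image.1 hz
        obtain ⟨c1, rfl⟩ := Finset.mem_filter.1 hj
        exact ⟨(hT j c1).2.1, (hT j c1).2.2.1, (le_div_iff₀' b0).2 (hT j c1).2.2.2⟩
    have a2 : ∑ k ∈ A, ‖∑ j ∈ T', x j * sx (g j ^ 2 * m j) k ^ 3‖ ^ 2 ≤
        ∑ k ∈ A, ‖∑ z ∈ T'.image m, (∑ j ∈ T' with m j = z, x j) * sx z k ^ 3‖ ^ 2 := by
      refine Finset.sum_le_sum fun k _ => ?_
      rw [Finset.sum_congr rfl fun j hj => by rw [(Finset.mem_filter.1 hj).2]]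
      refine (fsv_pull T' (y ^ 2) k m x).trans_eq ?_
      rw [← Finset.sum_fiberwise_of_maps_to hmap]
      congr 2
      refine Finset.sum_congr rfl fun z _ => ?_
      rw [Finset.sum_mul]
      exact Finset.sum_congr rfl fun j hj => by rw [(Finset.mem_filter.1 hj).2]
    have a3 : ∑ z ∈ T'.image m, ‖∑ j ∈ T' with m j = z, x j‖ ^ 2 ≤ μ * ∑ j ∈ T', ‖x j‖ ^ 2 := by
      rw [← Finset.sum_fiberwise_of_maps_to hmap fun j => ‖x j‖ ^ 2, Finset.mul_sum]
      refine Finset.sum_le_sum fun z _ => (sq_sum_le_card _ _).trans ?_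
      refine mul_le_mul_of_nonneg_right ?_ (by positivity)
      rw [hT', Finset.filter_filter]
      exact hμ y z
    have a4 : (K * (M / nm y ^ 2)) ^ (ε / 4) ≤ Z ^ (ε / 2) := by
      have c1 : M / nm y ^ 2 ≤ Z := (div_le_self hM (one_le_pow₀ b1)).trans hMZ
      calc (K * (M / nm y ^ 2)) ^ (ε / 4) ≤ (Z * Z) ^ (ε / 4) := by gcongr
        _ = Z ^ (ε / 2) := by
          rw [Real.mul_rpow (by positivity) (by positivity), ← Real.rpow_add (by positivity)]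
          congr 1
          ring
    have a5 : nm y * (K + M / nm y ^ 2) ≤ K * nm y + M := by
      have c1 : nm y * (M / nm y ^ 2) = M / nm y := by field_simp
      have c2 := div_le_self hM b1
      linarith
    have a6 : ∑ j ∈ T', (K * nm (g j) + M) * ‖x j‖ ^ 2 = (K * nm y + M) * ∑ j ∈ T', ‖x j‖ ^ 2 := by
      rw [Finset.mul_sum]
      exact Finset.sum_congr rfl fun j hj => by rw [(Finset.mem_filter.1 hj).2]
    rw [a6]
    calc _ ≤ nm y * (C₁ * Z ^ (ε / 2) * (K + M / nm y ^ 2) * (μ * ∑ j ∈ T', ‖x j‖ ^ 2)) := by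
          refine mul_le_mul_of_nonneg_left ((a2.trans a1).trans ?_) (nm_nonneg y)
          gcongr
      _ = C₁ * Z ^ (ε / 2) * μ * (nm y * (K + M / nm y ^ 2) * ∑ j ∈ T', ‖x j‖ ^ 2) := by ring
      _ ≤ _ := by gcongr
  have hmap : ∀ j ∈ T, g j ∈ T.image g := fun j hj => Finset.mem_image_of_mem g hj
  calc ∑ k ∈ A, ‖∑ j ∈ T, x j * sx (g j ^ 2 * m j) k ^ 3‖ ^ 2
      ≤ ∑ k ∈ A, 44 * (C₂ * Z ^ (ε / 2)) * ∑ y ∈ T.image g,
          nm y * ‖∑ j ∈ T with g j = y, x j * sx (g j ^ 2 * m j) k ^ 3‖ ^ 2 := by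
        refine Finset.sum_le_sum fun k _ => ?_
        rw [← Finset.sum_fiberwise_of_maps_to hmap]
        refine (sq_sum_le_weight _ nm _ fun y hy => one_pos.trans_le (hS y hy).1).trans ?_
        exact mul_le_mul_of_nonneg_right hlog
          (Finset.sum_nonneg fun y _ => mul_nonneg (nm_nonneg y) (sq_nonneg _))
    _ ≤ 44 * (C₂ * Z ^ (ε / 2)) * ∑ y ∈ T.image g, C₁ * Z ^ (ε / 2) * μ *
          ∑ j ∈ T with g j = y, (K * nm (g j) + M) * ‖x j‖ ^ 2 := by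
        rw [← Finset.mul_sum, Finset.sum_comm]
        refine mul_le_mul_of_nonneg_left (Finset.sum_le_sum fun y h => ?_) (by positivity)
        rw [← Finset.mul_sum]
        exact hy y h
    _ = _ := by
        rw [← Finset.mul_sum, Finset.sum_fiberwise_of_maps_to hmap]
        have e : Z ^ ε = Z ^ (ε / 2) * Z ^ (ε / 2) := by
          rw [← Real.rpow_add (by positivity), add_halves]
        rw [e]
        ring

end Crest.Agent.R17.F
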